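import Vale.Agent.P146.H320.Conc
import Vale.Agent.P146.H9.Mod2

/-!
# P146: concavity of `v ↦ log E exp (x F_v)` for the SK model with a private field (helper320)
-/

open MeasureTheory ProbabilityTheory Set

namespace Vale.Agent.P146.H320.Conc

open Vale.Agent.P146 Vale.Agent.P146.H501 Vale.Agent.P146.H863.D29 Vale.Agent.P146.H329
open Vale.Agent.P146.H329.GA (Gg)

set_option linter.unusedSectionVars false

variable {n : ℕ}

/-- the gauge group of the SK model with a field -/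
lemma gg_sk (n : ℕ) (β : ℝ) : Gg (ska n β) (fun (σ : Fin n → ℤˣ) (i : Fin n) => sp σ i) 1 := by
  refine ⟨fun s => ⟨Equiv.mulLeft s, fun p => chi (ps p) s, fun i => sp s i, ?_, ?_, ?_, ?_, ?_,
    ?_⟩⟩
  · show s * 1 = s
    exact mul_one s
  · show s * s = 1
    exact GA.unit_mul_self s
  · exact fun p => GA.chi_pm _ _
  · intro i
    have h := sp_sq s i
    rcases mul_self_eq_one_iff.1 h with h1 | h1
    · exact Or.inl h1
    · exact Or.inr h1
  · intro τ p
    exact GA.ska_mul β s τ p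
  · intro τ i
    exact GA.sp_mul s τ i

lemma gr_sp (s : Fin n → ℤˣ) : gr (fun (σ : Fin n → ℤˣ) (i : Fin n) => sp σ i) s s = n := by
  unfold gr
  simp only [sp_sq]
  simp

lemma LPhi_zp (β x v : ℝ) : H877.LPhi n β x v = Real.log (∫ g, zp x
    (fv (ska n β) (fun (σ : Fin n → ℤˣ) (i : Fin n) => sp σ i) v) (fun _ => 0) g
      ∂(gpi (Pair n ⊕ Fin n))) := by
  rw [H9.LPhi_eq]
  congr 1
  show ∫ w, Real.exp (x * H9.Fv n β v w) ∂(gpi (Pair n ⊕ Fin n)) = _
  refine integral_congr_ae (Filter.Eventually.of_forall fun g => ?_)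
  simp only
  unfold zp
  congr 2
  have hg : g = Sum.elim (fun e => g (Sum.inl e)) (fun i => g (Sum.inr i)) := by
    funext e
    cases e <;> rfl
  conv_lhs => rw [hg]
  rw [H9.Fv_elim]
  unfold H877.FH zz wt
  congr 1
  refine Finset.sum_congr rfl fun σ _ => ?_
  congr 1
  rw [Fintype.sum_sum_type, add_zero]
  unfold fv
  simp only [Sum.elim_inl, Sum.elim_inr]
  rw [ska_sum]
  congr 1
  refine Finset.sum_congr rfl fun i _ => ?_
  simp only [Pi.smul_apply, smul_eq_mul, sp]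
  ring

/-- **CONCAVITY** of `v ↦ log E exp (x F_v)` on `[0, ∞)` -/
theorem LPhi_conc (n : ℕ) (β : ℝ) {x : ℝ} (hx : 0 ≤ x) (hx1 : x ≤ 1) :
    ConcaveOn ℝ (Ici 0) fun v => H877.LPhi n β x v := by
  have h := conc_moment hx hx1 (fun s => gr_sp s) (gg_sk n β)
  have e : (fun v => H877.LPhi n β x v) = fun v => Real.log (∫ g, zp x
    (fv (ska n β) (fun (σ : Fin n → ℤˣ) (i : Fin n) => sp σ i) v) (fun _ => 0) g
      ∂(gpi (Pair n ⊕ Fin n))) := by
    funext v
    exact LPhi_zp β x v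
  rw [e]
  exact h

/-- concavity of `v ↦ Φ(x, v)` -/
theorem Phn_conc (n : ℕ) (β : ℝ) {x : ℝ} (hx : 0 < x) (hx1 : x ≤ 1) :
    ConcaveOn ℝ (Ici 0) fun v => H9.Phn n β x v := by
  have h := (LPhi_conc n β hx.le hx1).smul (inv_nonneg.2 hx.le)
  have e : (fun v => H9.Phn n β x v) = fun v => x⁻¹ • H877.LPhi n β x v := by
    funext v
    unfold H9.Phn
    rw [smul_eq_mul, div_eq_inv_mul]
  rw [e]
  exact h

/-- the tangent inequality: at every `v > 0` there is a supergradient -/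
theorem exists_super {f : ℝ → ℝ} (hf : ConcaveOn ℝ (Ici 0) f) {v : ℝ} (hv : 0 < v) :
    ∃ σ : ℝ, ∀ w, 0 ≤ w → f w ≤ f v + σ * (w - v) := by
  have hf' := hf.neg
  have h0 : v ∈ interior (Ici (0 : ℝ)) := by
    rw [interior_Ici]
    exact hv
  refine ⟨-(derivWithin (-f) (Ioi v) v), fun w hw => ?_⟩
  rcases lt_trichotomy w v with h | h | h
  · have h1 := hf'.slope_le_leftDeriv_of_mem_interior hw h0 h
    have h2 := hf'.leftDeriv_le_rightDeriv_of_mem_interior h0
    have h3 := h1.trans h2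
    rw [slope_def_field, div_le_iff₀ (by linarith)] at h3
    simp only [Pi.neg_apply] at h3
    linarith
  · rw [h]
    simp
  · have h1 := hf'.rightDeriv_le_slope_of_mem_interior h0 hw h
    rw [slope_def_field, le_div_iff₀ (by linarith)] at h1
    simp only [Pi.neg_apply] at h1
    linarith

/-- a supergradient of a function which is at least its value at `0` is nonnegative -/
lemma super_nonneg {f : ℝ → ℝ} {v σ : ℝ} (h0 : ∀ w, 0 ≤ w → f 0 ≤ f w)
    (h : ∀ w, 0 ≤ w → f w ≤ f v + σ * (w - v)) : 0 ≤ σ := by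
  by_contra hσ
  push Not at hσ
  obtain ⟨w, hw⟩ : ∃ w, w = |v| + (|f v - f 0| + 1) / (-σ) := ⟨_, rfl⟩
  have h1 : 0 ≤ (|f v - f 0| + 1) / (-σ) := by
    have : 0 ≤ |f v - f 0| := abs_nonneg _
    exact div_nonneg (by linarith) (by linarith)
  have hw0 : 0 ≤ w := by
    rw [hw]
    have : 0 ≤ |v| := abs_nonneg _
    linarith
  have h2 := h w hw0
  have h3 := h0 w hw0
  have h4 : (|f v - f 0| + 1) / (-σ) ≤ w - v := by
    rw [hw]
    have := le_abs_self v
    linarith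
  have h5 := mul_le_mul_of_nonpos_left h4 hσ.le
  have h6 : σ * ((|f v - f 0| + 1) / (-σ)) = -(|f v - f 0| + 1) := by
    rw [mul_div_assoc', div_eq_iff (by linarith : -σ ≠ 0)]
    ring
  rw [h6] at h5
  have h7 := le_abs_self (f v - f 0)
  linarith

/-- **TANGENT** for the SK model with a private field: a slope between `0` and `n / 2` -/
theorem Phn_tangent (n : ℕ) (β : ℝ) {x v : ℝ} (hx : 0 < x) (hx1 : x ≤ 1) (hv : 0 < v) :
    ∃ σ : ℝ, 0 ≤ σ ∧ σ ≤ n / 2 ∧
      ∀ w, 0 ≤ w → H9.Phn n β x w ≤ H9.Phn n β x v + σ * (w - v) := by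
  obtain ⟨σ, hσ⟩ := exists_super (Phn_conc n β hx hx1) hv
  refine ⟨σ, super_nonneg (f := fun v => H9.Phn n β x v)
    (fun w _ => H9.Phn_zero_le n β w hx.le) hσ, ?_, hσ⟩
  have h1 := hσ 0 le_rfl
  have h2 := H9.Phn_le n β hx hx1 hv.le
  by_contra h3
  push Not at h3
  have h4 : (n : ℝ) / 2 * v < σ * v := mul_lt_mul_of_pos_right h3 hv
  nlinarith

/-- the tangent inequality in terms of the secant response `At` -/
theorem At_le_of_tangent (n : ℕ) {β x v σ : ℝ} (hβ : 0 < β) (hn : 1 ≤ n) (hv : 0 < v)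
    (h : ∀ w, 0 ≤ w → H9.Phn n β x w ≤ H9.Phn n β x v + σ * (w - v)) :
    2 * β / n * σ ≤ H877.At β n x v := by
  have hn0 : (0 : ℝ) < n := by exact_mod_cast hn
  rw [H9.At_eq]
  have h1 := h 0 le_rfl
  have h2 : σ * v ≤ H9.Phn n β x v - H9.Phn n β x 0 := by linarith
  have h3 : 2 * β / (n * v) * (σ * v) = 2 * β / n * σ := by
    field_simp
  rw [← h3]
  exact mul_le_mul_of_nonneg_left h2 (by positivity)

/-- `v ↦ LPhi n β x v` is nondecreasing on `[0, ∞)` -/
theorem Phn_mono (n : ℕ) (β : ℝ) {x : ℝ} (hx : 0 < x) (hx1 : x ≤ 1) :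
    MonotoneOn (fun v => H9.Phn n β x v) (Ici 0) := by
  intro v hv w hw hvw
  have hv0 : 0 ≤ v := hv
  have hw0 : 0 ≤ w := hw
  rcases hv0.eq_or_lt with h | h
  · rw [← h]
    exact H9.Phn_zero_le n β w hx.le
  · have hw1 : 0 < w := h.trans_le hvw
    obtain ⟨σ, h1, h2, h3⟩ := Phn_tangent n β hx hx1 hw1
    have h4 := h3 v hv0
    have h5 : σ * (v - w) ≤ 0 := mul_nonpos_of_nonneg_of_nonpos h1 (by linarith)
    simp only
    linarith

end Vale.Agent.P146.H320.Conc
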