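import Vale.Agent.P146.H320.TypN
import Vale.Agent.P146.H418.Skel

/-!
The joint choice (`TypN.typSK`) for the law `L` of `H418.Skel`, read in every system with levels:
rank one for the spins and for the pairs at `S` and at `insert i0 S`, the increments of the second
moments of the amplitude means and of the pairs when the site `i0` is revealed.
-/

open MeasureTheory ProbabilityTheory

namespace Vale.Agent.P146.H320

open Vale.Agent.P157.Lv Vale.Agent.P146.H425 Vale.Agent.P146.H332 Vale.Agent.P146.H646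
open Vale.Agent.P146.H325 hiding cb cf
open Vale.Agent.P146.H196 Vale.Agent.P146.H246 Vale.Agent.P146.H347
  Vale.Agent.P146.H816 Vale.Agent.P146.H118 Vale.Agent.P146.H9 Vale.Agent.P146.H475
  Vale.Agent.P146.H205 Vale.Agent.P146.H418 Vale.Agent.P146.H119

set_option linter.unusedSectionVars false

lemma bm_as {n : ℕ} {η : ℝ} (hη : 0 ≤ η) (j : Fin n) :
    Bm fun w : ℝ × Xs n => al η w.1 * sp w.2 j :=
  (bm_of_al (n := n) hη).mul (bm_sp j)

lemma ps_mono {n : ℕ} {S S' : Finset (Fin n)} (h : S ⊆ S') : ps S ⊆ ps S' :=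
  Finset.monotone_filter_right _ fun _ _ h' => ⟨h h'.1, h h'.2⟩

/-- the parameters are admissible -/
structure Adm (L : Law) : Prop where
  n0 : 0 < L.n
  b0 : 0 < L.b
  vp0 : 0 < L.vp
  lam0 : 0 < L.lam
  η0 : 0 ≤ L.η
  x0 : 0 ≤ L.x
  x1 : L.x ≤ 1

section num

variable (L : Law) {LB LF : Type} [Fintype LB] [DecidableEq LB] [Fintype LF] [DecidableEq LF]
  (cB : LB → ℝ) (cF : LF → ℝ)

/-- the conditional mean of `⟨f⟩` in the system with the levels `cB`, `cF` -/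
noncomputable abbrev cxL (K : Finset (Co L.n LB LF)) (f : ℝ × Xs L.n → ℝ) :
    (Co L.n LB LF → ℝ) → ℝ :=
  cx (g1 _) K (Wx L.n L.b cB cF L.s L.η L.lam L.c L.x)
    (avm (muA (Xs L.n) L.lam L.η L.c) 1 (Sm L.b cB cF L.s L.η) f)

/-- the mean in the system with the levels `cB`, `cF` -/
noncomputable abbrev exL (Ψ : (Co L.n LB LF → ℝ) → ℝ) : ℝ :=
  ex (g1 _) (Wx L.n L.b cB cF L.s L.η L.lam L.c L.x) Ψ

/-- rank one for the plain spins -/
noncomputable abbrev rkL (S : Finset (Fin L.n)) (K : Finset (Co L.n LB LF)) : ℝ :=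
  exL L cB cF fun z => ∑ i ∈ S, ∑ j ∈ S, (cxL L cB cF K (fun w => sp w.2 i * sp w.2 j) z -
    cxL L cB cF K (fun w => sp w.2 i) z * cxL L cB cF K (fun w => sp w.2 j) z) ^ 2

/-- rank one for the pairs -/
noncomputable abbrev rbL (S : Finset (Fin L.n)) (K : Finset (Co L.n LB LF)) : ℝ :=
  exL L cB cF fun z => ∑ q ∈ ps S, ∑ r ∈ ps S,
    (cxL L cB cF K (fun w => SkS q w.2 * SkS r w.2) z -
      cxL L cB cF K (fun w => SkS q w.2) z * cxL L cB cF K (fun w => SkS r w.2) z) ^ 2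

/-- the increments of the second moments of the amplitude means from `K` to `K'` -/
noncomputable abbrev incL (S : Finset (Fin L.n)) (K K' : Finset (Co L.n LB LF)) : ℝ :=
  ∑ j ∈ S, (exL L cB cF (fun z => cxL L cB cF K' (fun w => al L.η w.1 * sp w.2 j) z ^ 2) -
    exL L cB cF (fun z => cxL L cB cF K (fun w => al L.η w.1 * sp w.2 j) z ^ 2))

/-- the increments of the second moments of the pairs from `K` to `K'` -/
noncomputable abbrev ppL (S : Finset (Fin L.n)) (K K' : Finset (Co L.n LB LF)) : ℝ :=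
  ∑ q ∈ ps S, (exL L cB cF (fun z => cxL L cB cF K' (fun w => SkS q w.2) z ^ 2) -
    exL L cB cF (fun z => cxL L cB cF K (fun w => SkS q w.2) z ^ 2))

/-- what the choice gives at the window with the end point `(t1, u1)` and the lengths `dt`, `du`,
in the system with the levels `(cB, BL)`, `(cF, FL)`, the last `m` sites being hidden -/
structure Typ (t1 u1 dt du N M : ℝ) (m : ℕ) (BL : Finset LB) (FL : Finset LF) : Prop where
  rk : ∀ S : Finset (Fin L.n), S = Sn L.n m ∨ S = Sn L.n (m - 1) →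
    L.x ^ 2 * L.vp * du * rkL L cB cF S (Kset S BL FL) ≤ N * L.ff Finset.univ t1 u1
  rb : ∀ S : Finset (Fin L.n), S = Sn L.n m ∨ S = Sn L.n (m - 1) →
    L.x ^ 2 * (L.b ^ 2 / L.n) * dt * rbL L cB cF S (Kset S BL FL) ≤
      N * L.pp Finset.univ t1 u1
  inc : ∀ i0 : Fin L.n, i0.1 + m = L.n →
    incL L cB cF (Sn L.n m) (Kset (Sn L.n m) BL FL) (Kset (insert i0 (Sn L.n m)) BL FL) ≤
      N * (L.n * L.ex' t1 u1 (L.Q Finset.univ t1 u1)) / M
  pp : ∀ i0 : Fin L.n, i0.1 + m = L.n →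
    ppL L cB cF (Sn L.n m) (Kset (Sn L.n m) BL FL) (Kset (insert i0 (Sn L.n m)) BL FL) ≤
      N * L.pp Finset.univ t1 u1 / M

end num

section eqs

variable {L : Law} (h : Adm L) {t u : ℝ}
include h

lemma sqv : 0 < √L.vp := Real.sqrt_pos.2 h.vp0

lemma sh_can (ht0 : 0 ≤ t) (ht1 : t ≤ 1) (hu0 : 0 ≤ u) (hu1 : u ≤ 1) :
    Sh (cb t) (cf L.vp u) {true} {true} 1 (√L.vp) t u := by
  refine ⟨?_, ?_, ?_, ?_⟩
  · rw [sum_cb ht0 ht1, one_pow]
  · rw [sum_cf h.vp0.le hu0 hu1, Real.sq_sqrt h.vp0.le]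
  · rw [Finset.sum_singleton]
    simp [cb, Real.sq_sqrt ht0]
  · rw [Finset.sum_singleton]
    simp only [cf, cb, if_true, mul_pow]
    rw [Real.sq_sqrt h.vp0.le, Real.sq_sqrt hu0]
    ring

lemma gmb : GM (muA (Xs L.n) L.lam L.η L.c) (Sb L.n L.b 1 (√L.vp) L.s L.η)
    (M0c L.b (fun _ : Unit => 1) (fun _ : Unit => √L.vp) L.s L.η) :=
  gmA (n := L.n) L.b (fun _ : Unit => 1) (fun _ : Unit => √L.vp) L.s h.lam0 h.η0 L.c

lemma ff_QF (ht0 : 0 ≤ t) (ht1 : t ≤ 1) (hu0 : 0 ≤ u) (hu1 : u ≤ 1) (S : Finset (Fin L.n)) :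
    L.ff S t u = QF (muA (Xs L.n) L.lam L.η L.c) L.b 1 (√L.vp) L.s L.η L.x S t u :=
  qf_eq (gmb h) (gmA (n := L.n) L.b (cb t) (cf L.vp u) L.s h.lam0 h.η0 L.c) one_pos (sqv h)
    (sh_can h ht0 ht1 hu0 hu1) L.x S

lemma pp_QBd (ht0 : 0 ≤ t) (ht1 : t ≤ 1) (hu0 : 0 ≤ u) (hu1 : u ≤ 1) (S : Finset (Fin L.n)) :
    L.pp S t u = QBd (muA (Xs L.n) L.lam L.η L.c) L.b 1 (√L.vp) L.s L.η L.x S t u :=
  qbd_eq (gmb h) (gmA (n := L.n) L.b (cb t) (cf L.vp u) L.s h.lam0 h.η0 L.c) h.n0 h.b0 one_pos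
    (sqv h) (sh_can h ht0 ht1 hu0 hu1) L.x S

lemma rk_RKf (ht0 : 0 ≤ t) (ht1 : t ≤ 1) (hu0 : 0 ≤ u) (hu1 : u ≤ 1) (S : Finset (Fin L.n)) :
    L.rk S t u = RKf (muA (Xs L.n) L.lam L.η L.c) L.b 1 (√L.vp) L.s L.η L.x S t u / L.n ^ 2 := by
  rw [← rkf_eq (gmb h) (gmA (n := L.n) L.b (cb t) (cf L.vp u) L.s h.lam0 h.η0 L.c) one_pos (sqv h)
    (sh_can h ht0 ht1 hu0 hu1) L.x S]
  rfl

lemma Q_Nm (ht0 : 0 ≤ t) (ht1 : t ≤ 1) (hu0 : 0 ≤ u) (hu1 : u ≤ 1) (S : Finset (Fin L.n)) :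
    L.n * L.ex' t u (L.Q S t u) = Nm L.n L.lam L.b 1 (√L.vp) L.s L.η L.c L.x t u
      (fun (j : Fin L.n) w => al L.η w.1 * sp w.2 j) S S := by
  rw [← Nm_eq (S := S) (r := S) h.lam0 h.η0 one_pos (sqv h) ht0 ht1 hu0 hu1
    (sh_can h ht0 ht1 hu0 hu1) fun j => bm_as h.η0 j]
  have hn : (L.n : ℝ) ≠ 0 := by exact_mod_cast h.n0.ne'
  have e : L.Q S t u = fun z => (1 / (L.n : ℝ)) *
      ∑ i ∈ S, L.cx' S t u (fun w => al L.η w.1 * sp w.2 i) z ^ 2 := by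
    funext z
    unfold Law.Q
    ring
  rw [e]
  unfold Law.ex'
  rw [H487.ex_const_mul, ← mul_assoc, mul_one_div_cancel hn, one_mul]
  rfl

omit h in
lemma Nm_inl {n : ℕ} {lam b CB CF s η c x t u : ℝ} {A B : Type} [Fintype A] [Fintype B]
    (f : A → ℝ × Xs n → ℝ) (g : B → ℝ × Xs n → ℝ) (S : Finset (Fin n)) (r : Finset A) :
    Nm n lam b CB CF s η c x t u (fun a w => Sum.elim (fun j => f j w) (fun q => g q w) a) S
      (r.disjSum ∅) = Nm n lam b CB CF s η c x t u f S r := by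
  unfold Nm
  simp only [Finset.sum_disjSum, Finset.sum_empty, add_zero, Sum.elim_inl]

omit h in
lemma Nm_inr {n : ℕ} {lam b CB CF s η c x t u : ℝ} {A B : Type} [Fintype A] [Fintype B]
    (f : A → ℝ × Xs n → ℝ) (g : B → ℝ × Xs n → ℝ) (S : Finset (Fin n)) (r : Finset B) :
    Nm n lam b CB CF s η c x t u (fun a w => Sum.elim (fun j => f j w) (fun q => g q w) a) S
      ((∅ : Finset A).disjSum r) = Nm n lam b CB CF s η c x t u g S r := by
  unfold Nm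
  simp only [Finset.sum_disjSum, Finset.sum_empty, zero_add, Sum.elim_inr]

end eqs

/-- **TYPICAL POINTS.** For finitely many windows there are one parameter for every window and one
number `m` of hidden sites such that `Typ` holds at every window in every system with levels having
the shares of that point; `N = 6 #W + #E`. -/
theorem typS {L : Law} (h : Adm L) {m1 m2 : ℕ} (h1 : 1 ≤ m1) (h12 : m1 ≤ m2)
    {W : Type*} [Fintype W] {t0 t1 u0 u1 : W → ℝ}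
    (ht0 : ∀ w, 0 ≤ t0 w) (ht : ∀ w, t0 w ≤ t1 w) (ht1 : ∀ w, t1 w ≤ 1)
    (hu0 : ∀ w, 0 ≤ u0 w) (hu : ∀ w, u0 w ≤ u1 w) (hu1 : ∀ w, u1 w ≤ 1)
    {ε : Type*} (E : Finset ε) {g : ε → (W → ℝ) → ℕ → ℝ} {C : ε → ℝ}
    (hg : ∀ e ∈ E, ∀ r : W → ℝ, (∀ w, r w ∈ Set.Icc (0 : ℝ) 1) →
      ∀ m ∈ Finset.Icc m1 m2, 0 ≤ g e r m)
    (hC : ∀ e ∈ E, ∀ r : W → ℝ, (∀ w, r w ∈ Set.Icc (0 : ℝ) 1) →
      ∑ m ∈ Finset.Icc m1 m2, g e r m ≤ C e) :
    ∃ r : W → ℝ, (∀ w, r w ∈ Set.Icc (0 : ℝ) 1) ∧ ∃ m ∈ Finset.Icc m1 m2,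
      (∀ (w : W) (LB LF : Type) [Fintype LB] [DecidableEq LB] [Fintype LF] [DecidableEq LF]
        (cB : LB → ℝ) (cF : LF → ℝ) (BL : Finset LB) (FL : Finset LF),
        Sh cB cF BL FL 1 (√L.vp) (t0 w + r w * (t1 w - t0 w)) (u0 w + r w * (u1 w - u0 w)) →
        Typ L cB cF (t1 w) (u1 w) (t1 w - t0 w) (u1 w - u0 w)
          (6 * Fintype.card W + E.card) ((m2 : ℝ) - m1 + 1) m BL FL) ∧
      ∀ e ∈ E, g e r m ≤ (6 * Fintype.card W + E.card) * C e / ((m2 : ℝ) - m1 + 1) := by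
  classical
  have hv := sqv h
  have hvv : √L.vp ^ 2 = L.vp := Real.sq_sqrt h.vp0.le
  obtain ⟨r, hrI, m, hm, hA, hD, hE⟩ := typSK (s := L.s) (c := L.c)
    h.lam0 h.η0 h.n0 h.b0 one_pos hv h.x0 h.x1 h12 ht0 ht ht1 hu0 hu hu1
    (Finset.univ : Finset (W × Bool)) Prod.fst (fun _ => Fin L.n ⊕ Pair L.n)
    (fun _ a w => Sum.elim (fun j => al L.η w.1 * sp w.2 j) (fun q => SkS q w.2) a)
    (fun d a => by
      rcases a with j | q
      · exact bm_as h.η0 j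
      · exact H9.bm_SkS q)
    (fun d S => if d.2 then (∅ : Finset (Fin L.n)).disjSum (ps S)
      else S.disjSum (∅ : Finset (Pair L.n)))
    (fun d S S' hS => by
      rcases d with ⟨w, _ | _⟩
      · simpa using Finset.disjSum_mono hS (le_refl (∅ : Finset (Pair L.n)))
      · simpa using Finset.disjSum_mono (le_refl (∅ : Finset (Fin L.n))) (ps_mono hS))
    E hg hC
  have hN : (4 * (Fintype.card W : ℝ) + ((Finset.univ : Finset (W × Bool)).card : ℝ) +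
      E.card) = 6 * Fintype.card W + E.card := by
    rw [Finset.card_univ, Fintype.card_prod, Fintype.card_bool]
    push_cast
    ring
  rw [hN] at hA hD hE
  refine ⟨r, hrI, m, hm, fun w LB LF _ _ _ _ cB cF BL FL hs => ?_, hE⟩
  have hm1 : 1 ≤ m := h1.trans (Finset.mem_Icc.1 hm).1
  have a1 := pth_mem (ht w) (hrI w)
  have a2 := pth_mem (hu w) (hrI w)
  have t0' := (ht0 w).trans a1.1
  have t1' := a1.2.trans (ht1 w)
  have u0' := (hu0 w).trans a2.1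
  have u1' := a2.2.trans (hu1 w)
  have T0 := (ht0 w).trans (ht w)
  have U0 := (hu0 w).trans (hu w)
  have hG := gmb h
  have hG1 := gmA (n := L.n) L.b cB cF L.s h.lam0 h.η0 L.c
  have hSm : ∀ S : Finset (Fin L.n), S = Sn L.n m ∨ S = Sn L.n (m - 1) →
      ∃ m' ∈ ({m, m - 1} : Finset ℕ), S = SN L.n m' := by
    rintro S (rfl | rfl)
    · exact ⟨m, by simp, rfl⟩
    · exact ⟨m - 1, by simp, rfl⟩
  refine ⟨fun S hS => ?_, fun S hS => ?_, fun i0 hi0 => ?_, fun i0 hi0 => ?_⟩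
  · obtain ⟨m', hm', rfl⟩ := hSm S hS
    have h4 := (hA w m' hm').1
    rw [← rkf_eq hG hG1 one_pos hv hs L.x (SN L.n m'), hvv,
      ← ff_QF h T0 (ht1 w) U0 (hu1 w)] at h4
    exact h4
  · obtain ⟨m', hm', rfl⟩ := hSm S hS
    have h4 := (hA w m' hm').2
    rw [← rkb_eq hG hG1 h.n0 h.b0 one_pos hv hs L.x (SN L.n m'), one_pow, mul_one,
      ← pp_QBd h T0 (ht1 w) U0 (hu1 w)] at h4
    exact h4
  · have h4 := hD (w, false) (Finset.mem_univ _)
    simp only [Bool.false_eq_true, if_false, Nm_inl] at h4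
    have hin : insert i0 (Sn L.n m) = SN L.n (m - 1) := SN_insert hm1 hi0
    have h5 := inc_le (S := SN L.n m) (S' := insert i0 (Sn L.n m)) (r := SN L.n m)
      (r' := SN L.n (m - 1)) (x := L.x) (b := L.b) (s := L.s) (c := L.c)
      h.lam0 h.η0 one_pos hv t0' t1' u0' u1' hs (fun j => bm_as h.η0 j)
      (SN_anti (Nat.sub_le m 1))
    refine le_trans h5 ?_
    rw [hin, Q_Nm h T0 (ht1 w) U0 (hu1 w)]
    exact h4
  · have h4 := hD (w, true) (Finset.mem_univ _)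
    simp only [if_true, Nm_inr] at h4
    have hin : insert i0 (Sn L.n m) = SN L.n (m - 1) := SN_insert hm1 hi0
    have h5 := inc_le (S := SN L.n m) (S' := insert i0 (Sn L.n m)) (r := ps (SN L.n m))
      (r' := ps (SN L.n (m - 1))) (x := L.x) (b := L.b) (s := L.s) (c := L.c)
      h.lam0 h.η0 one_pos hv t0' t1' u0' u1' hs (fun q => H9.bm_SkS q)
      (ps_mono (SN_anti (Nat.sub_le m 1)))
    refine le_trans h5 ?_
    rw [hin, pp_QBd h T0 (ht1 w) U0 (hu1 w),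
      QBd_eq h.lam0 h.η0 h.n0 h.b0 one_pos hv T0 (ht1 w) U0 (hu1 w)]
    exact h4

/-- **TYPICAL POINT, one window.** -/
theorem typ1 {L : Law} (h : Adm L) {m1 m2 : ℕ} (h1 : 1 ≤ m1) (h12 : m1 ≤ m2) {t0 t1 u0 u1 : ℝ}
    (ht0 : 0 ≤ t0) (ht : t0 ≤ t1) (ht1 : t1 ≤ 1) (hu0 : 0 ≤ u0) (hu : u0 ≤ u1) (hu1 : u1 ≤ 1) :
    ∃ t ∈ Set.Icc t0 t1, ∃ u ∈ Set.Icc u0 u1, ∃ m ∈ Finset.Icc m1 m2,
      ∀ (LB LF : Type) [Fintype LB] [DecidableEq LB] [Fintype LF] [DecidableEq LF]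
        (cB : LB → ℝ) (cF : LF → ℝ) (BL : Finset LB) (FL : Finset LF),
        Sh cB cF BL FL 1 (√L.vp) t u →
        Typ L cB cF t1 u1 (t1 - t0) (u1 - u0) 6 ((m2 : ℝ) - m1 + 1) m BL FL := by
  obtain ⟨r, hr, m, hm, hA, _⟩ := typS h h1 h12 (W := Unit) (t0 := fun _ => t0)
    (t1 := fun _ => t1) (u0 := fun _ => u0) (u1 := fun _ => u1) (fun _ => ht0) (fun _ => ht)
    (fun _ => ht1) (fun _ => hu0) (fun _ => hu) (fun _ => hu1) (∅ : Finset Unit)
    (g := fun _ _ _ => 0) (C := fun _ => 0) (fun e he => absurd he (Finset.notMem_empty e))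
    (fun e he => absurd he (Finset.notMem_empty e))
  have hN : (6 * (Fintype.card Unit : ℝ) + ((∅ : Finset Unit).card : ℝ)) = 6 := by simp
  rw [hN] at hA
  refine ⟨_, pth_mem ht (hr ()), _, pth_mem hu (hr ()), m, hm, fun LB LF _ _ _ _ cB cF BL FL hs =>
    hA () LB LF cB cF BL FL hs⟩

/-- rank one in the letters of `L`, two levels -/
lemma rkL_can {L : Law} (h : Adm L) (S : Finset (Fin L.n)) (t u : ℝ) :
    rkL L (cb t) (cf L.vp u) S (Kset S {true} {true}) = L.n ^ 2 * L.rk S t u := by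
  have hn : (L.n : ℝ) ^ 2 ≠ 0 := pow_ne_zero 2 (by exact_mod_cast h.n0.ne')
  unfold Law.rk
  rw [mul_div_cancel₀ _ hn]
  rfl

end Vale.Agent.P146.H320
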