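import Vale.Agent.P146.H655.Low
import Vale.Agent.P146.H655.GumSK
import Vale.Agent.P146.H641.Tail

set_option linter.all false

/-!
# P146: all absolute moments and both sides of the fluctuations, from the standard deviation

For every `n` and `β`, with `σ = √Var F_n`: `E |F_n - E F_n| ^ p ≤ 7 (18 p (1 + σ)) ^ p`; and if
`σ ≥ 10440`, then `E |F_n - y| ^ p ≥ (σ / 10440) ^ p / 2` for all `y`, and `F_n - E F_n` is
`≥ σ / 167040`, and `≤ - σ / 167040`, with probability at least `10 ^ (-10)` each.
-/

open MeasureTheory ProbabilityTheory Set Filter Topology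

namespace Vale.Agent.P146.H320.MomP

open Vale.Agent.P146 Vale.Agent.P146.H605

variable (n : ℕ) (β : ℝ)

/-- The mean of the free energy. -/
noncomputable def mn : ℝ := ∫ g, freeEnergy n β g ∂(disorder n)

/-- The standard deviation of the free energy. -/
noncomputable def sd : ℝ := √Var[freeEnergy n β; disorder n]

lemma sd_nonneg : 0 ≤ sd n β := Real.sqrt_nonneg _

lemma sd_sq : sd n β ^ 2 = Var[freeEnergy n β; disorder n] :=
  Real.sq_sqrt (variance_nonneg _ _)

/-- Two-sided exponential moment at the scale of the standard deviation. -/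
theorem exp_abs {x : ℝ} (hx : 0 ≤ x) (hx1 : x * (18 * (1 + sd n β)) ≤ 1) :
    Integrable (fun g => Real.exp (x * |freeEnergy n β g - mn n β|)) (disorder n) ∧
    ∫ g, Real.exp (x * |freeEnergy n β g - mn n β|) ∂(disorder n) ≤ 7 := by
  obtain ⟨i1, b1⟩ := H641.exp_moment n β hx (show x * (18 * H641.sd1 n β) ≤ 1 from hx1)
  obtain ⟨i2, b2⟩ := H655.exp_moment_neg n β hx hx1
  have i1' : Integrable (fun g => Real.exp (x * (freeEnergy n β g - mn n β))) (disorder n) := i1
  have i2' : Integrable (fun g => Real.exp (-(x * (freeEnergy n β g - mn n β)))) (disorder n) := i2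
  have hpt : ∀ g, Real.exp (x * |freeEnergy n β g - mn n β|) ≤
      Real.exp (x * (freeEnergy n β g - mn n β)) +
        Real.exp (-(x * (freeEnergy n β g - mn n β))) := fun g => by
    rcases abs_cases (freeEnergy n β g - mn n β) with ⟨h, -⟩ | ⟨h, -⟩
    · rw [h]
      linarith [Real.exp_pos (-(x * (freeEnergy n β g - mn n β)))]
    · rw [h, show x * -(freeEnergy n β g - mn n β) = -(x * (freeEnergy n β g - mn n β)) by ring]
      linarith [Real.exp_pos (x * (freeEnergy n β g - mn n β))]
  have hc : Continuous fun g => Real.exp (x * |freeEnergy n β g - mn n β|) := by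
    have := H863.cont_freeEnergy n β
    fun_prop
  have hi : Integrable (fun g => Real.exp (x * |freeEnergy n β g - mn n β|)) (disorder n) := by
    refine (i1'.add i2').mono' hc.aestronglyMeasurable (Eventually.of_forall fun g => ?_)
    rw [Real.norm_of_nonneg (Real.exp_pos _).le]
    exact hpt g
  refine ⟨hi, (integral_mono hi (i1'.add i2') hpt).trans ?_⟩
  have h1 : ∫ g, Real.exp (x * (freeEnergy n β g - mn n β)) ∂(disorder n) ≤ 7 / 2 := b1
  have h2 : ∫ g, Real.exp (-(x * (freeEnergy n β g - mn n β))) ∂(disorder n) ≤ 7 / 2 := b2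
  have h3 := integral_add i1' i2'
  simp only [Pi.add_apply]
  rw [h3]
  linarith

lemma rpow_le_exp {p t : ℝ} (hp : 0 < p) (ht : 0 ≤ t) : t ^ p ≤ p ^ p * Real.exp t := by
  have h1 : t / p ≤ Real.exp (t / p) := by
    have := Real.add_one_le_exp (t / p)
    linarith
  have h2 : t = p * (t / p) := by
    field_simp
  have h3 : (t / p) ^ p ≤ Real.exp (t / p) ^ p :=
    Real.rpow_le_rpow (by positivity) h1 hp.le
  have h4 : Real.exp (t / p) ^ p = Real.exp t := by
    rw [← Real.exp_mul]
    congr 1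
    field_simp
  calc t ^ p = (p * (t / p)) ^ p := by rw [← h2]
    _ = p ^ p * (t / p) ^ p := Real.mul_rpow hp.le (by positivity)
    _ ≤ p ^ p * Real.exp t := by
      rw [← h4]
      exact mul_le_mul_of_nonneg_left h3 (by positivity)

lemma pt_le {p : ℝ} (hp : 0 < p) (y : ℝ) (g : Pair n → ℝ) :
    |freeEnergy n β g - y| ^ p ≤ (18 * p * (1 + sd n β)) ^ p *
      (Real.exp (|mn n β - y| / (18 * (1 + sd n β))) *
        Real.exp (1 / (18 * (1 + sd n β)) * |freeEnergy n β g - mn n β|)) := by
  have hs := sd_nonneg n β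
  have hS : 0 < 18 * (1 + sd n β) := by positivity
  have h1 := rpow_le_exp hp (t := |freeEnergy n β g - y| / (18 * (1 + sd n β))) (by positivity)
  have h2 : |freeEnergy n β g - y| / (18 * (1 + sd n β)) ≤ |mn n β - y| / (18 * (1 + sd n β)) +
      1 / (18 * (1 + sd n β)) * |freeEnergy n β g - mn n β| := by
    rw [one_div, inv_mul_eq_div, ← add_div]
    refine div_le_div_of_nonneg_right ?_ hS.le
    have e : freeEnergy n β g - y = (mn n β - y) + (freeEnergy n β g - mn n β) := by ring
    rw [e]
    exact abs_add_le _ _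
  have h3 : |freeEnergy n β g - y| ^ p =
      (18 * (1 + sd n β)) ^ p * (|freeEnergy n β g - y| / (18 * (1 + sd n β))) ^ p := by
    rw [← Real.mul_rpow hS.le (by positivity)]
    congr 1
    field_simp
  have h4 : (18 * p * (1 + sd n β)) ^ p = (18 * (1 + sd n β)) ^ p * p ^ p := by
    rw [← Real.mul_rpow hS.le hp.le]
    congr 1
    ring
  rw [h3, h4, ← Real.exp_add, mul_assoc]
  refine mul_le_mul_of_nonneg_left (h1.trans ?_) (by positivity)
  exact mul_le_mul_of_nonneg_left (Real.exp_le_exp.2 h2) (by positivity)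

lemma cont_mom {p : ℝ} (hp : 0 < p) (y : ℝ) :
    Continuous fun g : Pair n → ℝ => |freeEnergy n β g - y| ^ p := by
  have h := H863.cont_freeEnergy n β
  exact (Real.continuous_rpow_const hp.le).comp ((h.sub continuous_const).abs)

/-- All absolute moments are finite. -/
theorem int_mom {p : ℝ} (hp : 0 < p) (y : ℝ) :
    Integrable (fun g => |freeEnergy n β g - y| ^ p) (disorder n) := by
  have hs := sd_nonneg n β
  have hx : 1 / (18 * (1 + sd n β)) * (18 * (1 + sd n β)) ≤ 1 := by
    rw [one_div, inv_mul_cancel₀ (by positivity)]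
  obtain ⟨hi, -⟩ := exp_abs n β (by positivity) hx
  refine ((hi.const_mul (Real.exp (|mn n β - y| / (18 * (1 + sd n β))))).const_mul
    ((18 * p * (1 + sd n β)) ^ p)).mono' (cont_mom n β hp y).aestronglyMeasurable
    (Eventually.of_forall fun g => ?_)
  rw [Real.norm_of_nonneg (by positivity)]
  exact pt_le n β hp y g

/-- **All absolute moments around the mean are at most of the order of the power of the standard
deviation.** -/
theorem mom_upper {p : ℝ} (hp : 0 < p) :
    ∫ g, |freeEnergy n β g - mn n β| ^ p ∂(disorder n) ≤ 7 * (18 * p * (1 + sd n β)) ^ p := by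
  have hs := sd_nonneg n β
  have hx : 1 / (18 * (1 + sd n β)) * (18 * (1 + sd n β)) ≤ 1 := by
    rw [one_div, inv_mul_cancel₀ (by positivity)]
  obtain ⟨hi, hb⟩ := exp_abs n β (by positivity) hx
  have h1 : ∫ g, |freeEnergy n β g - mn n β| ^ p ∂(disorder n) ≤
      ∫ g, (18 * p * (1 + sd n β)) ^ p *
        Real.exp (1 / (18 * (1 + sd n β)) * |freeEnergy n β g - mn n β|) ∂(disorder n) := by
    refine integral_mono (int_mom n β hp _) (hi.const_mul _) fun g => ?_
    have h := pt_le n β hp (mn n β) g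
    simpa using h
  rw [integral_const_mul] at h1
  refine h1.trans ?_
  rw [mul_comm (7 : ℝ)]
  exact mul_le_mul_of_nonneg_left hb (by positivity)

lemma small (y : ℝ) (hσ : 10440 ≤ sd n β) :
    1 / 2 ≤ (disorder n).real {g | sd n β / 10440 ≤ |freeEnergy n β g - y|} := by
  have hs := sd_nonneg n β
  have h1 := H655.anticoncentration n β y (u := sd n β / 10440) (by positivity)
  have h2 : 2610 * (sd n β / 10440 + 1) / (1 + sd n β) ≤ 1 / 2 := by
    rw [div_le_iff₀ (by positivity)]
    nlinarith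
  have h3 : (disorder n).real {g | |freeEnergy n β g - y| ≤ sd n β / 10440} ≤ 1 / 2 := h1.trans h2
  have hm : MeasurableSet {g : Pair n → ℝ | |freeEnergy n β g - y| ≤ sd n β / 10440} := by
    have hc := H863.cont_freeEnergy n β
    exact measurableSet_le ((hc.sub continuous_const).abs).measurable measurable_const
  have h4 := probReal_compl_eq_one_sub (μ := disorder n) hm
  have h5 : (disorder n).real {g : Pair n → ℝ | |freeEnergy n β g - y| ≤ sd n β / 10440}ᶜ ≤
      (disorder n).real {g | sd n β / 10440 ≤ |freeEnergy n β g - y|} := by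
    refine measureReal_mono fun g hg => ?_
    have hg' : ¬ |freeEnergy n β g - y| ≤ sd n β / 10440 := hg
    exact (not_le.1 hg').le
  linarith

/-- **All absolute moments around any point are at least of the order of the power of the standard
deviation.** -/
theorem mom_lower {p : ℝ} (hp : 0 < p) (y : ℝ) (hσ : 10440 ≤ sd n β) :
    (sd n β / 10440) ^ p / 2 ≤ ∫ g, |freeEnergy n β g - y| ^ p ∂(disorder n) := by
  have hs := sd_nonneg n β
  have h1 := mul_meas_ge_le_integral_of_nonneg (μ := disorder n)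
    (f := fun g => |freeEnergy n β g - y| ^ p) (Eventually.of_forall fun g => by
      simp only [Pi.zero_apply]
      positivity) (int_mom n β hp y) ((sd n β / 10440) ^ p)
  have h2 := small n β y hσ
  have h3 : (disorder n).real {g | sd n β / 10440 ≤ |freeEnergy n β g - y|} ≤
      (disorder n).real {g | (sd n β / 10440) ^ p ≤ |freeEnergy n β g - y| ^ p} := by
    refine measureReal_mono fun g hg => ?_
    exact Real.rpow_le_rpow (by positivity) hg hp.le
  have h4 : 0 ≤ (sd n β / 10440) ^ p := by positivity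
  refine le_trans ?_ h1
  rw [div_eq_mul_one_div]
  exact mul_le_mul_of_nonneg_left (h2.trans h3) h4

lemma int_X : Integrable (fun g => freeEnergy n β g - mn n β) (disorder n) :=
  ((H641.memLp_freeEnergy n β).integrable (by norm_num)).sub (integrable_const _)

lemma mean_X : ∫ g, (freeEnergy n β g - mn n β) ∂(disorder n) = 0 := by
  rw [integral_sub ((H641.memLp_freeEnergy n β).integrable (by norm_num)) (integrable_const _)]
  simp [mn]

lemma int_X2 : Integrable (fun g => (freeEnergy n β g - mn n β) ^ 2) (disorder n) :=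
  ((H641.memLp_freeEnergy n β).sub (memLp_const _)).integrable_sq

lemma sq_X : ∫ g, (freeEnergy n β g - mn n β) ^ 2 ∂(disorder n) = sd n β ^ 2 := by
  rw [sd_sq, variance_eq_integral (H863.cont_freeEnergy n β).measurable.aemeasurable]
  rfl

/-- One side of the fluctuations, for `Y = ± (F - E F)`. -/
lemma side {Y : (Pair n → ℝ) → ℝ} (hc : Continuous Y) (hi : Integrable Y (disorder n))
    (hi2 : Integrable (fun g => Y g ^ 2) (disorder n)) {s : ℝ} (hs : 0 < s)
    (h0 : ∫ g, Y g ∂(disorder n) = 0) (h2 : ∫ g, Y g ^ 2 ∂(disorder n) = s ^ 2)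
    (h1 : s / 20880 ≤ ∫ g, |Y g| ∂(disorder n)) :
    1 / 10 ^ 10 ≤ (disorder n).real {g | s / 167040 ≤ Y g} := by
  have hm : MeasurableSet {g : Pair n → ℝ | s / 167040 ≤ Y g} :=
    measurableSet_le measurable_const hc.measurable
  have hind : Integrable ({g : Pair n → ℝ | s / 167040 ≤ Y g}.indicator fun _ => (1 : ℝ))
      (disorder n) := (integrable_const (1 : ℝ)).indicator hm
  have hpt : ∀ g, |Y g| ≤ -Y g + (2 * (s / 167040) + 2 * (1 / (167040 * s)) * Y g ^ 2 +
      167040 * s / 2 * {g : Pair n → ℝ | s / 167040 ≤ Y g}.indicator (fun _ => (1 : ℝ)) g) := by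
    intro g
    have hq : 0 ≤ 2 * (1 / (167040 * s)) * Y g ^ 2 := by positivity
    by_cases hg : s / 167040 ≤ Y g
    · have hmem : g ∈ {g : Pair n → ℝ | s / 167040 ≤ Y g} := hg
      rw [indicator_of_mem hmem]
      have hY : 0 ≤ Y g := le_trans (by positivity) hg
      rw [abs_of_nonneg hY]
      have h5 : 2 * Y g ≤ 2 * (1 / (167040 * s)) * Y g ^ 2 + 167040 * s / 2 * 1 := by
        have e : 2 * (1 / (167040 * s)) * Y g ^ 2 + 167040 * s / 2 * 1 - 2 * Y g =
            2 * (1 / (167040 * s)) * (Y g - 167040 * s / 2) ^ 2 := by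
          field_simp
          ring
        have : 0 ≤ 2 * (1 / (167040 * s)) * (Y g - 167040 * s / 2) ^ 2 := by positivity
        linarith
      have : 0 ≤ 2 * (s / 167040) := by positivity
      linarith
    · have hmem : g ∉ {g : Pair n → ℝ | s / 167040 ≤ Y g} := hg
      rw [indicator_of_notMem hmem]
      rcases le_total 0 (Y g) with hY | hY
      · rw [abs_of_nonneg hY]
        have := not_le.1 hg
        linarith
      · rw [abs_of_nonpos hY]
        have : 0 ≤ 2 * (s / 167040) := by positivity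
        linarith
  have iA : Integrable (fun g => -Y g) (disorder n) := hi.neg
  have iB : Integrable (fun g => 2 * (s / 167040) + 2 * (1 / (167040 * s)) * Y g ^ 2)
      (disorder n) := (integrable_const _).add (hi2.const_mul _)
  have iC : Integrable (fun g => 167040 * s / 2 *
      {g : Pair n → ℝ | s / 167040 ≤ Y g}.indicator (fun _ => (1 : ℝ)) g) (disorder n) :=
    hind.const_mul _
  have iBC : Integrable (fun g => 2 * (s / 167040) + 2 * (1 / (167040 * s)) * Y g ^ 2 +
      167040 * s / 2 * {g : Pair n → ℝ | s / 167040 ≤ Y g}.indicator (fun _ => (1 : ℝ)) g)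
      (disorder n) := iB.add iC
  have iall : Integrable (fun g => -Y g + (2 * (s / 167040) + 2 * (1 / (167040 * s)) * Y g ^ 2 +
      167040 * s / 2 * {g : Pair n → ℝ | s / 167040 ≤ Y g}.indicator (fun _ => (1 : ℝ)) g))
      (disorder n) := iA.add iBC
  have hI := integral_mono hi.abs iall hpt
  have e1 : ∫ g, (-Y g + (2 * (s / 167040) + 2 * (1 / (167040 * s)) * Y g ^ 2 +
      167040 * s / 2 * {g : Pair n → ℝ | s / 167040 ≤ Y g}.indicator (fun _ => (1 : ℝ)) g))
      ∂(disorder n) = 2 * (s / 167040) + 2 * (1 / (167040 * s)) * s ^ 2 +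
      167040 * s / 2 * (disorder n).real {g | s / 167040 ≤ Y g} := by
    have e5 : ∫ g, {g : Pair n → ℝ | s / 167040 ≤ Y g}.indicator (fun _ => (1 : ℝ)) g
        ∂(disorder n) = (disorder n).real {g | s / 167040 ≤ Y g} := integral_indicator_one hm
    have e6 : ∫ g, 2 * (1 / (167040 * s)) * Y g ^ 2 ∂(disorder n) =
        2 * (1 / (167040 * s)) * s ^ 2 := by rw [integral_const_mul, h2]
    have e7 : ∫ g, 167040 * s / 2 * {g : Pair n → ℝ | s / 167040 ≤ Y g}.indicator
        (fun _ => (1 : ℝ)) g ∂(disorder n) =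
        167040 * s / 2 * (disorder n).real {g | s / 167040 ≤ Y g} := by
      rw [integral_const_mul, e5]
    have e8 : ∫ _g : Pair n → ℝ, 2 * (s / 167040) ∂(disorder n) = 2 * (s / 167040) := by simp
    rw [integral_add iA iBC, integral_add iB iC,
      integral_add (integrable_const (2 * (s / 167040)))
      (hi2.const_mul (2 * (1 / (167040 * s)))), integral_neg, h0, e6, e7, e8]
    ring
  have hI2 : ∫ g, |Y g| ∂(disorder n) ≤ 2 * (s / 167040) + 2 * (1 / (167040 * s)) * s ^ 2 +
      167040 * s / 2 * (disorder n).real {g | s / 167040 ≤ Y g} := by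
    rw [← e1]
    exact hI
  have e2 : 2 * (1 / (167040 * s)) * s ^ 2 = 2 * (s / 167040) := by
    field_simp
  rw [e2] at hI2
  have h6 : s * (4 / 167040) ≤ s * (167040 / 2 * (disorder n).real {g | s / 167040 ≤ Y g}) := by
    have e3 : s / 20880 = 8 * (s / 167040) := by ring
    rw [e3] at h1
    linarith
  have h7 := le_of_mul_le_mul_left h6 hs
  have h8 : (1 : ℝ) / 10 ^ 10 ≤ 2 / 167040 * (4 / 167040) := by norm_num
  linarith

/-- **Both sides of the fluctuations.** -/
theorem both (hσ : 10440 ≤ sd n β) :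
    1 / 10 ^ 10 ≤ (disorder n).real {g | mn n β + sd n β / 167040 ≤ freeEnergy n β g} ∧
    1 / 10 ^ 10 ≤ (disorder n).real {g | freeEnergy n β g ≤ mn n β - sd n β / 167040} := by
  have hs : 0 < sd n β := by linarith
  have hc := H863.cont_freeEnergy n β
  have h1 : sd n β / 20880 ≤ ∫ g, |freeEnergy n β g - mn n β| ∂(disorder n) := by
    have h := mom_lower n β one_pos (mn n β) hσ
    simp only [Real.rpow_one] at h
    linarith
  constructor
  · have h := side n (Y := fun g => freeEnergy n β g - mn n β) (hc.sub continuous_const)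
      (int_X n β) (int_X2 n β) hs (mean_X n β) (sq_X n β) h1
    refine h.trans (measureReal_mono fun g hg => ?_)
    have hg' : sd n β / 167040 ≤ freeEnergy n β g - mn n β := hg
    show mn n β + sd n β / 167040 ≤ freeEnergy n β g
    linarith
  · have h := side n (Y := fun g => -(freeEnergy n β g - mn n β)) (hc.sub continuous_const).neg
      (int_X n β).neg (by simp only [neg_sq]; exact int_X2 n β) hs
      (by rw [integral_neg, mean_X, neg_zero])
      (by simp only [neg_sq]; exact sq_X n β) (by simp only [abs_neg]; exact h1)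
    refine h.trans (measureReal_mono fun g hg => ?_)
    have hg' : sd n β / 167040 ≤ -(freeEnergy n β g - mn n β) := hg
    show freeEnergy n β g ≤ mn n β - sd n β / 167040
    linarith

lemma pow_ev {a : ℝ} (ha : 0 < a) (C : ℝ) : ∀ᶠ n : ℕ in atTop, C ≤ (n : ℝ) ^ a :=
  ((tendsto_rpow_atTop ha).comp tendsto_natCast_atTop_atTop).eventually_ge_atTop C

lemma sd_ge {n : ℕ} {β γ : ℝ} (hn : (0 : ℝ) < n)
    (h : (n : ℝ) ^ (2 * γ) ≤ Var[freeEnergy n β; disorder n]) : (n : ℝ) ^ γ ≤ sd n β := by
  have e : (n : ℝ) ^ γ = √((n : ℝ) ^ (2 * γ)) := by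
    rw [Real.sqrt_eq_rpow, ← Real.rpow_mul hn.le]
    congr 1
    ring
  rw [e]
  exact Real.sqrt_le_sqrt h

lemma sd_le {n : ℕ} {β γ : ℝ} (hn : (0 : ℝ) < n)
    (h : Var[freeEnergy n β; disorder n] ≤ (n : ℝ) ^ (2 * γ)) : sd n β ≤ (n : ℝ) ^ γ := by
  have e : (n : ℝ) ^ γ = √((n : ℝ) ^ (2 * γ)) := by
    rw [Real.sqrt_eq_rpow, ← Real.rpow_mul hn.le]
    congr 1
    ring
  rw [e]
  exact Real.sqrt_le_sqrt h

/-- **All absolute moments, and both sides of the fluctuations, from power bounds of the
variance.** -/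
theorem order {β q r : ℝ} (hq : 0 < q) (hr : 0 ≤ r)
    (hV : ∀ γ : ℝ, γ < 2 * q → ∀ᶠ n : ℕ in atTop,
      (n : ℝ) ^ γ ≤ Var[freeEnergy n β; disorder n])
    (hU : ∀ ε : ℝ, 0 < ε → ∀ᶠ n : ℕ in atTop,
      Var[freeEnergy n β; disorder n] ≤ (n : ℝ) ^ (2 * r + ε)) :
    (∀ p ε : ℝ, 0 < p → 0 < ε → ∀ᶠ n : ℕ in atTop,
      (∀ y : ℝ, (n : ℝ) ^ (p * q - ε) ≤ ∫ g, |freeEnergy n β g - y| ^ p ∂(disorder n)) ∧
      ∫ g, |freeEnergy n β g - ∫ h, freeEnergy n β h ∂(disorder n)| ^ p ∂(disorder n) ≤
        (n : ℝ) ^ (p * r + ε)) ∧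
    (∀ ε : ℝ, 0 < ε → ∀ᶠ n : ℕ in atTop,
      1 / 10 ^ 10 ≤ (disorder n).real {g | ∫ h, freeEnergy n β h ∂(disorder n) +
        (n : ℝ) ^ (q - ε) ≤ freeEnergy n β g} ∧
      1 / 10 ^ 10 ≤ (disorder n).real {g | freeEnergy n β g ≤
        ∫ h, freeEnergy n β h ∂(disorder n) - (n : ℝ) ^ (q - ε)}) := by
  have hbig : ∀ᶠ n : ℕ in atTop, 10440 ≤ sd n β := by
    filter_upwards [hV (2 * (q / 2)) (by linarith), pow_ev (half_pos hq) 10440,
      eventually_gt_atTop 0] with n h1 h2 h3
    exact h2.trans (sd_ge (by exact_mod_cast h3) h1)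
  refine ⟨fun p ε hp hε => ?_, fun ε hε => ?_⟩
  · have hεp : 0 < ε / (2 * p) := by positivity
    have hpe : p * (ε / (2 * p)) = ε / 2 := by field_simp
    filter_upwards [hbig, hV (2 * (q - ε / (2 * p))) (by linarith),
      hU (2 * (ε / (2 * p))) (by positivity), pow_ev (half_pos hε) (2 * 10440 ^ p),
      pow_ev (half_pos hε) (7 * (36 * p) ^ p), eventually_ge_atTop 1] with n h1 h2 h3 h4 h5 h6
    have hn1 : (1 : ℝ) ≤ n := by exact_mod_cast h6
    have hn0 : (0 : ℝ) < n := by linarith
    have hs := sd_nonneg n β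
    constructor
    · intro y
      refine le_trans ?_ (mom_lower n β hp y h1)
      have h7 := sd_ge hn0 h2
      have h8 : ((n : ℝ) ^ (q - ε / (2 * p)) / 10440) ^ p ≤ (sd n β / 10440) ^ p :=
        Real.rpow_le_rpow (by positivity) (by gcongr) hp.le
      refine le_trans ?_ (div_le_div_of_nonneg_right h8 (by norm_num))
      rw [Real.div_rpow (by positivity) (by norm_num), ← Real.rpow_mul hn0.le, div_div,
        le_div_iff₀ (by positivity)]
      have e1 : (n : ℝ) ^ ((q - ε / (2 * p)) * p) = (n : ℝ) ^ (p * q - ε) * (n : ℝ) ^ (ε / 2) := by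
        rw [← Real.rpow_add hn0]
        congr 1
        linear_combination -hpe
      rw [e1, mul_comm ((10440 : ℝ) ^ p) 2]
      exact mul_le_mul_of_nonneg_left h4 (by positivity)
    · refine (mom_upper n β hp).trans ?_
      have h7 : sd n β ≤ (n : ℝ) ^ (r + ε / (2 * p)) := by
        refine sd_le hn0 (h3.trans (le_of_eq ?_))
        congr 1
        ring
      have h8 : (1 : ℝ) ≤ (n : ℝ) ^ (r + ε / (2 * p)) := Real.one_le_rpow hn1 (by positivity)
      have h9 : (18 * p * (1 + sd n β)) ^ p ≤ (36 * p * (n : ℝ) ^ (r + ε / (2 * p))) ^ p := by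
        refine Real.rpow_le_rpow (by positivity) ?_ hp.le
        have : 18 * p * (1 + sd n β) ≤
            18 * p * ((n : ℝ) ^ (r + ε / (2 * p)) + (n : ℝ) ^ (r + ε / (2 * p))) := by
          gcongr
        linarith
      have e2 : (36 * p * (n : ℝ) ^ (r + ε / (2 * p))) ^ p =
          (36 * p) ^ p * (n : ℝ) ^ ((r + ε / (2 * p)) * p) := by
        rw [Real.mul_rpow (by positivity) (by positivity), ← Real.rpow_mul hn0.le]
      rw [e2] at h9
      have e1 : (n : ℝ) ^ (p * r + ε) = (n : ℝ) ^ (ε / 2) * (n : ℝ) ^ ((r + ε / (2 * p)) * p) := by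
        rw [← Real.rpow_add hn0]
        congr 1
        linear_combination -hpe
      rw [e1]
      calc 7 * (18 * p * (1 + sd n β)) ^ p ≤
          7 * ((36 * p) ^ p * (n : ℝ) ^ ((r + ε / (2 * p)) * p)) := by linarith
        _ = 7 * (36 * p) ^ p * (n : ℝ) ^ ((r + ε / (2 * p)) * p) := by ring
        _ ≤ _ := mul_le_mul_of_nonneg_right h5 (by positivity)
  · filter_upwards [hbig, hV (2 * (q - ε / 2)) (by linarith), pow_ev (half_pos hε) 167040,
      eventually_gt_atTop 0] with n h1 h2 h3 h4
    have hn0 : (0 : ℝ) < n := by exact_mod_cast h4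
    have h7 := sd_ge hn0 h2
    have e1 : (n : ℝ) ^ (q - ε / 2) = (n : ℝ) ^ (q - ε) * (n : ℝ) ^ (ε / 2) := by
      rw [← Real.rpow_add hn0]
      congr 1
      ring
    have h8 : (n : ℝ) ^ (q - ε) ≤ sd n β / 167040 := by
      rw [le_div_iff₀ (by norm_num)]
      refine le_trans ?_ h7
      rw [e1]
      exact mul_le_mul_of_nonneg_left h3 (by positivity)
    obtain ⟨h9, h10⟩ := both n β h1
    refine ⟨h9.trans (measureReal_mono fun g hg => ?_), h10.trans (measureReal_mono fun g hg => ?_)⟩
    · have hg' : mn n β + sd n β / 167040 ≤ freeEnergy n β g := hg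
      show mn n β + (n : ℝ) ^ (q - ε) ≤ freeEnergy n β g
      linarith
    · have hg' : freeEnergy n β g ≤ mn n β - sd n β / 167040 := hg
      show freeEnergy n β g ≤ mn n β - (n : ℝ) ^ (q - ε)
      linarith

end Vale.Agent.P146.H320.MomP
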