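import Vale.Agent.P146.H178.S1
import Vale.Agent.P146.H320.MomP

set_option linter.all false

/-!
# P146: the clauses on the absolute moments and on the two sides of the fluctuations

`s1m_of` : exponent `1 / 7`; `s2m_of` : exponent `1 / 6`, under the hypotheses of `H178.s1_of` and
`H178.s2_of`.
-/

open MeasureTheory ProbabilityTheory Set Filter Topology

namespace Vale.Agent.P146.H320

open Vale.Agent.P146 Vale.Agent.P146.H605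
open Vale.Agent.P146.H178
open Vale.Agent.P146.H529 (Kam sA sB lA hA)

lemma up_var {β : ℝ} (hβ : 1 < β) (ε : ℝ) (hε : 0 < ε) : ∀ᶠ n : ℕ in atTop,
    Var[freeEnergy n β; disorder n] ≤ (n : ℝ) ^ (2 * (1 / 6) + ε) := by
  have e : (2 * (1 / 6) + ε : ℝ) = 1 / 3 + ε := by ring
  rw [e]
  exact (up_ev hβ hε).mono fun n h => h.1

/-- Absolute moments and both sides at the exponent `1 / 7`. -/
theorem s1m_of {β b₁ : ℝ} (hβ : 1 < β) (h0 : 0 < b₁) (h1 : b₁ < 2 / 17)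
    (hU : ∃ q0 : ℝ, 0 < q0 ∧ ∀ q, 0 < q → q ≤ q0 → KampUp β b₁ (1 / 6 - 1 / 7 + 1000 * q) (q / 2)
      (10 * q) (11 * q) (24 * q) q (Kam β (sA q) (lA q) (hA q)))
    (hS : ∃ q0 : ℝ, 0 < q0 ∧ ∀ q, 0 < q → q ≤ q0 → StartH β b₁ (23 * q) (10 * q) (24 * q)
      (fun n => H9.Phn n β)) :
    (∀ p ε : ℝ, 0 < p → 0 < ε → ∀ᶠ n : ℕ in atTop,
      (∀ y : ℝ, (n : ℝ) ^ (p / 7 - ε) ≤ ∫ g, |freeEnergy n β g - y| ^ p ∂(disorder n)) ∧
      ∫ g, |freeEnergy n β g - ∫ h, freeEnergy n β h ∂(disorder n)| ^ p ∂(disorder n) ≤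
        (n : ℝ) ^ (p / 6 + ε)) ∧
    (∀ ε : ℝ, 0 < ε → ∀ᶠ n : ℕ in atTop,
      1 / 10 ^ 10 ≤ (disorder n).real {g | ∫ h, freeEnergy n β h ∂(disorder n) +
        (n : ℝ) ^ (1 / 7 - ε) ≤ freeEnergy n β g} ∧
      1 / 10 ^ 10 ≤ (disorder n).real {g | freeEnergy n β g ≤
        ∫ h, freeEnergy n β h ∂(disorder n) - (n : ℝ) ^ (1 / 7 - ε)}) := by
  obtain ⟨q1, hq1, hU⟩ := hU
  obtain ⟨q2, hq2, hS⟩ := hS
  have hR : RespQ (1 / 7) b₁ (H877.At β) :=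
    H418.resp_A (q0 := min q1 q2) hβ le_rfl h0 (lt_min hq1 hq2)
      (fun q a b => hU q a (b.trans (min_le_left _ _)))
      (fun q a b => hS q a (b.trans (min_le_right _ _)))
  obtain ⟨h2, h3⟩ := MomP.order (q := 1 / 7) (r := 1 / 6) (by norm_num) (by norm_num)
    (lowV_of_respQ (by norm_num) (by norm_num) hβ h0 h1 hR) (up_var hβ)
  refine ⟨fun p ε hp hε => ?_, h3⟩
  have h := h2 p ε hp hε
  rw [show p * (1 / 7) = p / 7 by ring, show p * (1 / 6) = p / 6 by ring] at h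
  exact h

/-- Absolute moments and both sides at the exponent `1 / 6`. -/
theorem s2m_of {β b₁ : ℝ} (hβ : 1 < β) (h0 : 0 < b₁) (h1 : b₁ < 2 / 17)
    (hU : ∃ q0 : ℝ, 0 < q0 ∧ ∀ q, 0 < q → q ≤ q0 → KampUp β b₁ (1 / 6 - 1 / 6 + 1000 * q) (q / 2)
      (10 * q) (11 * q) (24 * q) q (Kam β (sB q) (lA q) (hA q)))
    (hS : ∃ q0 : ℝ, 0 < q0 ∧ ∀ q, 0 < q → q ≤ q0 → StartH β b₁ (23 * q) (10 * q) (24 * q)
      (fun n => H9.Phn n β)) :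
    (∀ p ε : ℝ, 0 < p → 0 < ε → ∀ᶠ n : ℕ in atTop,
      (∀ y : ℝ, (n : ℝ) ^ (p / 6 - ε) ≤ ∫ g, |freeEnergy n β g - y| ^ p ∂(disorder n)) ∧
      ∫ g, |freeEnergy n β g - ∫ h, freeEnergy n β h ∂(disorder n)| ^ p ∂(disorder n) ≤
        (n : ℝ) ^ (p / 6 + ε)) ∧
    (∀ ε : ℝ, 0 < ε → ∀ᶠ n : ℕ in atTop,
      1 / 10 ^ 10 ≤ (disorder n).real {g | ∫ h, freeEnergy n β h ∂(disorder n) +
        (n : ℝ) ^ (1 / 6 - ε) ≤ freeEnergy n β g} ∧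
      1 / 10 ^ 10 ≤ (disorder n).real {g | freeEnergy n β g ≤
        ∫ h, freeEnergy n β h ∂(disorder n) - (n : ℝ) ^ (1 / 6 - ε)}) := by
  have hR : Resp b₁ (H877.At β) := resp2_of hβ h0 hU hS
  have e1 : (2 * (1 / 6) : ℝ) = 1 / 3 := by norm_num
  obtain ⟨h2, h3⟩ := MomP.order (q := 1 / 6) (r := 1 / 6) (by norm_num) (by norm_num)
    (by rw [e1]; exact lowV_of_resp hβ h0 h1 hR) (up_var hβ)
  refine ⟨fun p ε hp hε => ?_, h3⟩
  have h := h2 p ε hp hε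
  rw [show p * (1 / 6) = p / 6 by ring] at h
  exact h

end Vale.Agent.P146.H320
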