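import Vale.Agent.P146.H329.Trans
import Vale.Agent.P146.H773.Pk2

/-!
# P146: concavity of the log-moment in the variance of a private field (helper320)

`fv a d v s = (a s, √v d s)`: a Gaussian exponential sum with an extra Gaussian field of variance
`v` and Gram matrix `D s t = ∑ k, d s k * d t k` of constant diagonal `D0`, invariant under a
transitive group of sign changes.  For `0 ≤ x ≤ 1` the function `v ↦ log E Z_v ^ x` is concave on
`[0, ∞)`.
-/

open MeasureTheory ProbabilityTheory Set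

namespace Vale.Agent.P146.H320.Conc

open Vale.Agent.P146 Vale.Agent.P146.H501 Vale.Agent.P146.H863.D29 Vale.Agent.P146.H329
open Vale.Agent.P146.H329.GA (Gg)

set_option linter.unusedSectionVars false

variable {ι κ S : Type} [Fintype ι] [Fintype κ] [Fintype S] [Nonempty S]

/-- the family with the field of variance `v` -/
noncomputable def fv (a : S → ι → ℝ) (d : S → κ → ℝ) (v : ℝ) (s : S) : ι ⊕ κ → ℝ :=
  Sum.elim (a s) fun k => Real.sqrt v * d s k

/-- the family with a common coordinate -/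
noncomputable def ext (a : S → ι → ℝ) (c : ℝ) (s : S) : ι ⊕ Unit → ℝ :=
  Sum.elim (a s) fun _ => c

lemma zz_ext (a : S → ι → ℝ) (c : ℝ) (ψ : S → ℝ) (u : ι → ℝ) (w : Unit → ℝ) :
    zz (ext a c) ψ (Sum.elim u w) = Real.exp (c * w ()) * zz a ψ u := by
  unfold zz
  rw [Finset.mul_sum]
  refine Finset.sum_congr rfl fun s _ => ?_
  unfold wt ext
  rw [← Real.exp_add, Fintype.sum_sum_type]
  simp only [Sum.elim_inl, Sum.elim_inr, Finset.univ_unique, Finset.sum_singleton]
  congr 1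
  have : (default : Unit) = () := rfl
  rw [this]
  ring

lemma zz_const (a : S → ι → ℝ) (ψ : S → ℝ) (k : ℝ) (u : ι → ℝ) :
    zz a (fun s => ψ s + k) u = Real.exp k * zz a ψ u := by
  unfold zz
  rw [Finset.mul_sum]
  refine Finset.sum_congr rfl fun s _ => ?_
  unfold wt
  rw [← Real.exp_add]
  congr 1
  ring

lemma zp_const (p : ℝ) (a : S → ι → ℝ) (ψ : S → ℝ) (k : ℝ) (u : ι → ℝ) :
    zp (-p) a (fun s => ψ s + k) u = Real.exp (-(p * k)) * zp (-p) a ψ u := by
  unfold zp
  rw [zz_const, Real.log_mul (Real.exp_pos _).ne' (zz_pos a ψ u).ne', Real.log_exp,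
    ← Real.exp_add]
  congr 1
  ring

lemma Np_const (p : ℝ) (a : S → ι → ℝ) (s0 : S) (ψ : S → ℝ) (k : ℝ) :
    Np p a s0 (fun s => ψ s + k) = Real.exp (-(p * k)) * Np p a s0 ψ := by
  unfold Np
  rw [← integral_const_mul]
  refine integral_congr_ae (Filter.Eventually.of_forall fun g => ?_)
  simp only
  rw [zp_const]
  ring

lemma Np_ext (p : ℝ) (a : S → ι → ℝ) (c : ℝ) (s0 : S) (ψ : S → ℝ) :
    Np p (ext a c) s0 ψ = Real.exp (((1 - p) * c) ^ 2 / 2) * Np p a s0 ψ := by
  unfold Np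
  rw [int_sum_type (np_dom p (ext a c) s0 ψ).integrable, ← integral_const_mul]
  refine integral_congr_ae (Filter.Eventually.of_forall fun u => ?_)
  simp only
  have e : ∀ w : Unit → ℝ, Real.exp (∑ i, ext a c s0 i * (Sum.elim u w : ι ⊕ Unit → ℝ) i) *
      zp (-p) (ext a c) ψ (Sum.elim u w) =
      Real.exp (∑ i, a s0 i * u i) * zp (-p) a ψ u * Real.exp (((1 - p) * c) * w ()) := by
    intro w
    unfold zp
    rw [zz_ext, Real.log_mul (Real.exp_pos _).ne' (zz_pos a ψ u).ne', Real.log_exp]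
    simp only [← Real.exp_add]
    congr 1
    rw [Fintype.sum_sum_type]
    unfold ext
    simp only [Sum.elim_inl, Sum.elim_inr, Finset.univ_unique, Finset.sum_singleton]
    have : (default : Unit) = () := rfl
    rw [this]
    ring
  simp only [e]
  rw [integral_const_mul, int_exp_unit]
  ring

lemma Np_pos (p : ℝ) (a : S → ι → ℝ) (s0 : S) (ψ : S → ℝ) : 0 < Np p a s0 ψ := by
  unfold Np
  rw [SW.shift_int]
  refine mul_pos (Real.exp_pos _) ?_
  simp only [SW.zp_shift]
  exact SW.zp_int_pos _ _ _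

/-- the Gram matrix of the field -/
noncomputable def gr (d : S → κ → ℝ) (s t : S) : ℝ := ∑ k, d s k * d t k

lemma gram_fv (a : S → ι → ℝ) (d : S → κ → ℝ) {v : ℝ} (hv : 0 ≤ v) (s t : S) :
    ∑ e, fv a d v s e * fv a d v t e = (∑ i, a s i * a t i) + v * gr d s t := by
  rw [Fintype.sum_sum_type]
  unfold fv gr
  simp only [Sum.elim_inl, Sum.elim_inr]
  congr 1
  rw [Finset.mul_sum]
  refine Finset.sum_congr rfl fun k _ => ?_
  have := Real.mul_self_sqrt hv
  linear_combination (d s k * d t k) * this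

lemma gram_ext (a : S → ι → ℝ) (c : ℝ) (s t : S) :
    ∑ e, ext a c s e * ext a c t e = (∑ i, a s i * a t i) + c ^ 2 := by
  rw [Fintype.sum_sum_type]
  unfold ext
  simp only [Sum.elim_inl, Sum.elim_inr, Finset.univ_unique, Finset.sum_singleton]
  ring

variable {a : S → ι → ℝ} {d : S → κ → ℝ} {s0 : S} {p D0 : ℝ}

/-- the gauge group acts on the two extended families -/
lemma gg_ext (hg : Gg a d s0) (v w c c' : ℝ) :
    Gg (ext (fv a d w) c) (ext (fv a d v) c') s0 := by
  refine ⟨fun s => ?_⟩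
  obtain ⟨π, χ, χ', h1, h2, h3, h4, h5, h6⟩ := hg.ex s
  refine ⟨π, Sum.elim (Sum.elim χ χ') (fun _ => 1), Sum.elim (Sum.elim χ χ') (fun _ => 1),
    h1, h2, ?_, ?_, ?_, ?_⟩
  · rintro ((i | k) | _)
    · exact h3 i
    · exact h4 k
    · exact Or.inl rfl
  · rintro ((i | k) | _)
    · exact h3 i
    · exact h4 k
    · exact Or.inl rfl
  · intro τ
    rintro ((i | k) | _)
    · exact h5 τ i
    · simp only [ext, fv, Sum.elim_inl, Sum.elim_inr]
      rw [h6 τ k]
      ring
    · simp only [ext, Sum.elim_inr, one_mul]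
  · intro τ
    rintro ((i | k) | _)
    · exact h5 τ i
    · simp only [ext, fv, Sum.elim_inl, Sum.elim_inr]
      rw [h6 τ k]
      ring
    · simp only [ext, Sum.elim_inr, one_mul]

/-- **transport between two variances** -/
theorem transp (hp : 0 ≤ p) (hp1 : p ≤ 1) (hD : ∀ s, gr d s s = D0) (hg : Gg a d s0)
    {v w : ℝ} (hv : 0 ≤ v) (hw : 0 ≤ w) :
    Real.log (Np p (fv a d w) s0 fun _ => 0) ≤
      Real.log (Np p (fv a d v) s0 fun s => -((1 - p) / 2 * (v - w)) * gr d s0 s) -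
        (1 - p) / 2 * (v - w) * D0 := by
  have hD0 : 0 ≤ D0 := by
    rw [← hD s0]
    unfold gr
    exact Finset.sum_nonneg fun k _ => mul_self_nonneg _
  have hd : ∀ s, ∑ i, ext (fv a d w) (Real.sqrt (v * D0)) s i ^ 2 =
      ∑ j, ext (fv a d v) (Real.sqrt (w * D0)) s j ^ 2 := by
    intro s
    simp only [pow_two]
    rw [gram_ext, gram_ext, gram_fv _ _ hw, gram_fv _ _ hv, hD s,
      Real.sq_sqrt (mul_nonneg hv hD0), Real.sq_sqrt (mul_nonneg hw hD0)]
    ring
  have h := TR.trans hp hp1 hd (gg_ext hg v w _ _)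
  have e : (fun s => -((1 - p) / 2 *
      (∑ j, ext (fv a d v) (Real.sqrt (w * D0)) s0 j * ext (fv a d v) (Real.sqrt (w * D0)) s j -
        ∑ i, ext (fv a d w) (Real.sqrt (v * D0)) s0 i *
          ext (fv a d w) (Real.sqrt (v * D0)) s i))) =
      fun s => (-((1 - p) / 2 * (v - w)) * gr d s0 s) + (1 - p) / 2 * (v - w) * D0 := by
    funext s
    rw [gram_ext, gram_ext, gram_fv _ _ hw, gram_fv _ _ hv,
      Real.sq_sqrt (mul_nonneg hv hD0), Real.sq_sqrt (mul_nonneg hw hD0)]
    ring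
  rw [e, Np_const, Np_ext, Np_ext] at h
  have h1 := Real.log_le_log (mul_pos (Real.exp_pos _) (Np_pos p (fv a d w) s0 fun _ => 0)) h
  rw [Real.log_mul (Real.exp_pos _).ne' (Np_pos _ _ _ _).ne', Real.log_exp,
    Real.log_mul (Real.exp_pos _).ne' (mul_pos (Real.exp_pos _) (Np_pos _ _ _ _)).ne',
    Real.log_exp,
    Real.log_mul (Real.exp_pos _).ne' (Np_pos _ _ _ _).ne', Real.log_exp] at h1
  have e1 : ((1 - p) * Real.sqrt (v * D0)) ^ 2 = (1 - p) ^ 2 * (v * D0) := by
    rw [mul_pow, Real.sq_sqrt (mul_nonneg hv hD0)]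
  have e2 : ((1 - p) * Real.sqrt (w * D0)) ^ 2 = (1 - p) ^ 2 * (w * D0) := by
    rw [mul_pow, Real.sq_sqrt (mul_nonneg hw hD0)]
  rw [e1, e2] at h1
  nlinarith [h1]

/-- concavity in the planting strength -/
lemma plant_conc (hp : 0 ≤ p) (a : S → ι → ℝ) (s0 : S) (f : S → ℝ) :
    ConcaveOn ℝ univ fun μ : ℝ => Real.log (Np p a s0 fun s => μ * f s) := by
  have h := (H773.Pk.np_conc hp (a s0) a)
  have h2 := h.comp_linearMap (LinearMap.smulRight (LinearMap.id : ℝ →ₗ[ℝ] ℝ) f)
  rw [preimage_univ] at h2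
  exact h2

/-- a concave function on the line has a supporting line at the origin -/
lemma supp_line {F : ℝ → ℝ} (hF : ConcaveOn ℝ univ F) : ∃ σ : ℝ, ∀ μ, F μ ≤ F 0 + σ * μ := by
  have hf := hF.neg
  have h0 : (0 : ℝ) ∈ interior (univ : Set ℝ) := by simp
  refine ⟨-(derivWithin (-F) (Ioi 0) 0), fun μ => ?_⟩
  rcases lt_trichotomy μ 0 with h | h | h
  · have h1 := hf.slope_le_leftDeriv_of_mem_interior (mem_univ μ) h0 h
    have h2 := hf.leftDeriv_le_rightDeriv_of_mem_interior h0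
    have h3 := h1.trans h2
    rw [slope_def_field, div_le_iff₀ (by linarith)] at h3
    simp only [Pi.neg_apply] at h3
    linarith
  · rw [h]
    simp
  · have h1 := hf.rightDeriv_le_slope_of_mem_interior h0 (mem_univ μ) h
    rw [slope_def_field, le_div_iff₀ (by linarith)] at h1
    simp only [Pi.neg_apply] at h1
    linarith

/-- **CONCAVITY of the planted log-moment in the variance of the field** -/
theorem conc_Np (hp : 0 ≤ p) (hp1 : p ≤ 1) (hD : ∀ s, gr d s s = D0) (hg : Gg a d s0) :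
    ConcaveOn ℝ (Ici 0) fun v => Real.log (Np p (fv a d v) s0 fun _ => 0) := by
  refine ⟨convex_Ici 0, fun w1 h1 w2 h2 α β hα hβ hαβ => ?_⟩
  have h1' : 0 ≤ w1 := h1
  have h2' : 0 ≤ w2 := h2
  obtain ⟨v, hv⟩ : ∃ v, v = α * w1 + β * w2 := ⟨_, rfl⟩
  have hv0 : 0 ≤ v := by rw [hv]; positivity
  obtain ⟨σ, hσ⟩ := supp_line (plant_conc hp (fv a d v) s0 (gr d s0))
  have hz : (fun s => (0 : ℝ) * gr d s0 s) = fun _ : S => (0 : ℝ) := by
    funext s
    rw [zero_mul]
  rw [hz] at hσ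
  have q1 := (transp hp hp1 hD hg hv0 h1').trans (sub_le_sub_right (hσ _) _)
  have q2 := (transp hp hp1 hD hg hv0 h2').trans (sub_le_sub_right (hσ _) _)
  have e1 := mul_le_mul_of_nonneg_left q1 hα
  have e2 := mul_le_mul_of_nonneg_left q2 hβ
  simp only [smul_eq_mul]
  rw [← hv]
  have e3 : β = 1 - α := by linarith
  subst e3
  have e4 : α * (v - w1) + (1 - α) * (v - w2) = 0 := by rw [hv]; ring
  have e5 : (α * (-((1 - p) / 2 * (v - w1))) + (1 - α) * (-((1 - p) / 2 * (v - w2)))) = 0 := by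
    linear_combination (-((1 - p) / 2)) * e4
  nlinarith [e1, e2, e4, e5, congrArg (fun t => σ * t) e5, congrArg (fun t => D0 * t) e4]

/-- all planted moments are equal -/
lemma Np_gauge {ι' : Type} [Fintype ι'] {b : S → ι' → ℝ} (hg : Gg a b s0) (p : ℝ) (s : S) :
    Np p a s (fun _ => 0) = Np p a s0 (fun _ => 0) := by
  obtain ⟨π, χ, χ', h1, h2, h3, h4, h5, h6⟩ := hg.ex s
  have hT := TR.mp_sign χ h3
  unfold Np
  conv_rhs => rw [← hT.map_eq]
  rw [integral_map hT.measurable.aemeasurable (np_dom p a s0 _).cont.aestronglyMeasurable]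
  refine integral_congr_ae (Filter.Eventually.of_forall fun g => ?_)
  simp only
  have e1 : ∑ i, a s0 i * (χ i * g i) = ∑ i, a s i * g i := by
    refine Finset.sum_congr rfl fun i _ => ?_
    have := h5 s0 i
    rw [h1] at this
    rw [this]
    ring
  have e2 : zz a (fun _ => 0) (fun i => χ i * g i) = zz a (fun _ => 0) g := by
    unfold zz
    refine Fintype.sum_equiv π _ _ fun t => ?_
    unfold wt
    congr 2
    refine Finset.sum_congr rfl fun i _ => ?_
    rw [h5]
    ring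
  rw [e1]
  unfold zp
  rw [e2]

/-- the gauge group of the family with a field -/
lemma gg_fv (hg : Gg a d s0) (v : ℝ) : Gg (fv a d v) (fv a d v) s0 := by
  refine ⟨fun s => ?_⟩
  obtain ⟨π, χ, χ', h1, h2, h3, h4, h5, h6⟩ := hg.ex s
  have q : ∀ e : ι ⊕ κ, Sum.elim χ χ' e = 1 ∨ Sum.elim χ χ' e = -1 := by
    rintro (i | k)
    · exact h3 i
    · exact h4 k
  have q2 : ∀ (τ : S) (e : ι ⊕ κ), fv a d v (π τ) e = Sum.elim χ χ' e * fv a d v τ e := by
    intro τ
    rintro (i | k)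
    · exact h5 τ i
    · simp only [fv, Sum.elim_inr]
      rw [h6 τ k]
      ring
  exact ⟨π, Sum.elim χ χ', Sum.elim χ χ', h1, h2, q, q, q2, q2⟩

/-- the moment is a multiple of the planted moment -/
lemma moment_eq (hg : Gg a d s0) (x v : ℝ) :
    ∫ g, zp x (fv a d v) (fun _ => 0) g ∂(gpi (ι ⊕ κ)) =
      Fintype.card S * Np (1 - x) (fv a d v) s0 (fun _ => 0) := by
  simp_rw [zp_split x (fv a d v)]
  rw [int_sum _ fun s _ => np_dom (1 - x) (fv a d v) s (fun _ => 0)]
  have : ∀ s : S, ∫ g, Real.exp (∑ i, fv a d v s i * g i) *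
      zp (-(1 - x)) (fv a d v) (fun _ => 0) g ∂(gpi (ι ⊕ κ)) =
      Np (1 - x) (fv a d v) s0 (fun _ => 0) := fun s => Np_gauge (gg_fv hg v) (1 - x) s
  rw [Finset.sum_congr rfl fun s _ => this s, Finset.sum_const, nsmul_eq_mul, Finset.card_univ]

/-- **CONCAVITY of the log-moment in the variance of the field** -/
theorem conc_moment {x : ℝ} (hx : 0 ≤ x) (hx1 : x ≤ 1) (hD : ∀ s, gr d s s = D0)
    (hg : Gg a d s0) :
    ConcaveOn ℝ (Ici 0) fun v =>
      Real.log (∫ g, zp x (fv a d v) (fun _ => 0) g ∂(gpi (ι ⊕ κ))) := by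
  have h := conc_Np (p := 1 - x) (by linarith) (by linarith) hD hg
  have e : (fun v => Real.log (∫ g, zp x (fv a d v) (fun _ => 0) g ∂(gpi (ι ⊕ κ)))) =
      fun v => Real.log (Fintype.card S) + Real.log (Np (1 - x) (fv a d v) s0 fun _ => 0) := by
    funext v
    rw [moment_eq hg, Real.log_mul (by
      have := Fintype.card_pos (α := S)
      positivity) (Np_pos _ _ _ _).ne']
  rw [e]
  exact (concaveOn_const _ (convex_Ici 0)).add h

end Vale.Agent.P146.H320.Conc
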