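import Vale.Agent.P146.H320.MomP

set_option linter.all false

/-!
# P146: all absolute moments and both sides of the fluctuations, with powers of `log n`

From `n ^ (1 / 3) (log n) ^ (-C) ≤ Var F_n ≤ n ^ (1 / 3) (log n) ^ C`.
-/

open MeasureTheory ProbabilityTheory Set Filter Topology

namespace Vale.Agent.P146.H320.MomP

open Vale.Agent.P146 Vale.Agent.P146.H605

lemma log_ev (C : ℝ) : ∀ᶠ n : ℕ in atTop, C ≤ Real.log n :=
  (Real.tendsto_log_atTop.comp tendsto_natCast_atTop_atTop).eventually_ge_atTop C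

lemma pow_log_ev {a b : ℝ} (ha : 0 < a) (hb : 0 ≤ b) (K : ℝ) :
    ∀ᶠ n : ℕ in atTop, K * Real.log n ^ b ≤ (n : ℝ) ^ a := by
  have h1 : Tendsto (fun x : ℝ => x ^ b * Real.exp (-a * x)) atTop (𝓝 0) :=
    tendsto_rpow_mul_exp_neg_mul_atTop_nhds_zero b a ha
  have h2 : Tendsto (fun n : ℕ => Real.log (n : ℝ)) atTop atTop :=
    Real.tendsto_log_atTop.comp tendsto_natCast_atTop_atTop
  have h3 := h1.comp h2
  have h4 : ∀ᶠ n : ℕ in atTop, Real.log (n : ℝ) ^ b * Real.exp (-a * Real.log n) <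
      1 / (|K| + 1) := h3.eventually_lt_const (by positivity)
  filter_upwards [h4, eventually_ge_atTop 1] with n h5 h6
  have hn1 : (1 : ℝ) ≤ n := by exact_mod_cast h6
  have hn0 : (0 : ℝ) < n := by linarith
  have e1 : (n : ℝ) ^ a = Real.exp (a * Real.log n) := by
    rw [Real.rpow_def_of_pos hn0, mul_comm]
  have hL : 0 ≤ Real.log (n : ℝ) ^ b := Real.rpow_nonneg (Real.log_nonneg hn1) _
  have e2 : Real.exp (-a * Real.log n) * Real.exp (a * Real.log n) = 1 := by
    rw [← Real.exp_add]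
    simp
  rw [e1]
  rw [lt_div_iff₀ (by positivity)] at h5
  have h7 : (Real.log (n : ℝ) ^ b * Real.exp (-a * Real.log n) * (|K| + 1)) *
      Real.exp (a * Real.log n) ≤ 1 * Real.exp (a * Real.log n) :=
    mul_le_mul_of_nonneg_right h5.le (Real.exp_pos _).le
  have e3 : (Real.log (n : ℝ) ^ b * Real.exp (-a * Real.log n) * (|K| + 1)) *
      Real.exp (a * Real.log n) = Real.log (n : ℝ) ^ b * (|K| + 1) := by
    calc _ = Real.log (n : ℝ) ^ b * (|K| + 1) *
        (Real.exp (-a * Real.log n) * Real.exp (a * Real.log n)) := by ring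
      _ = _ := by rw [e2, mul_one]
  rw [e3, one_mul] at h7
  have h8 : K ≤ |K| + 1 := by linarith [le_abs_self K]
  nlinarith

/-- **All absolute moments and both sides, from the variance up to powers of `log n`.** -/
theorem orderL {β C : ℝ} (hC : 0 ≤ C) (hV : ∀ᶠ n : ℕ in atTop,
      (n : ℝ) ^ (1 / 3 : ℝ) * Real.log n ^ (-C) ≤ Var[freeEnergy n β; disorder n] ∧
      Var[freeEnergy n β; disorder n] ≤ (n : ℝ) ^ (1 / 3 : ℝ) * Real.log n ^ C) :
    (∀ p : ℝ, 0 < p → ∀ᶠ n : ℕ in atTop,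
      (∀ y : ℝ, (n : ℝ) ^ (p / 6) * Real.log n ^ (-((C + 1) * p)) ≤
        ∫ g, |freeEnergy n β g - y| ^ p ∂(disorder n)) ∧
      ∫ g, |freeEnergy n β g - ∫ h, freeEnergy n β h ∂(disorder n)| ^ p ∂(disorder n) ≤
        (n : ℝ) ^ (p / 6) * Real.log n ^ ((C + 1) * p)) ∧
    (∀ᶠ n : ℕ in atTop,
      1 / 10 ^ 10 ≤ (disorder n).real {g | ∫ h, freeEnergy n β h ∂(disorder n) +
        (n : ℝ) ^ (1 / 6 : ℝ) * Real.log n ^ (-(C + 1)) ≤ freeEnergy n β g} ∧
      1 / 10 ^ 10 ≤ (disorder n).real {g | freeEnergy n β g ≤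
        ∫ h, freeEnergy n β h ∂(disorder n) - (n : ℝ) ^ (1 / 6 : ℝ) * Real.log n ^ (-(C + 1))}) := by
  -- the standard deviation
  have hsd : ∀ᶠ n : ℕ in atTop, 10440 ≤ sd n β ∧
      (n : ℝ) ^ (1 / 6 : ℝ) * Real.log n ^ (-(C / 2)) ≤ sd n β ∧
      sd n β ≤ (n : ℝ) ^ (1 / 6 : ℝ) * Real.log n ^ (C / 2) := by
    filter_upwards [hV, pow_log_ev (show (0 : ℝ) < 1 / 6 by norm_num)
      (show (0 : ℝ) ≤ C / 2 by positivity) 10440, log_ev 1, eventually_ge_atTop 1]
      with n h1 h2 h3 h4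
    have hn1 : (1 : ℝ) ≤ n := by exact_mod_cast h4
    have hn0 : (0 : ℝ) < n := by linarith
    have hL0 : 0 < Real.log (n : ℝ) := by linarith
    have e : ∀ t : ℝ, (n : ℝ) ^ (1 / 6 : ℝ) * Real.log n ^ (t / 2) =
        √((n : ℝ) ^ (1 / 3 : ℝ) * Real.log n ^ t) := by
      intro t
      rw [Real.sqrt_mul (by positivity), Real.sqrt_eq_rpow, Real.sqrt_eq_rpow,
        ← Real.rpow_mul hn0.le, ← Real.rpow_mul hL0.le]
      congr 2
      · norm_num
      · ring
    have h5 : (n : ℝ) ^ (1 / 6 : ℝ) * Real.log n ^ (-(C / 2)) ≤ sd n β := by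
      have := e (-C)
      rw [show (-(C / 2) : ℝ) = -C / 2 by ring, this]
      exact Real.sqrt_le_sqrt h1.1
    refine ⟨le_trans ?_ h5, h5, ?_⟩
    · rw [Real.rpow_neg hL0.le, ← div_eq_mul_inv, le_div_iff₀ (by positivity)]
      exact h2
    · rw [e C]
      exact Real.sqrt_le_sqrt h1.2
  refine ⟨fun p hp => ?_, ?_⟩
  · filter_upwards [hsd, log_ev (2 * 10440 ^ p + 1), log_ev (36 * p * 8),
      log_ev ((2 * 10440 ^ p) ^ (2 / p)), log_ev ((7 * (36 * p) ^ p) ^ (2 / p)), log_ev 1,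
      eventually_ge_atTop 1] with n h1 h2 h3 h4 h5 h6 h7
    obtain ⟨h8, h9, h10⟩ := h1
    have hn1 : (1 : ℝ) ≤ n := by exact_mod_cast h7
    have hn0 : (0 : ℝ) < n := by linarith
    have hL0 : 0 < Real.log (n : ℝ) := by linarith
    have hs := sd_nonneg n β
    have hK : ∀ K : ℝ, 0 < K → K ^ (2 / p) ≤ Real.log n → K ≤ Real.log n ^ (p / 2) := by
      intro K hK hKL
      have h11 : (K ^ (2 / p)) ^ (p / 2) ≤ Real.log n ^ (p / 2) :=
        Real.rpow_le_rpow (by positivity) hKL (by positivity)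
      rwa [← Real.rpow_mul hK.le, show (2 / p * (p / 2) : ℝ) = 1 by field_simp, Real.rpow_one]
        at h11
    have e1 : ∀ t : ℝ, ((n : ℝ) ^ (1 / 6 : ℝ) * Real.log n ^ t) ^ p =
        (n : ℝ) ^ (p / 6) * Real.log n ^ (t * p) := by
      intro t
      rw [Real.mul_rpow (by positivity) (by positivity), ← Real.rpow_mul hn0.le,
        ← Real.rpow_mul hL0.le]
      congr 2
      ring
    constructor
    · intro y
      refine le_trans ?_ (mom_lower n β hp y h8)
      have h11 : (n : ℝ) ^ (p / 6) * Real.log n ^ (-(C / 2) * p) ≤ sd n β ^ p := by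
        rw [← e1]
        exact Real.rpow_le_rpow (by positivity) h9 hp.le
      rw [Real.div_rpow hs (by norm_num), div_div, le_div_iff₀ (by positivity)]
      refine le_trans ?_ h11
      have h12 := hK (2 * 10440 ^ p) (by positivity) h4
      have h13 : (10440 : ℝ) ^ p * 2 ≤ Real.log n ^ (p / 2) := by linarith
      have h14 : Real.log (n : ℝ) ^ (-((C + 1) * p)) * (10440 ^ p * 2) ≤
          Real.log n ^ (-(C / 2) * p) := by
        calc Real.log (n : ℝ) ^ (-((C + 1) * p)) * (10440 ^ p * 2) ≤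
            Real.log (n : ℝ) ^ (-((C + 1) * p)) * Real.log n ^ (p / 2) :=
              mul_le_mul_of_nonneg_left h13 (by positivity)
          _ = Real.log n ^ (-((C + 1) * p) + p / 2) := by rw [Real.rpow_add hL0]
          _ ≤ _ := Real.rpow_le_rpow_of_exponent_le h6 (by nlinarith)
      calc (n : ℝ) ^ (p / 6) * Real.log n ^ (-((C + 1) * p)) * (10440 ^ p * 2) =
          (n : ℝ) ^ (p / 6) * (Real.log n ^ (-((C + 1) * p)) * (10440 ^ p * 2)) := by ring
        _ ≤ _ := mul_le_mul_of_nonneg_left h14 (by positivity)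
    · refine (mom_upper n β hp).trans ?_
      have h11 : (1 : ℝ) ≤ (n : ℝ) ^ (1 / 6 : ℝ) * Real.log n ^ (C / 2) := by
        have a1 : (1 : ℝ) ≤ (n : ℝ) ^ (1 / 6 : ℝ) := Real.one_le_rpow hn1 (by norm_num)
        have a2 : (1 : ℝ) ≤ Real.log n ^ (C / 2) := Real.one_le_rpow h6 (by positivity)
        nlinarith
      have h12 : (18 * p * (1 + sd n β)) ^ p ≤
          (36 * p * ((n : ℝ) ^ (1 / 6 : ℝ) * Real.log n ^ (C / 2))) ^ p := by
        refine Real.rpow_le_rpow (by positivity) ?_ hp.le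
        have : 18 * p * (1 + sd n β) ≤ 18 * p * ((n : ℝ) ^ (1 / 6 : ℝ) * Real.log n ^ (C / 2) +
            (n : ℝ) ^ (1 / 6 : ℝ) * Real.log n ^ (C / 2)) := by
          gcongr
        linarith
      have e2 : (36 * p * ((n : ℝ) ^ (1 / 6 : ℝ) * Real.log n ^ (C / 2))) ^ p =
          (36 * p) ^ p * ((n : ℝ) ^ (p / 6) * Real.log n ^ (C / 2 * p)) := by
        rw [Real.mul_rpow (by positivity) (by positivity), e1]
      rw [e2] at h12
      have h13 := hK (7 * (36 * p) ^ p) (by positivity) h5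
      have h14 : 7 * (36 * p) ^ p * Real.log n ^ (C / 2 * p) ≤ Real.log n ^ ((C + 1) * p) := by
        calc 7 * (36 * p) ^ p * Real.log n ^ (C / 2 * p) ≤
            Real.log n ^ (p / 2) * Real.log n ^ (C / 2 * p) :=
              mul_le_mul_of_nonneg_right h13 (by positivity)
          _ = Real.log n ^ (p / 2 + C / 2 * p) := by rw [Real.rpow_add hL0]
          _ ≤ _ := Real.rpow_le_rpow_of_exponent_le h6 (by nlinarith)
      calc 7 * (18 * p * (1 + sd n β)) ^ p ≤
          7 * ((36 * p) ^ p * ((n : ℝ) ^ (p / 6) * Real.log n ^ (C / 2 * p))) := by linarith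
        _ = (n : ℝ) ^ (p / 6) * (7 * (36 * p) ^ p * Real.log n ^ (C / 2 * p)) := by ring
        _ ≤ _ := mul_le_mul_of_nonneg_left h14 (by positivity)
  · filter_upwards [hsd, log_ev 167040, eventually_ge_atTop 1] with n h1 h2 h3
    obtain ⟨h8, h9, h10⟩ := h1
    have hn1 : (1 : ℝ) ≤ n := by exact_mod_cast h3
    have hn0 : (0 : ℝ) < n := by linarith
    have hL0 : 0 < Real.log (n : ℝ) := by linarith
    have h11 : (n : ℝ) ^ (1 / 6 : ℝ) * Real.log n ^ (-(C + 1)) ≤ sd n β / 167040 := by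
      rw [le_div_iff₀ (by norm_num)]
      refine le_trans ?_ h9
      have h12 : Real.log (n : ℝ) ^ (-(C + 1)) * 167040 ≤ Real.log n ^ (-(C / 2)) := by
        calc Real.log (n : ℝ) ^ (-(C + 1)) * 167040 ≤
            Real.log (n : ℝ) ^ (-(C + 1)) * Real.log n ^ (1 : ℝ) := by
              rw [Real.rpow_one]
              exact mul_le_mul_of_nonneg_left h2 (by positivity)
          _ = Real.log n ^ (-(C + 1) + 1) := by rw [Real.rpow_add hL0]
          _ ≤ _ := Real.rpow_le_rpow_of_exponent_le (by linarith) (by linarith)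
      calc (n : ℝ) ^ (1 / 6 : ℝ) * Real.log n ^ (-(C + 1)) * 167040 =
          (n : ℝ) ^ (1 / 6 : ℝ) * (Real.log n ^ (-(C + 1)) * 167040) := by ring
        _ ≤ _ := mul_le_mul_of_nonneg_left h12 (by positivity)
    obtain ⟨h12, h13⟩ := both n β h8
    refine ⟨h12.trans (measureReal_mono fun g hg => ?_), h13.trans (measureReal_mono fun g hg => ?_)⟩
    · have hg' : mn n β + sd n β / 167040 ≤ freeEnergy n β g := hg
      show mn n β + (n : ℝ) ^ (1 / 6 : ℝ) * Real.log n ^ (-(C + 1)) ≤ freeEnergy n β g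
      linarith
    · have hg' : freeEnergy n β g ≤ mn n β - sd n β / 167040 := hg
      show freeEnergy n β g ≤ mn n β - (n : ℝ) ^ (1 / 6 : ℝ) * Real.log n ^ (-(C + 1))
      linarith

end Vale.Agent.P146.H320.MomP
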