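import Vale.Agent.P146.H487.Regk

/-!
Sums of increments of second moments of conditional means from a block `K` to a larger block `K'`.
-/

open MeasureTheory

namespace Vale.Agent.P146.H320

open Vale.Agent.P146.H646

set_option linter.unusedSectionVars false

variable {κ : Type*} [Fintype κ] [DecidableEq κ] {μ : κ → Measure ℝ}
  [∀ e, IsProbabilityMeasure (μ e)] {w : (κ → ℝ) → ℝ} {K K' : Finset κ}
  {A : Type*} {F : A → (κ → ℝ) → ℝ} {r r' : Finset A}

lemma bm_sqs (hw : Wt μ w) (K : Finset κ) {Ψ : (κ → ℝ) → ℝ} (h : BM Ψ) :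
    BM fun z => cx μ K w Ψ z ^ 2 := by
  simpa only [sq] using (hw.bm_cx K h).mul (hw.bm_cx K h)

/-- the increments are nonnegative -/
lemma stp_nonneg (hw : Wt μ w) (hK : K ⊆ K') (hF : ∀ a ∈ r, BM (F a)) :
    0 ≤ ∑ a ∈ r, (ex μ w (fun z => cx μ K' w (F a) z ^ 2) -
      ex μ w (fun z => cx μ K w (F a) z ^ 2)) :=
  Finset.sum_nonneg fun a ha => sub_nonneg.2 (ex_cx_sq_mono hw hK (hF a ha))

/-- the sum of increments over `r` is at most the difference of the totals over `r'` and `r` -/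
lemma stp_le (hw : Wt μ w) (hr : r ⊆ r') (hF : ∀ a ∈ r', BM (F a)) :
    ∑ a ∈ r, (ex μ w (fun z => cx μ K' w (F a) z ^ 2) -
        ex μ w (fun z => cx μ K w (F a) z ^ 2)) ≤
      ex μ w (fun z => ∑ a ∈ r', cx μ K' w (F a) z ^ 2) -
        ex μ w (fun z => ∑ a ∈ r, cx μ K w (F a) z ^ 2) := by
  rw [H487.ex_sum hw r' fun a ha => bm_sqs hw K' (hF a ha),
    H487.ex_sum hw r fun a ha => bm_sqs hw K (hF a (hr ha)), Finset.sum_sub_distrib]
  refine sub_le_sub_right ?_ _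
  exact Finset.sum_le_sum_of_subset_of_nonneg hr fun a ha _ =>
    H487.ex_nonneg hw (bm_sqs hw K' (hF a ha)) fun z => sq_nonneg _

/-- the total over a larger family in a larger block is larger -/
lemma tot_mono (hw : Wt μ w) (hK : K ⊆ K') (hr : r ⊆ r') (hF : ∀ a ∈ r', BM (F a)) :
    ex μ w (fun z => ∑ a ∈ r, cx μ K w (F a) z ^ 2) ≤
      ex μ w (fun z => ∑ a ∈ r', cx μ K' w (F a) z ^ 2) := by
  have h1 := stp_nonneg hw hK fun a ha => hF a (hr ha)
  have h2 := stp_le (K := K) (K' := K') hw hr hF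
  linarith

lemma tot_nonneg (hw : Wt μ w) (K : Finset κ) (hF : ∀ a ∈ r, BM (F a)) :
    0 ≤ ex μ w (fun z => ∑ a ∈ r, cx μ K w (F a) z ^ 2) := by
  rw [H487.ex_sum hw r fun a ha => bm_sqs hw K (hF a ha)]
  exact Finset.sum_nonneg fun a ha => H487.ex_nonneg hw (bm_sqs hw K (hF a ha)) fun z => sq_nonneg _

/-- a bounded function: the second moment of its conditional mean is bounded -/
lemma one_le (hw : Wt μ w) (K : Finset κ) {Ψ : (κ → ℝ) → ℝ} (h : BM Ψ) {C : ℝ}
    (hC : ∀ z, |Ψ z| ≤ C) : ex μ w (fun z => cx μ K w Ψ z ^ 2) ≤ C ^ 2 := by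
  rw [← H487.ex_const hw (C ^ 2)]
  refine H487.ex_mono hw (bm_sqs hw K h) (BM.const _) fun z => ?_
  have h1 := hw.abs_cx_le K h hC z
  have h2 := abs_nonneg (cx μ K w Ψ z)
  rw [← sq_abs]
  exact pow_le_pow_left₀ h2 h1 2

end Vale.Agent.P146.H320
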