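import Vale.Agent.P146.H9.MonoU
import Vale.Agent.P146.H347.ModU
import Vale.Agent.P146.H320.Step

/-!
Second moments of the conditional means of finite families of bounded functions in the ensemble
`U`, as functions of the revealed set, of the revealed share of the bonds and of the revealed
shares of the classes of fields; the increments when sites are revealed, in every level system.
-/

open MeasureTheory ProbabilityTheory

namespace Vale.Agent.P146.H320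

open Vale.Agent.P157.Lv Vale.Agent.P146.H425 Vale.Agent.P146.H332 Vale.Agent.P146.H646
open Vale.Agent.P146.H196 Vale.Agent.P146.H246 Vale.Agent.P146.H347 Vale.Agent.P146.H325
  Vale.Agent.P146.H816 Vale.Agent.P146.H9.U Vale.Agent.P146.H281.U Vale.Agent.P146.H347.U

set_option linter.unusedSectionVars false

variable {Th : Type} [MeasurableSpace Th] {n : ℕ} {A : Type} [Fintype A] [DecidableEq A]
  {b x η : ℝ} {VF : A → ℝ} {α : A → Th → ℝ} {ν : Measure Th}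

lemma AmU_comp {LF : Type} (hA : AmU α η) (κ : LF → A) : AmU (fun l => α (κ l)) η :=
  ⟨hA.nn, fun l => hA.meas (κ l), fun l => hA.bd (κ l)⟩

lemma gmSb (hν : IsFiniteMeasure ν) (h0 : ν ≠ 0) (hA : AmU α η) (b : ℝ) (VF : A → ℝ) :
    GM (muU ν n) (SbU n b VF α) (MU n b (fun _ : Unit => (1 : ℝ)) (fun k => √(VF k)) η) :=
  gmU b (fun _ : Unit => (1 : ℝ)) (fun k => √(VF k)) η hν h0 hA

/-- the second moment of the conditional means of the family `f` over `r`, canonical levels -/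
noncomputable def NmU (n : ℕ) (ν : Measure Th) (b : ℝ) (VF : A → ℝ) (α : A → Th → ℝ)
    (x t : ℝ) (u : A → ℝ) {J : Type} [Fintype J]
    (f : J → Th × Xs n → ℝ) (S : Finset (Fin n)) (r : Finset J) : ℝ :=
  eg (muU ν n) (SU b (cbU t) (cfU VF u) fun l : A × Bool => α l.1) x
    (fun z => ∑ a ∈ r, cg (muU ν n) (SU b (cbU t) (cfU VF u) fun l : A × Bool => α l.1) x
      (Kset S {true} (FLU A)) (f a) z ^ 2)

section
variable {t t' : ℝ} {u u' : A → ℝ} {J : Type} [Fintype J] {f : J → Th × Xs n → ℝ}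
  {S S' : Finset (Fin n)} {r r' : Finset J}

lemma NmU_mono (hν : IsFiniteMeasure ν) (h0 : ν ≠ 0) (hA : AmU α η) (hV : ∀ k, 0 ≤ VF k)
    (ht0 : 0 ≤ t) (ht : t ≤ t') (ht1 : t' ≤ 1) (hu0 : ∀ k, 0 ≤ u k) (hu : ∀ k, u k ≤ u' k)
    (hu1 : ∀ k, u' k ≤ 1) (hS : S ⊆ S') (hr : r ⊆ r') (hf : ∀ a, Bm (f a)) :
    NmU n ν b VF α x t u f S r ≤ NmU n ν b VF α x t' u' f S' r' :=
  monoU2 (gmSb hν h0 hA b VF)
    (canU ht0 (ht.trans ht1) hu0 (fun k => (hu k).trans (hu1 k)) hV)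
    (canU (ht0.trans ht) ht1 (fun k => (hu0 k).trans (hu k)) hu1 hV) hS ht hu x hr hf

lemma NmU_nonneg (hν : IsFiniteMeasure ν) (h0 : ν ≠ 0) (hA : AmU α η)
    (hf : ∀ a, Bm (f a)) : 0 ≤ NmU n ν b VF α x t u f S r :=
  tot_nonneg (wtU b (cbU t) (cfU VF u) hν h0 (AmU_comp hA (Prod.fst : A × Bool → A)) x)
    (Kset S {true} (FLU A))
    fun a _ => bmU b (cbU t) (cfU VF u) hν h0 (AmU_comp hA (Prod.fst : A × Bool → A)) (hf a)

variable {LB LF : Type} [Fintype LB] [DecidableEq LB] [Fintype LF] [DecidableEq LF]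
  {κ : LF → A} {cB : LB → ℝ} {cF : LF → ℝ} {BL : Finset LB} {FL : Finset LF}

/-- the same number in every system with the same shares -/
lemma NmU_eq (hν : IsFiniteMeasure ν) (h0 : ν ≠ 0) (hA : AmU α η) (hV : ∀ k, 0 ≤ VF k)
    (ht0 : 0 ≤ t) (ht1 : t ≤ 1) (hu0 : ∀ k, 0 ≤ u k) (hu1 : ∀ k, u k ≤ 1)
    (hs : ShU κ cB cF BL FL VF t u) (hf : ∀ a, Bm (f a)) :
    ex (g1 _) (Zxm (muU ν n) 1 (SU b cB cF fun l => α (κ l)) x) (fun z => ∑ a ∈ r,
      cx (g1 _) (Kset S BL FL) (Zxm (muU ν n) 1 (SU b cB cF fun l => α (κ l)) x)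
        (avm (muU ν n) 1 (SU b cB cF fun l => α (κ l)) (f a)) z ^ 2) =
      NmU n ν b VF α x t u f S r := by
  have hG := gmSb (n := n) hν h0 hA b VF
  refine le_antisymm ?_ ?_
  · exact monoU2 hG hs (canU ht0 ht1 hu0 hu1 hV) (le_refl _) le_rfl (fun _ => le_rfl) x
      (le_refl r) hf
  · exact monoU2 hG (canU ht0 ht1 hu0 hu1 hV) hs (le_refl _) le_rfl (fun _ => le_rfl) x
      (le_refl r) hf

/-- the increments, in every system with the given shares -/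
lemma incU_le (hν : IsFiniteMeasure ν) (h0 : ν ≠ 0) (hA : AmU α η) (hV : ∀ k, 0 ≤ VF k)
    (ht0 : 0 ≤ t) (ht1 : t ≤ 1) (hu0 : ∀ k, 0 ≤ u k) (hu1 : ∀ k, u k ≤ 1)
    (hs : ShU κ cB cF BL FL VF t u) (hf : ∀ a, Bm (f a)) (hr : r ⊆ r') :
    ∑ a ∈ r, (ex (g1 _) (Zxm (muU ν n) 1 (SU b cB cF fun l => α (κ l)) x) (fun z =>
        cx (g1 _) (Kset S' BL FL) (Zxm (muU ν n) 1 (SU b cB cF fun l => α (κ l)) x)
          (avm (muU ν n) 1 (SU b cB cF fun l => α (κ l)) (f a)) z ^ 2) -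
      ex (g1 _) (Zxm (muU ν n) 1 (SU b cB cF fun l => α (κ l)) x) (fun z =>
        cx (g1 _) (Kset S BL FL) (Zxm (muU ν n) 1 (SU b cB cF fun l => α (κ l)) x)
          (avm (muU ν n) 1 (SU b cB cF fun l => α (κ l)) (f a)) z ^ 2)) ≤
      NmU n ν b VF α x t u f S' r' - NmU n ν b VF α x t u f S r := by
  have hA' := AmU_comp hA κ
  rw [← NmU_eq hν h0 hA hV ht0 ht1 hu0 hu1 hs hf, ← NmU_eq hν h0 hA hV ht0 ht1 hu0 hu1 hs hf]
  exact stp_le (wtU b cB cF hν h0 hA' x) hr fun a _ => bmU b cB cF hν h0 hA' (hf a)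

end

end Vale.Agent.P146.H320
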