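import Mathlib

/-!
Joint choice of real parameters `r w` in windows (one for every `w : W`) and of one integer `m` in
a range, typical for finitely many nonnegative functions with a bounded integral in one of the
parameters and for finitely many increments in `m` of bounded nonnegative potentials.
The bounds may be zero.
-/

open MeasureTheory

namespace Vale.Agent.P146.H320

/-- the choice of the real parameter in one window -/
lemma pick_r {ι : Type*} (M : Finset ι) {r0 r1 : ℝ} (hr : r0 < r1) {α : Type*} (A : Finset α)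
    {f : α → ℝ → ι → ℝ} {B : α → ℝ} (hB0 : ∀ a ∈ A, 0 ≤ B a)
    (hf : ∀ a ∈ A, ∀ r ∈ Set.Icc r0 r1, ∀ m ∈ M, 0 ≤ f a r m)
    (hi : ∀ a ∈ A, ∀ m ∈ M, IntervalIntegrable (fun r => f a r m) volume r0 r1)
    (hB : ∀ a ∈ A, ∀ m ∈ M, ∫ r in r0..r1, f a r m ≤ B a) :
    ∃ r ∈ Set.Icc r0 r1, (r1 - r0) * (∑ a ∈ A, ∑ m ∈ M, f a r m / B a) ≤ M.card * A.card ∧
      ∀ a ∈ A, ∀ m ∈ M, B a = 0 → f a r m = 0 := by
  classical
  have hl : 0 < r1 - r0 := sub_pos.2 hr
  have hvol : volume.restrict (Set.Ioc r0 r1) ≠ 0 := by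
    rw [Ne, Measure.restrict_eq_zero, Real.volume_Ioc]
    simpa using hr
  have : IsFiniteMeasure (volume.restrict (Set.Ioc r0 r1)) := ⟨by simp⟩
  -- the functions with the bound zero vanish almost everywhere
  have hz : ∀ᵐ r ∂(volume.restrict (Set.Ioc r0 r1)), ∀ a ∈ A, ∀ m ∈ M, B a = 0 →
      f a r m = 0 := by
    rw [Filter.eventually_all_finset]
    intro a ha
    rw [Filter.eventually_all_finset]
    intro m hm
    by_cases hBa : B a = 0
    · have h0 : 0 ≤ᵐ[volume.restrict (Set.Ioc r0 r1)] fun r => f a r m := by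
        refine (ae_restrict_iff' measurableSet_Ioc).2 (Filter.Eventually.of_forall fun r hr' => ?_)
        exact hf a ha r (Set.Ioc_subset_Icc_self hr') m hm
      have h1 : ∫ r in r0..r1, f a r m = 0 :=
        le_antisymm ((hB a ha m hm).trans hBa.le)
          (intervalIntegral.integral_nonneg hr.le fun r hr' => hf a ha r hr' m hm)
      have h2 := (intervalIntegral.integral_eq_zero_iff_of_le_of_nonneg_ae hr.le h0
        (hi a ha m hm)).1 h1
      exact h2.mono fun r h3 _ => h3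
    · exact Filter.Eventually.of_forall fun r h3 => absurd h3 hBa
  have hi' : ∀ a ∈ A, ∀ m ∈ M, Integrable (fun r => f a r m)
      (volume.restrict (Set.Ioc r0 r1)) := by
    intro a ha m hm
    have := hi a ha m hm
    rwa [intervalIntegrable_iff_integrableOn_Ioc_of_le hr.le] at this
  set h : ℝ → ℝ := fun r => ∑ a ∈ A, ∑ m ∈ M, f a r m / B a with hh
  have hint : Integrable h (volume.restrict (Set.Ioc r0 r1)) :=
    integrable_finsetSum _ fun a ha => integrable_finsetSum _ fun m hm =>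
      (hi' a ha m hm).div_const _
  have hN : (volume.restrict (Set.Ioc r0 r1)) ({r | ¬ ∀ a ∈ A, ∀ m ∈ M, B a = 0 →
      f a r m = 0} ∪ (Set.Ioc r0 r1)ᶜ) = 0 := by
    refine measure_union_null (ae_iff.1 hz) ?_
    rw [Measure.restrict_apply measurableSet_Ioc.compl]
    simp
  obtain ⟨r, hrN, hrle⟩ := exists_notMem_null_le_average hvol hint hN
  rw [Set.mem_union, not_or, Set.mem_compl_iff, not_not, Set.mem_ofPred_eq, not_not] at hrN
  obtain ⟨hrz, hrm⟩ := hrN
  have hrI : r ∈ Set.Icc r0 r1 := Set.Ioc_subset_Icc_self hrm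
  have havg : (⨍ a in Set.Ioc r0 r1, h a) ≤ M.card * A.card / (r1 - r0) := by
    rw [setAverage_eq, smul_eq_mul]
    have e1 : volume.real (Set.Ioc r0 r1) = r1 - r0 := by
      rw [measureReal_def, Real.volume_Ioc, ENNReal.toReal_ofReal hl.le]
    have e2 : ∫ r in Set.Ioc r0 r1, h r ≤ M.card * A.card := by
      rw [hh, integral_finsetSum _ fun a ha => integrable_finsetSum _ fun m hm =>
        (hi' a ha m hm).div_const _]
      calc ∑ a ∈ A, ∫ r in Set.Ioc r0 r1, ∑ m ∈ M, f a r m / B a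
          ≤ ∑ _a ∈ A, (M.card : ℝ) := by
            refine Finset.sum_le_sum fun a ha => ?_
            rw [integral_finsetSum _ fun m hm => (hi' a ha m hm).div_const _]
            calc ∑ m ∈ M, ∫ r in Set.Ioc r0 r1, f a r m / B a ≤ ∑ _m ∈ M, (1 : ℝ) := by
                  refine Finset.sum_le_sum fun m hm => ?_
                  rw [integral_div, ← intervalIntegral.integral_of_le hr.le]
                  exact div_le_one_of_le₀ (hB a ha m hm) (hB0 a ha)
              _ = M.card := by simp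
        _ = M.card * A.card := by rw [Finset.sum_const, nsmul_eq_mul, mul_comm]
    rw [e1]
    calc (r1 - r0)⁻¹ * ∫ a in Set.Ioc r0 r1, h a
        ≤ (r1 - r0)⁻¹ * (M.card * A.card) := mul_le_mul_of_nonneg_left e2 (inv_nonneg.2 hl.le)
      _ = M.card * A.card / (r1 - r0) := by rw [div_eq_mul_inv, mul_comm]
  have hr1 := mul_le_mul_of_nonneg_left (hrle.trans havg) hl.le
  rw [mul_div_cancel₀ _ hl.ne'] at hr1
  exact ⟨r, hrI, hr1, hrz⟩

/-- **the joint choice**, finitely many windows; constant `#A + #D`, bounds allowed to vanish -/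
theorem pickW {ι : Type*} (M : Finset ι) (hM : M.Nonempty) {W : Type*} [Fintype W]
    {r0 r1 : W → ℝ} (hr : ∀ w, r0 w < r1 w) {α δ : Type*} (A : Finset α) (D : Finset δ)
    (p : α → W) {f : α → ℝ → ι → ℝ} {g : δ → (W → ℝ) → ι → ℝ} {B : α → ℝ} {C : δ → ℝ}
    (hf : ∀ a ∈ A, ∀ r ∈ Set.Icc (r0 (p a)) (r1 (p a)), ∀ m ∈ M, 0 ≤ f a r m)
    (hi : ∀ a ∈ A, ∀ m ∈ M, IntervalIntegrable (fun r => f a r m) volume (r0 (p a)) (r1 (p a)))
    (hB : ∀ a ∈ A, ∀ m ∈ M, ∫ r in (r0 (p a))..(r1 (p a)), f a r m ≤ B a)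
    (hg : ∀ d ∈ D, ∀ r : W → ℝ, (∀ w, r w ∈ Set.Icc (r0 w) (r1 w)) → ∀ m ∈ M, 0 ≤ g d r m)
    (hC : ∀ d ∈ D, ∀ r : W → ℝ, (∀ w, r w ∈ Set.Icc (r0 w) (r1 w)) →
      ∑ m ∈ M, g d r m ≤ C d) :
    ∃ r : W → ℝ, (∀ w, r w ∈ Set.Icc (r0 w) (r1 w)) ∧ ∃ m ∈ M,
      (∀ a ∈ A, f a (r (p a)) m ≤ (A.card + D.card) * B a / (r1 (p a) - r0 (p a))) ∧
      ∀ d ∈ D, g d r m ≤ (A.card + D.card) * C d / M.card := by
  classical
  have hMc : (0 : ℝ) < M.card := by exact_mod_cast hM.card_pos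
  have hB0 : ∀ a ∈ A, 0 ≤ B a := by
    intro a ha
    obtain ⟨m, hm⟩ := hM
    exact (intervalIntegral.integral_nonneg (hr (p a)).le
      fun r hr' => hf a ha r hr' m hm).trans (hB a ha m hm)
  have hch : ∀ w : W, ∃ r ∈ Set.Icc (r0 w) (r1 w),
      (r1 w - r0 w) * (∑ a ∈ A.filter (fun a => p a = w), ∑ m ∈ M, f a r m / B a) ≤
        M.card * (A.filter (fun a => p a = w)).card ∧
      ∀ a ∈ A.filter (fun a => p a = w), ∀ m ∈ M, B a = 0 → f a r m = 0 := by
    intro w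
    refine pick_r M (hr w) (A.filter fun a => p a = w) (fun a ha => hB0 a (Finset.mem_filter.1 ha).1)
      (fun a ha => ?_) (fun a ha => ?_) fun a ha => ?_
    · obtain ⟨h1, rfl⟩ := Finset.mem_filter.1 ha
      exact hf a h1
    · obtain ⟨h1, rfl⟩ := Finset.mem_filter.1 ha
      exact hi a h1
    · obtain ⟨h1, rfl⟩ := Finset.mem_filter.1 ha
      exact hB a h1
  choose r hrI hrs hrz using hch
  have hrz' : ∀ a ∈ A, ∀ m ∈ M, B a = 0 → f a (r (p a)) m = 0 := fun a ha =>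
    hrz (p a) a (Finset.mem_filter.2 ⟨ha, rfl⟩)
  have hC0 : ∀ d ∈ D, 0 ≤ C d := fun d hd =>
    (Finset.sum_nonneg fun m hm => hg d hd r hrI m hm).trans (hC d hd r hrI)
  have hsA : ∑ a ∈ A, ∑ m ∈ M, (r1 (p a) - r0 (p a)) * (f a (r (p a)) m / B a) ≤
      M.card * A.card := by
    have e1 : ∀ F : α → ℝ, ∑ a ∈ A, F a = ∑ w : W, ∑ a ∈ A.filter (fun a => p a = w), F a :=
      fun F => (Finset.sum_fiberwise A p F).symm
    have e2 : (A.card : ℝ) = ∑ w : W, ((A.filter (fun a => p a = w)).card : ℝ) := by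
      have := e1 fun _ => 1
      simpa using this
    rw [e1, e2, Finset.mul_sum]
    refine Finset.sum_le_sum fun w _ => ?_
    refine le_trans (le_of_eq ?_) (hrs w)
    rw [Finset.mul_sum]
    refine Finset.sum_congr rfl fun a ha => ?_
    obtain ⟨h1, rfl⟩ := Finset.mem_filter.1 ha
    rw [Finset.mul_sum]
  -- the choice of `m`
  set G : ι → ℝ := fun m => (∑ a ∈ A, (r1 (p a) - r0 (p a)) * (f a (r (p a)) m / B a)) +
    M.card * ∑ d ∈ D, g d r m / C d with hG
  have hsum : ∑ m ∈ M, G m ≤ ∑ _m ∈ M, ((A.card : ℝ) + D.card) := by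
    rw [hG, Finset.sum_add_distrib, ← Finset.mul_sum, Finset.sum_comm]
    have e2 : ∑ m ∈ M, ∑ d ∈ D, g d r m / C d ≤ D.card := by
      rw [Finset.sum_comm]
      calc ∑ d ∈ D, ∑ m ∈ M, g d r m / C d ≤ ∑ _d ∈ D, (1 : ℝ) := by
            refine Finset.sum_le_sum fun d hd => ?_
            rw [← Finset.sum_div]
            exact div_le_one_of_le₀ (hC d hd r hrI) (hC0 d hd)
        _ = D.card := by simp
    have e3 := mul_le_mul_of_nonneg_left e2 hMc.le
    rw [Finset.sum_const, nsmul_eq_mul]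
    linarith
  obtain ⟨m, hm, hmle⟩ := Finset.exists_le_of_sum_le hM hsum
  have n1 : ∀ a ∈ A, 0 ≤ (r1 (p a) - r0 (p a)) * (f a (r (p a)) m / B a) := fun a ha =>
    mul_nonneg (sub_pos.2 (hr _)).le (div_nonneg (hf a ha _ (hrI _) m hm) (hB0 a ha))
  have n2 : ∀ d ∈ D, 0 ≤ g d r m / C d := fun d hd =>
    div_nonneg (hg d hd r hrI m hm) (hC0 d hd)
  have h5 : G m = (∑ a ∈ A, (r1 (p a) - r0 (p a)) * (f a (r (p a)) m / B a)) +
    M.card * ∑ d ∈ D, g d r m / C d := rfl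
  refine ⟨r, hrI, m, hm, fun a ha => ?_, fun d hd => ?_⟩
  · have hl : 0 < r1 (p a) - r0 (p a) := sub_pos.2 (hr _)
    rcases (hB0 a ha).eq_or_lt with h0 | h0
    · rw [hrz' a ha m hm h0.symm, ← h0]
      simp
    · have h1 : (r1 (p a) - r0 (p a)) * (f a (r (p a)) m / B a) ≤ A.card + D.card := by
        have h2 := Finset.single_le_sum
          (f := fun a => (r1 (p a) - r0 (p a)) * (f a (r (p a)) m / B a)) n1 ha
        have h4 : 0 ≤ (M.card : ℝ) * ∑ d ∈ D, g d r m / C d :=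
          mul_nonneg hMc.le (Finset.sum_nonneg n2)
        have h3 : G m ≤ A.card + D.card := hmle
        linarith
      rw [le_div_iff₀ hl]
      rw [← mul_div_assoc, div_le_iff₀ h0] at h1
      linarith
  · rcases (hC0 d hd).eq_or_lt with h0 | h0
    · have h1 : ∑ m ∈ M, g d r m ≤ 0 := (hC d hd r hrI).trans h0.symm.le
      have h2 : g d r m ≤ ∑ m ∈ M, g d r m :=
        Finset.single_le_sum (f := fun m => g d r m) (fun m hm => hg d hd r hrI m hm) hm
      rw [← h0]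
      simp only [mul_zero, zero_div]
      linarith
    · have h1 : (M.card : ℝ) * (g d r m / C d) ≤ A.card + D.card := by
        have h2 : g d r m / C d ≤ ∑ d ∈ D, g d r m / C d :=
          Finset.single_le_sum (f := fun d => g d r m / C d) n2 hd
        have h3 := mul_le_mul_of_nonneg_left h2 hMc.le
        have h4 := Finset.sum_nonneg n1
        linarith
      rw [le_div_iff₀ hMc]
      rw [← mul_div_assoc, div_le_iff₀ h0] at h1
      linarith

/-- telescoping over an integer range -/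
lemma sum_steps (A : ℕ → ℝ) {m1 m2 : ℕ} (h : m1 ≤ m2) :
    ∑ m ∈ Finset.Icc m1 m2, (A (m - 1) - A m) = A (m1 - 1) - A m2 := by
  induction m2, h using Nat.le_induction with
  | base => simp
  | succ k hk ih =>
    rw [← Finset.insert_Icc_right_eq_Icc_add_one (by omega), Finset.sum_insert (by simp), ih]
    simp

/-- **the joint choice with increments**: `g d r m ≤ P d r (m-1) - P d r m`, several windows -/
theorem pickW_steps {W : Type*} [Fintype W] {r0 r1 : W → ℝ} (hr : ∀ w, r0 w < r1 w)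
    {m1 m2 : ℕ} (h12 : m1 ≤ m2) {α δ : Type*} (A : Finset α) (D : Finset δ) (p : α → W)
    {f : α → ℝ → ℕ → ℝ} {g P : δ → (W → ℝ) → ℕ → ℝ} {B : α → ℝ} {C : δ → ℝ}
    (hf : ∀ a ∈ A, ∀ r ∈ Set.Icc (r0 (p a)) (r1 (p a)), ∀ m ∈ Finset.Icc m1 m2, 0 ≤ f a r m)
    (hi : ∀ a ∈ A, ∀ m ∈ Finset.Icc m1 m2,
      IntervalIntegrable (fun r => f a r m) volume (r0 (p a)) (r1 (p a)))
    (hB : ∀ a ∈ A, ∀ m ∈ Finset.Icc m1 m2, ∫ r in (r0 (p a))..(r1 (p a)), f a r m ≤ B a)
    (hg : ∀ d ∈ D, ∀ r : W → ℝ, (∀ w, r w ∈ Set.Icc (r0 w) (r1 w)) →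
      ∀ m ∈ Finset.Icc m1 m2, 0 ≤ g d r m)
    (hgP : ∀ d ∈ D, ∀ r : W → ℝ, (∀ w, r w ∈ Set.Icc (r0 w) (r1 w)) →
      ∀ m ∈ Finset.Icc m1 m2, g d r m ≤ P d r (m - 1) - P d r m)
    (hP0 : ∀ d ∈ D, ∀ r : W → ℝ, (∀ w, r w ∈ Set.Icc (r0 w) (r1 w)) → 0 ≤ P d r m2)
    (hPC : ∀ d ∈ D, ∀ r : W → ℝ, (∀ w, r w ∈ Set.Icc (r0 w) (r1 w)) → P d r (m1 - 1) ≤ C d) :
    ∃ r : W → ℝ, (∀ w, r w ∈ Set.Icc (r0 w) (r1 w)) ∧ ∃ m ∈ Finset.Icc m1 m2,
      (∀ a ∈ A, f a (r (p a)) m ≤ (A.card + D.card) * B a / (r1 (p a) - r0 (p a))) ∧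
      ∀ d ∈ D, g d r m ≤ (A.card + D.card) * C d / ((m2 : ℝ) - m1 + 1) := by
  have hM : (Finset.Icc m1 m2).Nonempty := Finset.nonempty_Icc.2 h12
  have hcard : ((Finset.Icc m1 m2).card : ℝ) = (m2 : ℝ) - m1 + 1 := by
    rw [Nat.card_Icc, Nat.cast_sub (by omega)]
    push_cast
    ring
  have hC : ∀ d ∈ D, ∀ r : W → ℝ, (∀ w, r w ∈ Set.Icc (r0 w) (r1 w)) →
      ∑ m ∈ Finset.Icc m1 m2, g d r m ≤ C d := by
    intro d hd r hr'
    have h3 := Finset.sum_le_sum fun m hm => hgP d hd r hr' m hm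
    rw [sum_steps (P d r) h12] at h3
    have := hP0 d hd r hr'
    have := hPC d hd r hr'
    linarith
  have h4 := pickW (Finset.Icc m1 m2) hM hr A D p hf hi hB hg hC
  rwa [hcard] at h4

/-! ### the choice for numbers which are functions of the revealed set and of two shares -/

/-- the sites which are revealed when the last `m` are hidden -/
def SN (n m : ℕ) : Finset (Fin n) := Finset.univ.filter fun i : Fin n => i.1 + m < n

lemma mem_SN {n m : ℕ} (i : Fin n) : i ∈ SN n m ↔ i.1 + m < n := by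
  simp [SN]

lemma SN_anti {n m m' : ℕ} (h : m ≤ m') : SN n m' ⊆ SN n m := by
  intro i hi
  rw [mem_SN] at hi ⊢
  omega

lemma SN_insert {n m : ℕ} (h1 : 1 ≤ m) {i0 : Fin n} (hi : i0.1 + m = n) :
    insert i0 (SN n m) = SN n (m - 1) := by
  ext i
  rw [Finset.mem_insert, mem_SN, mem_SN, Fin.ext_iff]
  omega

lemma SN_card {n m : ℕ} (h : m ≤ n) : (SN n m).card = n - m := by
  have h1 : SN n m = (Finset.range (n - m)).attachFin fun i hi => by
      rw [Finset.mem_range] at hi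
      omega := by
    ext i
    rw [mem_SN, Finset.mem_attachFin, Finset.mem_range]
    omega
  rw [h1, Finset.card_attachFin, Finset.card_range]

lemma notMem_SN {n m : ℕ} {i0 : Fin n} (hi : i0.1 + m = n) : i0 ∉ SN n m := by
  rw [mem_SN]
  omega

/-- **THE JOINT CHOICE, abstract form.** `W` = the windows; the window `w` is the path
`(t0 w + r (t1 w - t0 w), u0 w + r (u1 w - u0 w))`, `r ∈ [0, 1]`, of the two shares. One number `m`
of hidden sites in `[m1, m2]`. `K a` : nonnegative, with `∫ K a ≤ Q a` along the path of the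
window `p a`; `P d` : nonnegative, nondecreasing in the revealed set and along the path of the
window `q d`; `g e` : nonnegative with bounded sum over `m`. -/
theorem typP {n m1 m2 : ℕ} (h12 : m1 ≤ m2) {W : Type*} [Fintype W] {t0 t1 u0 u1 : W → ℝ}
    {α : Type*} (A : Finset α) (p : α → W) {K Q : α → Finset (Fin n) → ℝ → ℝ → ℝ}
    (hK0 : ∀ a ∈ A, ∀ S t u, 0 ≤ K a S t u)
    (hKc : ∀ a ∈ A, ∀ S, ContinuousOn (fun r : ℝ => K a S
      (t0 (p a) + r * (t1 (p a) - t0 (p a))) (u0 (p a) + r * (u1 (p a) - u0 (p a))))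
      (Set.Icc 0 1))
    (hKi : ∀ a ∈ A, ∀ S, ∫ r in (0 : ℝ)..1, K a S (t0 (p a) + r * (t1 (p a) - t0 (p a)))
      (u0 (p a) + r * (u1 (p a) - u0 (p a))) ≤ Q a S (t1 (p a)) (u1 (p a)))
    (hQ : ∀ a ∈ A, ∀ S, Q a S (t1 (p a)) (u1 (p a)) ≤ Q a Finset.univ (t1 (p a)) (u1 (p a)))
    {δ : Type*} (D : Finset δ) (q : δ → W) {P : δ → Finset (Fin n) → ℝ → ℝ → ℝ}
    (hP0 : ∀ d ∈ D, ∀ S t u, 0 ≤ P d S t u)
    (hPS : ∀ d ∈ D, ∀ S S', S ⊆ S' → ∀ r ∈ Set.Icc (0 : ℝ) 1,
      P d S (t0 (q d) + r * (t1 (q d) - t0 (q d))) (u0 (q d) + r * (u1 (q d) - u0 (q d))) ≤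
      P d S' (t0 (q d) + r * (t1 (q d) - t0 (q d))) (u0 (q d) + r * (u1 (q d) - u0 (q d))))
    (hPp : ∀ d ∈ D, ∀ r ∈ Set.Icc (0 : ℝ) 1, P d Finset.univ
      (t0 (q d) + r * (t1 (q d) - t0 (q d))) (u0 (q d) + r * (u1 (q d) - u0 (q d))) ≤
      P d Finset.univ (t1 (q d)) (u1 (q d)))
    {ε : Type*} (E : Finset ε) {g : ε → (W → ℝ) → ℕ → ℝ} {C : ε → ℝ}
    (hg : ∀ e ∈ E, ∀ r : W → ℝ, (∀ w, r w ∈ Set.Icc (0 : ℝ) 1) →
      ∀ m ∈ Finset.Icc m1 m2, 0 ≤ g e r m)
    (hC : ∀ e ∈ E, ∀ r : W → ℝ, (∀ w, r w ∈ Set.Icc (0 : ℝ) 1) →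
      ∑ m ∈ Finset.Icc m1 m2, g e r m ≤ C e) :
    ∃ r : W → ℝ, (∀ w, r w ∈ Set.Icc (0 : ℝ) 1) ∧ ∃ m ∈ Finset.Icc m1 m2,
      (∀ a ∈ A, ∀ m' ∈ ({m, m - 1} : Finset ℕ), K a (SN n m')
        (t0 (p a) + r (p a) * (t1 (p a) - t0 (p a))) (u0 (p a) + r (p a) * (u1 (p a) - u0 (p a)))
        ≤ (2 * A.card + D.card + E.card) * Q a Finset.univ (t1 (p a)) (u1 (p a))) ∧
      (∀ d ∈ D, P d (SN n (m - 1)) (t0 (q d) + r (q d) * (t1 (q d) - t0 (q d)))
          (u0 (q d) + r (q d) * (u1 (q d) - u0 (q d))) -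
        P d (SN n m) (t0 (q d) + r (q d) * (t1 (q d) - t0 (q d)))
          (u0 (q d) + r (q d) * (u1 (q d) - u0 (q d))) ≤
        (2 * A.card + D.card + E.card) * P d Finset.univ (t1 (q d)) (u1 (q d)) /
          ((m2 : ℝ) - m1 + 1)) ∧
      ∀ e ∈ E, g e r m ≤ (2 * A.card + D.card + E.card) * C e / ((m2 : ℝ) - m1 + 1) := by
  classical
  have hM : (Finset.Icc m1 m2).Nonempty := Finset.nonempty_Icc.2 h12
  have hcard : ((Finset.Icc m1 m2).card : ℝ) = (m2 : ℝ) - m1 + 1 := by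
    rw [Nat.card_Icc, Nat.cast_sub (by omega)]
    push_cast
    ring
  have hA : ∀ a : α ⊕ α, a ∈ A.disjSum A → ∃ a', a' ∈ A ∧ (a = Sum.inl a' ∨ a = Sum.inr a') := by
    rintro (a | a) ha
    · exact ⟨a, Finset.inl_mem_disjSum.1 ha, Or.inl rfl⟩
    · exact ⟨a, Finset.inr_mem_disjSum.1 ha, Or.inr rfl⟩
  obtain ⟨r, hrI, m, hm, h1, h2⟩ := pickW (Finset.Icc m1 m2) hM (W := W) (r0 := fun _ => 0)
    (r1 := fun _ => 1) (fun _ => zero_lt_one) (A.disjSum A) (D.disjSum E) (Sum.elim p p)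
    (f := fun a r m => Sum.elim
      (fun a => K a (SN n m) (t0 (p a) + r * (t1 (p a) - t0 (p a)))
        (u0 (p a) + r * (u1 (p a) - u0 (p a))))
      (fun a => K a (SN n (m - 1)) (t0 (p a) + r * (t1 (p a) - t0 (p a)))
        (u0 (p a) + r * (u1 (p a) - u0 (p a)))) a)
    (g := fun e r m => Sum.elim
      (fun d => P d (SN n (m - 1)) (t0 (q d) + r (q d) * (t1 (q d) - t0 (q d)))
          (u0 (q d) + r (q d) * (u1 (q d) - u0 (q d))) -
        P d (SN n m) (t0 (q d) + r (q d) * (t1 (q d) - t0 (q d)))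
          (u0 (q d) + r (q d) * (u1 (q d) - u0 (q d))))
      (fun e => g e r m) e)
    (B := Sum.elim (fun a => Q a Finset.univ (t1 (p a)) (u1 (p a)))
      (fun a => Q a Finset.univ (t1 (p a)) (u1 (p a))))
    (C := Sum.elim (fun d => P d Finset.univ (t1 (q d)) (u1 (q d))) C)
    (fun a ha r _ m _ => by
      obtain ⟨a', ha', rfl | rfl⟩ := hA a ha <;> exact hK0 a' ha' _ _ _)
    (fun a ha m _ => by
      obtain ⟨a', ha', rfl | rfl⟩ := hA a ha
      · refine ContinuousOn.intervalIntegrable ?_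
        rw [Set.uIcc_of_le zero_le_one]
        exact hKc a' ha' _
      · refine ContinuousOn.intervalIntegrable ?_
        rw [Set.uIcc_of_le zero_le_one]
        exact hKc a' ha' _)
    (fun a ha m _ => by
      obtain ⟨a', ha', rfl | rfl⟩ := hA a ha
      · exact (hKi a' ha' _).trans (hQ a' ha' _)
      · exact (hKi a' ha' _).trans (hQ a' ha' _))
    (fun e he r hr m hm => by
      rcases e with d | e
      · exact sub_nonneg.2 (hPS d (Finset.inl_mem_disjSum.1 he) _ _ (SN_anti (Nat.sub_le m 1)) _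
          (hr _))
      · exact hg e (Finset.inr_mem_disjSum.1 he) r hr m hm)
    (fun e he r hr => by
      rcases e with d | e
      · have hd := Finset.inl_mem_disjSum.1 he
        have h3 := sum_steps (fun m => P d (SN n m) (t0 (q d) + r (q d) * (t1 (q d) - t0 (q d)))
          (u0 (q d) + r (q d) * (u1 (q d) - u0 (q d)))) h12
        refine le_trans (le_of_eq h3) ?_
        have h4 := hP0 d hd (SN n m2) (t0 (q d) + r (q d) * (t1 (q d) - t0 (q d)))
          (u0 (q d) + r (q d) * (u1 (q d) - u0 (q d)))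
        have h5 := hPS d hd (SN n (m1 - 1)) Finset.univ (Finset.subset_univ _) _ (hr (q d))
        have h6 := hPp d hd _ (hr (q d))
        show _ ≤ P d Finset.univ (t1 (q d)) (u1 (q d))
        linarith
      · exact hC e (Finset.inr_mem_disjSum.1 he) r hr)
  have hN : ((A.disjSum A).card : ℝ) + ((D.disjSum E).card : ℝ) =
      2 * A.card + D.card + E.card := by
    rw [Finset.card_disjSum, Finset.card_disjSum]
    push_cast
    ring
  rw [hN, hcard] at h2
  rw [hN] at h1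
  simp only [sub_zero, div_one] at h1
  refine ⟨r, hrI, m, hm, fun a ha m' hm' => ?_, fun d hd => ?_, fun e he => ?_⟩
  · rcases Finset.mem_insert.1 hm' with rfl | hm'
    · exact h1 (Sum.inl a) (Finset.inl_mem_disjSum.2 ha)
    · rw [Finset.mem_singleton.1 hm']
      exact h1 (Sum.inr a) (Finset.inr_mem_disjSum.2 ha)
  · exact h2 (Sum.inl d) (Finset.inl_mem_disjSum.2 hd)
  · exact h2 (Sum.inr e) (Finset.inr_mem_disjSum.2 he)

end Vale.Agent.P146.H320
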