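import Vale.Agent.P146.H320.Pick

/-!
The joint choice for numbers which are functions of the revealed set and of the parameters of the
windows (the shares may be vectors: they enter through the parameter only).
-/

open MeasureTheory

namespace Vale.Agent.P146.H320

/-- **THE JOINT CHOICE, parameters only.** `W` = the windows, with parameters `r w ∈ [0, 1]`; one
number `m` of hidden sites in `[m1, m2]`. `K a S r` : nonnegative, with integral over `r` at most
`B a`; `P d S r` : nonnegative, nondecreasing in the revealed set, at most `C d`; `g e` :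
nonnegative with sum over `m` at most `G e`. -/
theorem typR {n m1 m2 : ℕ} (h12 : m1 ≤ m2) {W : Type*} [Fintype W]
    {α : Type*} (A : Finset α) (p : α → W) {K : α → Finset (Fin n) → ℝ → ℝ} {B : α → ℝ}
    (hK0 : ∀ a ∈ A, ∀ S, ∀ r ∈ Set.Icc (0 : ℝ) 1, 0 ≤ K a S r)
    (hKc : ∀ a ∈ A, ∀ S, ContinuousOn (K a S) (Set.Icc 0 1))
    (hKi : ∀ a ∈ A, ∀ S, ∫ r in (0 : ℝ)..1, K a S r ≤ B a)
    {δ : Type*} (D : Finset δ) (q : δ → W) {P : δ → Finset (Fin n) → ℝ → ℝ} {C : δ → ℝ}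
    (hP0 : ∀ d ∈ D, ∀ S, ∀ r ∈ Set.Icc (0 : ℝ) 1, 0 ≤ P d S r)
    (hPS : ∀ d ∈ D, ∀ S S', S ⊆ S' → ∀ r ∈ Set.Icc (0 : ℝ) 1, P d S r ≤ P d S' r)
    (hPC : ∀ d ∈ D, ∀ r ∈ Set.Icc (0 : ℝ) 1, P d Finset.univ r ≤ C d)
    {ε : Type*} (E : Finset ε) {g : ε → (W → ℝ) → ℕ → ℝ} {G : ε → ℝ}
    (hg : ∀ e ∈ E, ∀ r : W → ℝ, (∀ w, r w ∈ Set.Icc (0 : ℝ) 1) →
      ∀ m ∈ Finset.Icc m1 m2, 0 ≤ g e r m)
    (hG : ∀ e ∈ E, ∀ r : W → ℝ, (∀ w, r w ∈ Set.Icc (0 : ℝ) 1) →
      ∑ m ∈ Finset.Icc m1 m2, g e r m ≤ G e) :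
    ∃ r : W → ℝ, (∀ w, r w ∈ Set.Icc (0 : ℝ) 1) ∧ ∃ m ∈ Finset.Icc m1 m2,
      (∀ a ∈ A, ∀ m' ∈ ({m, m - 1} : Finset ℕ), K a (SN n m') (r (p a)) ≤
        (2 * A.card + D.card + E.card) * B a) ∧
      (∀ d ∈ D, P d (SN n (m - 1)) (r (q d)) - P d (SN n m) (r (q d)) ≤
        (2 * A.card + D.card + E.card) * C d / ((m2 : ℝ) - m1 + 1)) ∧
      ∀ e ∈ E, g e r m ≤ (2 * A.card + D.card + E.card) * G e / ((m2 : ℝ) - m1 + 1) := by
  classical
  have hM : (Finset.Icc m1 m2).Nonempty := Finset.nonempty_Icc.2 h12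
  have hcard : ((Finset.Icc m1 m2).card : ℝ) = (m2 : ℝ) - m1 + 1 := by
    rw [Nat.card_Icc, Nat.cast_sub (by omega)]
    push_cast
    ring
  have hA : ∀ a : α ⊕ α, a ∈ A.disjSum A → ∃ a', a' ∈ A ∧ (a = Sum.inl a' ∨ a = Sum.inr a') := by
    rintro (a | a) ha
    · exact ⟨a, Finset.inl_mem_disjSum.1 ha, Or.inl rfl⟩
    · exact ⟨a, Finset.inr_mem_disjSum.1 ha, Or.inr rfl⟩
  obtain ⟨r, hrI, m, hm, h1, h2⟩ := pickW (Finset.Icc m1 m2) hM (W := W) (r0 := fun _ => 0)
    (r1 := fun _ => 1) (fun _ => zero_lt_one) (A.disjSum A) (D.disjSum E) (Sum.elim p p)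
    (f := fun a r m => Sum.elim (fun a => K a (SN n m) r) (fun a => K a (SN n (m - 1)) r) a)
    (g := fun e r m => Sum.elim
      (fun d => P d (SN n (m - 1)) (r (q d)) - P d (SN n m) (r (q d))) (fun e => g e r m) e)
    (B := Sum.elim B B) (C := Sum.elim C G)
    (fun a ha r hr m _ => by
      obtain ⟨a', ha', rfl | rfl⟩ := hA a ha <;> exact hK0 a' ha' _ r hr)
    (fun a ha m _ => by
      obtain ⟨a', ha', rfl | rfl⟩ := hA a ha
      · refine ContinuousOn.intervalIntegrable ?_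
        rw [Set.uIcc_of_le zero_le_one]
        exact hKc a' ha' _
      · refine ContinuousOn.intervalIntegrable ?_
        rw [Set.uIcc_of_le zero_le_one]
        exact hKc a' ha' _)
    (fun a ha m _ => by
      obtain ⟨a', ha', rfl | rfl⟩ := hA a ha
      · exact hKi a' ha' _
      · exact hKi a' ha' _)
    (fun e he r hr m hm => by
      rcases e with d | e
      · exact sub_nonneg.2 (hPS d (Finset.inl_mem_disjSum.1 he) _ _ (SN_anti (Nat.sub_le m 1)) _
          (hr _))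
      · exact hg e (Finset.inr_mem_disjSum.1 he) r hr m hm)
    (fun e he r hr => by
      rcases e with d | e
      · have hd := Finset.inl_mem_disjSum.1 he
        have h3 := sum_steps (fun m => P d (SN n m) (r (q d))) h12
        refine le_trans (le_of_eq h3) ?_
        have h4 := hP0 d hd (SN n m2) _ (hr (q d))
        have h5 := hPS d hd (SN n (m1 - 1)) Finset.univ (Finset.subset_univ _) _ (hr (q d))
        have h6 := hPC d hd _ (hr (q d))
        show _ ≤ C d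
        linarith
      · exact hG e (Finset.inr_mem_disjSum.1 he) r hr)
  have hN : ((A.disjSum A).card : ℝ) + ((D.disjSum E).card : ℝ) =
      2 * A.card + D.card + E.card := by
    rw [Finset.card_disjSum, Finset.card_disjSum]
    push_cast
    ring
  rw [hN, hcard] at h2
  rw [hN] at h1
  simp only [sub_zero, div_one] at h1
  refine ⟨r, hrI, m, hm, fun a ha m' hm' => ?_, fun d hd => ?_, fun e he => ?_⟩
  · rcases Finset.mem_insert.1 hm' with rfl | hm'
    · exact h1 (Sum.inl a) (Finset.inl_mem_disjSum.2 ha)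
    · rw [Finset.mem_singleton.1 hm']
      exact h1 (Sum.inr a) (Finset.inr_mem_disjSum.2 ha)
  · exact h2 (Sum.inl d) (Finset.inl_mem_disjSum.2 hd)
  · exact h2 (Sum.inr e) (Finset.inr_mem_disjSum.2 he)

end Vale.Agent.P146.H320
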