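import Vale.Agent.P146.H463.NeIn
import Vale.Agent.P146.H487.Regk

/-!
Comparison of the rank-one number of the plain spins with the rank-one number of the spins weighted
by an amplitude `a`, `|a - 1| ≤ η`, in any Gibbs system.
-/

open MeasureTheory ProbabilityTheory

namespace Vale.Agent.P146.H320

open Vale.Agent.P146.H196 Vale.Agent.P146.H646 Vale.Agent.P146.H615 Vale.Agent.P146.H463

set_option linter.unusedSectionVars false

variable {κ s : Type} [Fintype κ] [DecidableEq κ] [Fintype s] [DecidableEq s]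
variable {Ω : Type} [MeasurableSpace Ω] {m : Measure Ω} {M0 : ℝ} {E : κ → Ω → ℝ}
variable {σ : s → Ω → ℝ} {a : Ω → ℝ}

/-- the rank one defect of the weighted spins given the frozen coordinates -/
noncomputable def RKa (m : Measure Ω) (E : κ → Ω → ℝ) (x : ℝ) (K : Finset κ) (a : Ω → ℝ)
    (σ : s → Ω → ℝ) (S : Finset s) (z : κ → ℝ) : ℝ :=
  ∑ j ∈ S, ∑ l ∈ S,
    (cx (H347.g1 κ) K (Zxm m 1 E x) (avm m 1 E fun ω => a ω * σ j ω * (a ω * σ l ω)) z -
      cx (H347.g1 κ) K (Zxm m 1 E x) (avm m 1 E fun ω => a ω * σ j ω) z *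
        cx (H347.g1 κ) K (Zxm m 1 E x) (avm m 1 E fun ω => a ω * σ l ω) z) ^ 2

lemma RKa_nonneg {x : ℝ} {K : Finset κ} {S : Finset s} {z : κ → ℝ} :
    0 ≤ RKa m E x K a σ S z :=
  Finset.sum_nonneg fun _ _ => Finset.sum_nonneg fun _ _ => sq_nonneg _

variable (hG : GM m E M0)
include hG

lemma bm_RKa (x : ℝ) (K : Finset κ) (ha : Bd a) (hs : ∀ j, Bd (σ j)) (S : Finset s) :
    BM (RKa m E x K a σ S) := by
  have hw := H347.wt hG 1 x
  have hA := av_gm hG 1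
  exact BM.sum S fun j _ => BM.sum S fun l _ =>
    bsq ((hw.bm_cx K (hA.bm ((ha.mul (hs j)).mul (ha.mul (hs l))))).sub
      ((hw.bm_cx K (hA.bm (ha.mul (hs j)))).mul (hw.bm_cx K (hA.bm (ha.mul (hs l))))))

/-- a bounded weight: the sum of the squares of the means of `h f_p` -/
lemma wsum_le {J : Type} (x : ℝ) (K : Finset κ) {f : J → Ω → ℝ} (hf : ∀ p, Bd (f p))
    {h : Ω → ℝ} (hh : Bd h) {C : ℝ} (hC : ∀ ω, |h ω| ≤ C) (A : Finset J) (z : κ → ℝ) :
    ∑ p ∈ A, cx (H347.g1 κ) K (Zxm m 1 E x) (avm m 1 E fun ω => h ω * f p ω) z ^ 2 ≤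
      C ^ 2 * √(F2 m E x K f A z) := by
  have hw := H347.wt hG 1 x
  have hA := av_gm hG 1
  set D : J → ℝ := fun p => cx (H347.g1 κ) K (Zxm m 1 E x) (avm m 1 E fun ω => h ω * f p ω) z
    with hD
  set L : Ω → ℝ := fun ω => ∑ p ∈ A, D p * f p ω with hL
  have hLb : Bd L := Bd.sum A fun p _ => (hf p).cmul _
  set T : ℝ := ∑ p ∈ A, D p ^ 2 with hT
  have hT0 : 0 ≤ T := Finset.sum_nonneg fun _ _ => sq_nonneg _
  set F := √(F2 m E x K f A z) with hF
  have hF0 : 0 ≤ F := Real.sqrt_nonneg _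
  -- `T` is the mean of `h L`
  have e1 : T = cx (H347.g1 κ) K (Zxm m 1 E x) (avm m 1 E fun ω => h ω * L ω) z := by
    have e2 : (avm m 1 E fun ω => h ω * L ω) = fun y =>
        ∑ p ∈ A, D p * avm m 1 E (fun ω => h ω * f p ω) y := by
      funext y
      have e3 : (fun ω => h ω * L ω) = fun ω => ∑ p ∈ A, D p * (h ω * f p ω) := by
        funext ω
        rw [hL, Finset.mul_sum]
        exact Finset.sum_congr rfl fun p _ => by ring
      rw [e3, hA.sum A fun p _ => (hh.mul (hf p)).cmul _]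
      exact Finset.sum_congr rfl fun p _ => hA.smul _ _ _
    rw [e2, cx_sum hw A fun p _ => (BM.const _).mul (hA.bm (hh.mul (hf p)))]
    rw [hT]
    refine Finset.sum_congr rfl fun p _ => ?_
    rw [cx_const_mul hw]
    show D p ^ 2 = D p * D p
    ring
  have h2 : T ^ 2 ≤ C ^ 2 * (T * F) := by
    have h3 := cxav_sq_le hG x K (hh.mul hLb) z
    rw [← e1] at h3
    have h4 : cx (H347.g1 κ) K (Zxm m 1 E x) (avm m 1 E fun ω => (h ω * L ω) ^ 2) z ≤
        cx (H347.g1 κ) K (Zxm m 1 E x) (avm m 1 E fun ω => C ^ 2 * L ω ^ 2) z := by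
      refine cxav_mono hG x K (hh.mul hLb).sq (hLb.sq.cmul _) (fun ω => ?_) z
      rw [mul_pow, ← sq_abs (h ω)]
      exact mul_le_mul_of_nonneg_right (pow_le_pow_left₀ (abs_nonneg _) (hC ω) 2) (sq_nonneg _)
    have h5 := cxav_cmul hG x K (C ^ 2) (fun ω => L ω ^ 2) z
    have h6 := quad_cs hG x K hf A D z
    have h7 : C ^ 2 * cx (H347.g1 κ) K (Zxm m 1 E x) (avm m 1 E fun ω => L ω ^ 2) z ≤
        C ^ 2 * (T * F) := mul_le_mul_of_nonneg_left h6 (sq_nonneg _)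
    linarith
  rcases hT0.eq_or_lt with h8 | h8
  · rw [← h8]
    positivity
  · have h9 : T * T ≤ T * (C ^ 2 * F) := by nlinarith
    exact le_of_mul_le_mul_left h9 h8

/-- the second moment of the two point functions against the four point functions -/
lemma F2_le_Q4 (x : ℝ) (K : Finset κ) (hs : ∀ j, Bd (σ j)) (S : Finset s) (z : κ → ℝ) :
    F2 m E x K σ S z ≤ √(Q4g m E x K σ S z) := by
  have h := wsum_le hG x K (f := fun p : s × s => fun ω => σ p.1 ω * σ p.2 ω)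
    (fun p => (hs p.1).mul (hs p.2)) (h := fun _ => 1) (Bd.const 1) (C := 1)
    (fun _ => by simp) (S ×ˢ S) z
  simp only [one_mul, one_pow] at h
  refine le_trans (le_of_eq ?_) h
  rw [Finset.sum_product]
  rfl

/-- **The plain rank-one number against the weighted one**, pointwise. -/
theorem RKg_le {η : ℝ} (hη : 0 ≤ η) (hη1 : η ≤ 1 / 2) (x : ℝ) (K : Finset κ) (ha : Bd a)
    (hs : ∀ j, Bd (σ j)) (haη : ∀ ω, |a ω - 1| ≤ η) (S : Finset s) (z : κ → ℝ) :
    RKg m E x K σ S z ≤ 2 * RKa m E x K a σ S z + 57 * η ^ 2 * √(Q4g m E x K σ S z) := by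
  have hw := H347.wt hG 1 x
  have hA := av_gm hG 1
  set c : (Ω → ℝ) → ℝ := fun h => cx (H347.g1 κ) K (Zxm m 1 E x) (avm m 1 E h) z with hc
  set R := √(Q4g m E x K σ S z) with hR
  have hR0 : 0 ≤ R := Real.sqrt_nonneg _
  have ha1 : Bd fun ω => a ω - 1 := by
    have := ha.add (Bd.const (-1))
    simpa only [sub_eq_add_neg] using this
  have ha2 : Bd fun ω => a ω ^ 2 - 1 := by
    have := ha.sq.add (Bd.const (-1))
    simpa only [sub_eq_add_neg] using this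
  have hF := F2_le_Q4 hG x K hs S z
  have hF0 : 0 ≤ F2 m E x K σ S z := F2_nonneg x K _ _ z
  have hFs : √(F2 m E x K σ S z) ^ 2 ≤ R := by rw [Real.sq_sqrt hF0]; exact hF
  -- the three error terms
  set B : s → s → ℝ := fun j l => c fun ω => (a ω ^ 2 - 1) * (σ j ω * σ l ω) with hB
  set d : s → ℝ := fun j => c fun ω => (a ω - 1) * σ j ω with hd
  set M : s → ℝ := fun j => c fun ω => a ω * σ j ω with hM
  set mm : s → ℝ := fun j => c fun ω => σ j ω with hmm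
  have eM : ∀ j, M j = mm j + d j := by
    intro j
    have e := cxav_add hG x K (h := σ j) (g := fun ω => (a ω - 1) * σ j ω) (hs j)
      (ha1.mul (hs j)) z
    have e' : (fun ω => σ j ω + (a ω - 1) * σ j ω) = fun ω => a ω * σ j ω := by
      funext ω; ring
    rw [e'] at e
    exact e
  have eC : ∀ j l, c (fun ω => a ω * σ j ω * (a ω * σ l ω)) =
      c (fun ω => σ j ω * σ l ω) + B j l := by
    intro j l
    have e := cxav_add hG x K (h := fun ω => σ j ω * σ l ω)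
      (g := fun ω => (a ω ^ 2 - 1) * (σ j ω * σ l ω)) ((hs j).mul (hs l))
      (ha2.mul ((hs j).mul (hs l))) z
    have e' : (fun ω => σ j ω * σ l ω + (a ω ^ 2 - 1) * (σ j ω * σ l ω)) =
        fun ω => a ω * σ j ω * (a ω * σ l ω) := by
      funext ω; ring
    rw [e'] at e
    exact e
  have hBs : ∑ j ∈ S, ∑ l ∈ S, B j l ^ 2 ≤ (5 / 2 * η) ^ 2 * R := by
    have h := wsum_le hG x K (f := fun p : s × s => fun ω => σ p.1 ω * σ p.2 ω)
      (fun p => (hs p.1).mul (hs p.2)) (h := fun ω => a ω ^ 2 - 1) ha2 (C := 5 / 2 * η)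
      (fun ω => by
        have h1 := abs_le.1 (haη ω)
        have e : a ω ^ 2 - 1 = (a ω - 1) * (a ω + 1) := by ring
        rw [e, abs_mul]
        have h2 : |a ω + 1| ≤ 5 / 2 := by
          rw [abs_le]; constructor <;> linarith [h1.1, h1.2]
        have h3 := mul_le_mul (haη ω) h2 (abs_nonneg _) hη
        linarith) (S ×ˢ S) z
    rw [Finset.sum_product] at h
    exact h
  have hds : ∑ j ∈ S, d j ^ 2 ≤ η ^ 2 * √(F2 m E x K σ S z) :=
    wsum_le hG x K hs ha1 haη S z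
  have hMs : ∑ j ∈ S, M j ^ 2 ≤ (1 + η) ^ 2 * √(F2 m E x K σ S z) :=
    wsum_le hG x K hs ha (C := 1 + η) (fun ω => by
      have h1 := abs_le.1 (haη ω)
      rw [abs_le]; constructor <;> linarith [h1.1, h1.2]) S z
  have hms : ∑ j ∈ S, mm j ^ 2 ≤ √(F2 m E x K σ S z) := by
    have h := wsum_le hG x K hs (h := fun _ => 1) (Bd.const 1) (C := 1) (fun _ => by simp) S z
    simpa only [one_mul, one_pow] using h
  have hf0 := Real.sqrt_nonneg (F2 m E x K σ S z)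
  have hD1 : ∑ j ∈ S, ∑ l ∈ S, (d j * M l) ^ 2 ≤ η ^ 2 * (1 + η) ^ 2 * R := by
    have e : ∑ j ∈ S, ∑ l ∈ S, (d j * M l) ^ 2 = (∑ j ∈ S, d j ^ 2) * ∑ l ∈ S, M l ^ 2 := by
      rw [Finset.sum_mul_sum]
      exact Finset.sum_congr rfl fun j _ => Finset.sum_congr rfl fun l _ => by ring
    rw [e]
    have h1 := mul_le_mul hds hMs (Finset.sum_nonneg fun _ _ => sq_nonneg _)
      (mul_nonneg (sq_nonneg η) hf0)
    have h2 : η ^ 2 * √(F2 m E x K σ S z) * ((1 + η) ^ 2 * √(F2 m E x K σ S z)) =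
        η ^ 2 * (1 + η) ^ 2 * √(F2 m E x K σ S z) ^ 2 := by ring
    rw [h2] at h1
    exact h1.trans (mul_le_mul_of_nonneg_left hFs (by positivity))
  have hD2 : ∑ j ∈ S, ∑ l ∈ S, (mm j * d l) ^ 2 ≤ η ^ 2 * R := by
    have e : ∑ j ∈ S, ∑ l ∈ S, (mm j * d l) ^ 2 = (∑ j ∈ S, mm j ^ 2) * ∑ l ∈ S, d l ^ 2 := by
      rw [Finset.sum_mul_sum]
      exact Finset.sum_congr rfl fun j _ => Finset.sum_congr rfl fun l _ => by ring
    rw [e]
    have h1 := mul_le_mul hms hds (Finset.sum_nonneg fun _ _ => sq_nonneg _) hf0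
    have h2 : √(F2 m E x K σ S z) * (η ^ 2 * √(F2 m E x K σ S z)) =
        η ^ 2 * √(F2 m E x K σ S z) ^ 2 := by ring
    rw [h2] at h1
    exact h1.trans (mul_le_mul_of_nonneg_left hFs (by positivity))
  -- pointwise
  have hpt : ∀ j l, (c (fun ω => σ j ω * σ l ω) - mm j * mm l) ^ 2 ≤
      2 * (c (fun ω => a ω * σ j ω * (a ω * σ l ω)) - M j * M l) ^ 2 +
        6 * (B j l ^ 2 + (d j * M l) ^ 2 + (mm j * d l) ^ 2) := by
    intro j l
    rw [eC]
    have e1 : d j * M l = M j * M l - mm j * M l := by rw [eM j]; ring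
    have e2 : mm j * d l = mm j * M l - mm j * mm l := by rw [eM l]; ring
    set X := c (fun ω => σ j ω * σ l ω) - mm j * mm l with hX
    set Y := c (fun ω => σ j ω * σ l ω) + B j l - M j * M l with hY
    have e3 : X = Y + (-B j l + d j * M l + mm j * d l) := by
      rw [e1, e2, hX, hY]; ring
    rw [e3]
    nlinarith [sq_nonneg (Y - (-B j l + d j * M l + mm j * d l)),
      sq_nonneg (-B j l - d j * M l), sq_nonneg (-B j l - mm j * d l),
      sq_nonneg (d j * M l - mm j * d l)]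
  have e4 : RKg m E x K σ S z =
      ∑ j ∈ S, ∑ l ∈ S, (c (fun ω => σ j ω * σ l ω) - mm j * mm l) ^ 2 := rfl
  have e5 : RKa m E x K a σ S z = ∑ j ∈ S, ∑ l ∈ S,
      (c (fun ω => a ω * σ j ω * (a ω * σ l ω)) - M j * M l) ^ 2 := rfl
  rw [e4, e5]
  have h1 : ∑ j ∈ S, ∑ l ∈ S, (c (fun ω => σ j ω * σ l ω) - mm j * mm l) ^ 2 ≤
      ∑ j ∈ S, ∑ l ∈ S, (2 * (c (fun ω => a ω * σ j ω * (a ω * σ l ω)) - M j * M l) ^ 2 +
        6 * (B j l ^ 2 + (d j * M l) ^ 2 + (mm j * d l) ^ 2)) :=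
    Finset.sum_le_sum fun j _ => Finset.sum_le_sum fun l _ => hpt j l
  refine h1.trans ?_
  have e6 : ∑ j ∈ S, ∑ l ∈ S, (2 * (c (fun ω => a ω * σ j ω * (a ω * σ l ω)) - M j * M l) ^ 2 +
        6 * (B j l ^ 2 + (d j * M l) ^ 2 + (mm j * d l) ^ 2)) =
      2 * ∑ j ∈ S, ∑ l ∈ S, (c (fun ω => a ω * σ j ω * (a ω * σ l ω)) - M j * M l) ^ 2 +
        6 * (∑ j ∈ S, ∑ l ∈ S, B j l ^ 2 + ∑ j ∈ S, ∑ l ∈ S, (d j * M l) ^ 2 +
          ∑ j ∈ S, ∑ l ∈ S, (mm j * d l) ^ 2) := by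
    simp only [Finset.sum_add_distrib, ← Finset.mul_sum]
  rw [e6]
  have h7 : (5 / 2 * η) ^ 2 * R + η ^ 2 * (1 + η) ^ 2 * R + η ^ 2 * R ≤ 19 / 2 * η ^ 2 * R := by
    have h8 : (1 + η) ^ 2 ≤ 9 / 4 := by nlinarith
    have h9 : 0 ≤ η ^ 2 * R := by positivity
    have h10 : η ^ 2 * (1 + η) ^ 2 * R ≤ 9 / 4 * (η ^ 2 * R) := by
      calc η ^ 2 * (1 + η) ^ 2 * R = (1 + η) ^ 2 * (η ^ 2 * R) := by ring
        _ ≤ _ := mul_le_mul_of_nonneg_right h8 h9
    nlinarith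
  linarith

/-- the mean -/
theorem ex_RKg_le {η : ℝ} (hη : 0 ≤ η) (hη1 : η ≤ 1 / 2) (x : ℝ) (K : Finset κ) (ha : Bd a)
    (hs : ∀ j, Bd (σ j)) (haη : ∀ ω, |a ω - 1| ≤ η) (S : Finset s) :
    ex (H347.g1 κ) (Zxm m 1 E x) (RKg m E x K σ S) ≤
      2 * ex (H347.g1 κ) (Zxm m 1 E x) (RKa m E x K a σ S) +
        57 * η ^ 2 * √(ex (H347.g1 κ) (Zxm m 1 E x) (Q4g m E x K σ S)) := by
  have hw := H347.wt hG 1 x
  have bQ := bm_Q4g hG x K hs S
  have bQs : BM fun z => √(Q4g m E x K σ S z) := H487.BM.sqrt bQ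
  have bR := bm_RKa hG x K ha hs S
  have h1 := H487.ex_mono hw (bm_RKg hG x K hs S)
    (((BM.const 2).mul bR).add ((BM.const (57 * η ^ 2)).mul bQs))
    fun z => RKg_le hG hη hη1 x K ha hs haη S z
  rw [H487.ex_add hw ((BM.const 2).mul bR) ((BM.const (57 * η ^ 2)).mul bQs),
    H487.ex_const_mul, H487.ex_const_mul] at h1
  refine h1.trans (add_le_add le_rfl (mul_le_mul_of_nonneg_left ?_ (by positivity)))
  -- Jensen
  have h2 := H487.ex_mul_sq_le hw (BM.const 1) bQs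
  simp only [one_mul, one_pow] at h2
  rw [H487.ex_const hw, one_mul] at h2
  have e : (fun z => √(Q4g m E x K σ S z) ^ 2) = Q4g m E x K σ S := by
    funext z
    exact Real.sq_sqrt (Q4g_nonneg x K S z)
  rw [e] at h2
  exact Real.le_sqrt_of_sq_le h2

end Vale.Agent.P146.H320
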