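import Vale.Agent.P146.H118.RkM
import Vale.Agent.P146.H9.MonoSK
import Vale.Agent.P146.H320.Pick
import Vale.Agent.P146.H320.Step

/-!
Joint choice of the shares of the fields (one for every window) and of the number of hidden sites:
rank one for the plain spins, and the increments of the second moments of the conditional means
of finitely many families of bounded functions when one site is revealed, are all of the size of
their mean. All numbers are read in any system with levels having the given shares.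
-/

open MeasureTheory ProbabilityTheory

namespace Vale.Agent.P146.H320

open Vale.Agent.P157.Lv Vale.Agent.P146.H425 Vale.Agent.P146.H332 Vale.Agent.P146.H646
open Vale.Agent.P146.H196 Vale.Agent.P146.H246 Vale.Agent.P146.H347 Vale.Agent.P146.H325
  Vale.Agent.P146.H816 Vale.Agent.P146.H118 Vale.Agent.P146.H9 Vale.Agent.P146.H475

set_option linter.unusedSectionVars false

/-- two levels with the squares `t`, `1 - t` -/
noncomputable def c2 (C t : ℝ) : Bool → ℝ := fun r => C * √(if r then t else 1 - t)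

lemma sh_c2 {CB CF t u : ℝ} (ht0 : 0 ≤ t) (ht1 : t ≤ 1) (hu0 : 0 ≤ u) (hu1 : u ≤ 1) :
    Sh (c2 CB t) (c2 CF u) {true} {true} CB CF t u := by
  have h : ∀ {C r : ℝ}, 0 ≤ r → r ≤ 1 → ∑ l : Bool, c2 C r l ^ 2 = C ^ 2 := by
    intro C r h0 h1
    rw [Fintype.sum_bool]
    unfold c2
    simp only [if_true, mul_pow]
    rw [Real.sq_sqrt h0]
    simp only [Bool.false_eq_true, if_false]
    rw [Real.sq_sqrt (by linarith)]
    ring
  have h' : ∀ {C r : ℝ}, 0 ≤ r → ∑ l ∈ ({true} : Finset Bool), c2 C r l ^ 2 = r * C ^ 2 := by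
    intro C r h0
    rw [Finset.sum_singleton]
    unfold c2
    simp only [if_true, mul_pow]
    rw [Real.sq_sqrt h0]
    ring
  exact ⟨h ht0 ht1, h hu0 hu1, h' ht0, h' hu0⟩

variable {n : ℕ} {b s η CB CF x M0 : ℝ} {lam c : ℝ}

/-- the second moment of the conditional means of the family `f` over `r`, two levels -/
noncomputable def Nm (n : ℕ) (lam b CB CF s η c x t u : ℝ) {A : Type} [Fintype A]
    (f : A → ℝ × Xs n → ℝ) (S : Finset (Fin n)) (r : Finset A) : ℝ :=
  eg (muA (Xs n) lam η c) (Sm b (c2 CB t) (c2 CF u) s η) x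
    (fun z => ∑ a ∈ r, cg (muA (Xs n) lam η c) (Sm b (c2 CB t) (c2 CF u) s η) x
      (Kset S {true} {true}) (f a) z ^ 2)

section
variable {t t' u u' : ℝ} {A : Type} [Fintype A] {f : A → ℝ × Xs n → ℝ} {S S' : Finset (Fin n)}
  {r r' : Finset A}

lemma Nm_mono (hl : 0 < lam) (hη : 0 ≤ η) (hB : 0 < CB) (hF : 0 < CF) (ht0 : 0 ≤ t)
    (ht : t ≤ t') (ht1 : t' ≤ 1) (hu0 : 0 ≤ u) (hu : u ≤ u') (hu1 : u' ≤ 1) (hS : S ⊆ S')
    (hr : r ⊆ r') (hf : ∀ a, Bm (f a)) :
    Nm n lam b CB CF s η c x t u f S r ≤ Nm n lam b CB CF s η c x t' u' f S' r' :=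
  sk_mono2 (gmA (n := n) b (fun _ : Unit => CB) (fun _ : Unit => CF) s hl hη c) hB hF
    (sh_c2 ht0 (ht.trans ht1) hu0 (hu.trans hu1)) (sh_c2 (ht0.trans ht) ht1 (hu0.trans hu) hu1)
    hS ht hu x hr hf

variable {LB LF : Type} [Fintype LB] [DecidableEq LB] [Fintype LF] [DecidableEq LF]
  {cB : LB → ℝ} {cF : LF → ℝ} {BL : Finset LB} {FL : Finset LF}

/-- the same number in every system with the same shares -/
lemma Nm_eq (hl : 0 < lam) (hη : 0 ≤ η) (hB : 0 < CB) (hF : 0 < CF) (ht0 : 0 ≤ t)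
    (ht1 : t ≤ 1) (hu0 : 0 ≤ u) (hu1 : u ≤ 1) (hs : Sh cB cF BL FL CB CF t u)
    (hf : ∀ a, Bm (f a)) :
    ex (g1 _) (Zxm (muA (Xs n) lam η c) 1 (Sm b cB cF s η) x) (fun z => ∑ a ∈ r,
      cx (g1 _) (Kset S BL FL) (Zxm (muA (Xs n) lam η c) 1 (Sm b cB cF s η) x)
        (avm (muA (Xs n) lam η c) 1 (Sm b cB cF s η) (f a)) z ^ 2) =
      Nm n lam b CB CF s η c x t u f S r := by
  have hG := gmA (n := n) b (fun _ : Unit => CB) (fun _ : Unit => CF) s hl hη c
  refine le_antisymm ?_ ?_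
  · exact sk_mono2 hG hB hF hs (sh_c2 ht0 ht1 hu0 hu1) (le_refl _) le_rfl le_rfl x (le_refl r) hf
  · exact sk_mono2 hG hB hF (sh_c2 ht0 ht1 hu0 hu1) hs (le_refl _) le_rfl le_rfl x (le_refl r) hf

lemma Nm_nonneg (hl : 0 < lam) (hη : 0 ≤ η) (hf : ∀ a, Bm (f a)) :
    0 ≤ Nm n lam b CB CF s η c x t u f S r :=
  tot_nonneg (wtA b (c2 CB t) (c2 CF u) s hl hη c x) (Kset S {true} {true})
    fun a _ => bmA b (c2 CB t) (c2 CF u) s hl hη c (hf a)

/-- the increments, in every system with the given shares -/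
lemma inc_le (hl : 0 < lam) (hη : 0 ≤ η) (hB : 0 < CB) (hF : 0 < CF) (ht0 : 0 ≤ t)
    (ht1 : t ≤ 1) (hu0 : 0 ≤ u) (hu1 : u ≤ 1) (hs : Sh cB cF BL FL CB CF t u)
    (hf : ∀ a, Bm (f a)) (hr : r ⊆ r') :
    ∑ a ∈ r, (ex (g1 _) (Zxm (muA (Xs n) lam η c) 1 (Sm b cB cF s η) x) (fun z =>
        cx (g1 _) (Kset S' BL FL) (Zxm (muA (Xs n) lam η c) 1 (Sm b cB cF s η) x)
          (avm (muA (Xs n) lam η c) 1 (Sm b cB cF s η) (f a)) z ^ 2) -
      ex (g1 _) (Zxm (muA (Xs n) lam η c) 1 (Sm b cB cF s η) x) (fun z =>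
        cx (g1 _) (Kset S BL FL) (Zxm (muA (Xs n) lam η c) 1 (Sm b cB cF s η) x)
          (avm (muA (Xs n) lam η c) 1 (Sm b cB cF s η) (f a)) z ^ 2)) ≤
      Nm n lam b CB CF s η c x t u f S' r' - Nm n lam b CB CF s η c x t u f S r := by
  rw [← Nm_eq hl hη hB hF ht0 ht1 hu0 hu1 hs hf, ← Nm_eq hl hη hB hF ht0 ht1 hu0 hu1 hs hf]
  exact stp_le (wtA b cB cF s hl hη c x) hr fun a _ => bmA b cB cF s hl hη c (hf a)

end

/-- the second moment of the plain conditional means as a number `Nm` -/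
lemma QF_eq (hl : 0 < lam) (hη : 0 ≤ η) (hB : 0 < CB) (hF : 0 < CF) {t u : ℝ} (ht0 : 0 ≤ t)
    (ht1 : t ≤ 1) (hu0 : 0 ≤ u) (hu1 : u ≤ 1) (S : Finset (Fin n)) :
    QF (muA (Xs n) lam η c) b CB CF s η x S t u =
      Nm n lam b CB CF s η c x t u (fun (i : Fin n) w => sp w.2 i) S S :=
  (qf_eq (gmA (n := n) b (fun _ : Unit => CB) (fun _ : Unit => CF) s hl hη c)
    (gmA (n := n) b (c2 CB t) (c2 CF u) s hl hη c) hB hF (sh_c2 ht0 ht1 hu0 hu1) x S).symm

/-- the second moment for the pairs as a number `Nm` -/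
lemma QBd_eq (hl : 0 < lam) (hη : 0 ≤ η) (hn : 0 < n) (hb : 0 < b) (hB : 0 < CB) (hF : 0 < CF)
    {t u : ℝ} (ht0 : 0 ≤ t) (ht1 : t ≤ 1) (hu0 : 0 ≤ u) (hu1 : u ≤ 1) (S : Finset (Fin n)) :
    QBd (muA (Xs n) lam η c) b CB CF s η x S t u =
      Nm n lam b CB CF s η c x t u (fun (q : Pair n) w => SkS q w.2) S
        (Finset.univ.filter fun q : Pair n => q.1.1 ∈ S ∧ q.1.2 ∈ S) :=
  (qbd_eq (gmA (n := n) b (fun _ : Unit => CB) (fun _ : Unit => CF) s hl hη c)
    (gmA (n := n) b (c2 CB t) (c2 CF u) s hl hη c) hn hb hB hF (sh_c2 ht0 ht1 hu0 hu1) x S).symm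

lemma pth_mem {a b r : ℝ} (h : a ≤ b) (hr : r ∈ Set.Icc (0 : ℝ) 1) :
    a ≤ a + r * (b - a) ∧ a + r * (b - a) ≤ b := by
  constructor <;> nlinarith [hr.1, hr.2, mul_nonneg hr.1 (sub_nonneg.2 h),
    mul_nonneg (sub_nonneg.2 hr.2) (sub_nonneg.2 h)]

/-- **THE JOINT CHOICE for the SK system with one amplitude.** Windows `w : W`: the path
`(t0 w + r (t1 w - t0 w), u0 w + r (u1 w - u0 w))` of the revealed shares of bonds and fields; one
number `m` of hidden sites in `[m1, m2]`. Rank one for the fields and for the bonds at the same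
point, at `m` and at `m - 1`. Families `f d` (`d ∈ D`) read at the window `q d`, with monotone
index sets `R d S`; free functions `g e` (`e ∈ E`). -/
theorem typSK (hl : 0 < lam) (hη : 0 ≤ η) (hn : 0 < n) (hb : 0 < b) (hB : 0 < CB) (hF : 0 < CF)
    (hx : 0 ≤ x) (hx1 : x ≤ 1)
    {m1 m2 : ℕ} (h12 : m1 ≤ m2) {W : Type*} [Fintype W] {t0 t1 u0 u1 : W → ℝ}
    (ht0 : ∀ w, 0 ≤ t0 w) (ht : ∀ w, t0 w ≤ t1 w) (ht1 : ∀ w, t1 w ≤ 1)
    (hu0 : ∀ w, 0 ≤ u0 w) (hu : ∀ w, u0 w ≤ u1 w) (hu1 : ∀ w, u1 w ≤ 1)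
    {δ : Type*} (D : Finset δ) (q : δ → W) (A : δ → Type)
    [∀ d, Fintype (A d)] (f : ∀ d, A d → ℝ × Xs n → ℝ) (hf : ∀ d a, Bm (f d a))
    (R : ∀ d, Finset (Fin n) → Finset (A d)) (hR : ∀ d S S', S ⊆ S' → R d S ⊆ R d S')
    {ε : Type*} (E : Finset ε) {g : ε → (W → ℝ) → ℕ → ℝ} {C : ε → ℝ}
    (hg : ∀ e ∈ E, ∀ r : W → ℝ, (∀ w, r w ∈ Set.Icc (0 : ℝ) 1) →
      ∀ m ∈ Finset.Icc m1 m2, 0 ≤ g e r m)
    (hC : ∀ e ∈ E, ∀ r : W → ℝ, (∀ w, r w ∈ Set.Icc (0 : ℝ) 1) →
      ∑ m ∈ Finset.Icc m1 m2, g e r m ≤ C e) :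
    ∃ r : W → ℝ, (∀ w, r w ∈ Set.Icc (0 : ℝ) 1) ∧ ∃ m ∈ Finset.Icc m1 m2,
      (∀ w, ∀ m' ∈ ({m, m - 1} : Finset ℕ),
        x ^ 2 * CF ^ 2 * (u1 w - u0 w) * RKf (muA (Xs n) lam η c) b CB CF s η x (SN n m')
            (t0 w + r w * (t1 w - t0 w)) (u0 w + r w * (u1 w - u0 w)) ≤
          (4 * Fintype.card W + D.card + E.card) *
            QF (muA (Xs n) lam η c) b CB CF s η x Finset.univ (t1 w) (u1 w) ∧
        x ^ 2 * (b ^ 2 / n * CB ^ 2) * (t1 w - t0 w) *
            RKb (muA (Xs n) lam η c) b CB CF s η x (SN n m')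
            (t0 w + r w * (t1 w - t0 w)) (u0 w + r w * (u1 w - u0 w)) ≤
          (4 * Fintype.card W + D.card + E.card) *
            QBd (muA (Xs n) lam η c) b CB CF s η x Finset.univ (t1 w) (u1 w)) ∧
      (∀ d ∈ D, Nm n lam b CB CF s η c x (t0 (q d) + r (q d) * (t1 (q d) - t0 (q d)))
          (u0 (q d) + r (q d) * (u1 (q d) - u0 (q d))) (f d) (SN n (m - 1))
          (R d (SN n (m - 1))) -
        Nm n lam b CB CF s η c x (t0 (q d) + r (q d) * (t1 (q d) - t0 (q d)))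
          (u0 (q d) + r (q d) * (u1 (q d) - u0 (q d))) (f d) (SN n m) (R d (SN n m)) ≤
        (4 * Fintype.card W + D.card + E.card) *
          Nm n lam b CB CF s η c x (t1 (q d)) (u1 (q d)) (f d) Finset.univ (R d Finset.univ) /
            ((m2 : ℝ) - m1 + 1)) ∧
      ∀ e ∈ E, g e r m ≤ (4 * Fintype.card W + D.card + E.card) * C e /
        ((m2 : ℝ) - m1 + 1) := by
  classical
  have hGb := gmA (n := n) b (fun _ : Unit => CB) (fun _ : Unit => CF) s hl hη c
  have hn' : (0 : ℝ) < n := by exact_mod_cast hn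
  set μ := muA (Xs n) lam η c with hμ
  obtain ⟨r, hrI, m, hm, h1, h2, h3⟩ := typP (n := n) h12 (t0 := t0) (t1 := t1) (u0 := u0)
    (u1 := u1) (Finset.univ : Finset (W × Bool)) Prod.fst
    (K := fun a S t u => if a.2 then
        x ^ 2 * (b ^ 2 / n * CB ^ 2) * (t1 a.1 - t0 a.1) * RKb μ b CB CF s η x S t u
      else x ^ 2 * CF ^ 2 * (u1 a.1 - u0 a.1) * RKf μ b CB CF s η x S t u)
    (Q := fun a S t u => if a.2 then QBd μ b CB CF s η x S t u else QF μ b CB CF s η x S t u)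
    (fun a _ S t u => by
      have e1 := sub_nonneg.2 (ht a.1)
      have e2 := sub_nonneg.2 (hu a.1)
      have e3 := RKb_nonneg μ b CB CF s η x S t u
      have e4 := RKf_nonneg μ b CB CF s η x S t u
      split_ifs <;> positivity)
    (fun a _ S => by
      rcases a with ⟨w, k⟩
      rcases k with _ | _
      · simp only [Bool.false_eq_true, if_false]
        rcases (hu w).eq_or_lt with h | h
        · simp only [h, sub_self, mul_zero, zero_mul]
          exact continuousOn_const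
        · exact continuousOn_const.mul
            (cont_f hGb hx S (ht0 w) (ht w) (ht1 w) (hu0 w) h (hu1 w))
      · simp only [if_true]
        rcases (ht w).eq_or_lt with h | h
        · simp only [h, sub_self, mul_zero, zero_mul]
          exact continuousOn_const
        · exact continuousOn_const.mul
            (cont_b hGb hx S (ht0 w) h (ht1 w) (hu0 w) (hu w) (hu1 w)))
    (fun a _ S => by
      rcases a with ⟨w, k⟩
      rcases k with _ | _
      · simp only [Bool.false_eq_true, if_false]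
        rcases (hu w).eq_or_lt with h | h
        · simp only [h, sub_self, mul_zero, zero_mul]
          simpa using QF_nonneg μ b CB CF s η x S (t1 w) (u1 w)
        · rw [intervalIntegral.integral_const_mul]
          have h4 := window_f hGb hx hx1 hF S (ht0 w) (ht w) (ht1 w) (hu0 w) h (hu1 w)
          have h5 := QF_nonneg μ b CB CF s η x S (t0 w) (u0 w)
          rw [mul_assoc]
          linarith
      · simp only [if_true]
        rcases (ht w).eq_or_lt with h | h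
        · simp only [h, sub_self, mul_zero, zero_mul]
          simpa using QBd_nonneg μ b CB CF s η x S (t1 w) (u1 w)
        · rw [intervalIntegral.integral_const_mul]
          have h4 := window_b hGb hx hx1 hn hb hB S (ht0 w) h (ht1 w) (hu0 w) (hu w) (hu1 w)
          have h5 := QBd_nonneg μ b CB CF s η x S (t0 w) (u0 w)
          rw [mul_assoc]
          linarith)
    (fun a _ S => by
      rcases a with ⟨w, k⟩
      have a1 := (ht0 w).trans (ht w)
      have a2 := (hu0 w).trans (hu w)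
      rcases k with _ | _
      · simp only [Bool.false_eq_true, if_false]
        rw [QF_eq hl hη hB hF a1 (ht1 w) a2 (hu1 w), QF_eq hl hη hB hF a1 (ht1 w) a2 (hu1 w)]
        exact Nm_mono hl hη hB hF a1 le_rfl (ht1 w) a2 le_rfl (hu1 w) (Finset.subset_univ _)
          (Finset.subset_univ _) fun a => bm_sp a
      · simp only [if_true]
        rw [QBd_eq hl hη hn hb hB hF a1 (ht1 w) a2 (hu1 w),
          QBd_eq hl hη hn hb hB hF a1 (ht1 w) a2 (hu1 w)]
        exact Nm_mono hl hη hB hF a1 le_rfl (ht1 w) a2 le_rfl (hu1 w) (Finset.subset_univ _)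
          (Finset.monotone_filter_right _ fun _ _ _ =>
            ⟨Finset.mem_univ _, Finset.mem_univ _⟩) fun a => H9.bm_SkS a)
    D q (P := fun d S t u => Nm n lam b CB CF s η c x t u (f d) S (R d S))
    (fun d _ S t u => Nm_nonneg hl hη (hf d))
    (fun d _ S S' hS r hr => by
      have a1 := pth_mem (ht (q d)) hr
      have a2 := pth_mem (hu (q d)) hr
      exact Nm_mono hl hη hB hF ((ht0 _).trans a1.1) le_rfl (a1.2.trans (ht1 _))
        ((hu0 _).trans a2.1) le_rfl (a2.2.trans (hu1 _)) hS (hR d S S' hS) (hf d))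
    (fun d _ r hr => by
      have a1 := pth_mem (ht (q d)) hr
      have a2 := pth_mem (hu (q d)) hr
      exact Nm_mono hl hη hB hF ((ht0 _).trans a1.1) a1.2 (ht1 _) ((hu0 _).trans a2.1) a2.2
        (hu1 _) (le_refl _) (le_refl _) (hf d))
    E hg hC
  have hN : (2 * ((Finset.univ : Finset (W × Bool)).card : ℝ) + D.card + E.card) =
      4 * Fintype.card W + D.card + E.card := by
    rw [Finset.card_univ, Fintype.card_prod, Fintype.card_bool]
    push_cast
    ring
  rw [hN] at h1 h2 h3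
  refine ⟨r, hrI, m, hm, fun w m' hm' => ⟨?_, ?_⟩, h2, h3⟩
  · exact h1 (w, false) (Finset.mem_univ _) m' hm'
  · exact h1 (w, true) (Finset.mem_univ _) m' hm'

end Vale.Agent.P146.H320
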