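import Vale.Agent.P146.H320.TypS
import Vale.Agent.P146.H320.PickT

/-!
The joint choice on several paths with common parameters, the numerators being read at the largest
revealed set `Sn n (m1 - 1)` of the range of `m` (instead of all sites).
-/

open MeasureTheory ProbabilityTheory

namespace Vale.Agent.P146.H320

open Vale.Agent.P157.Lv Vale.Agent.P146.H425 Vale.Agent.P146.H332 Vale.Agent.P146.H646
open Vale.Agent.P146.H325 hiding cb cf
open Vale.Agent.P146.H196 Vale.Agent.P146.H246 Vale.Agent.P146.H347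
  Vale.Agent.P146.H816 Vale.Agent.P146.H118 Vale.Agent.P146.H9 Vale.Agent.P146.H475
  Vale.Agent.P146.H205 Vale.Agent.P146.H418 Vale.Agent.P146.H119

set_option linter.unusedSectionVars false

variable {n : ℕ} {b s η CB CF x : ℝ} {lam c : ℝ}

/-- `Typ` with the numerators at the revealed set `S0` -/
structure TypA (L : Law) {LB LF : Type} [Fintype LB] [DecidableEq LB] [Fintype LF]
    [DecidableEq LF] (cB : LB → ℝ) (cF : LF → ℝ) (S0 : Finset (Fin L.n))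
    (t1 u1 dt du N M : ℝ) (m : ℕ) (BL : Finset LB) (FL : Finset LF) : Prop where
  rk : ∀ S : Finset (Fin L.n), S = Sn L.n m ∨ S = Sn L.n (m - 1) →
    L.x ^ 2 * L.vp * du * rkL L cB cF S (Kset S BL FL) ≤ N * L.ff S0 t1 u1
  rb : ∀ S : Finset (Fin L.n), S = Sn L.n m ∨ S = Sn L.n (m - 1) →
    L.x ^ 2 * (L.b ^ 2 / L.n) * dt * rbL L cB cF S (Kset S BL FL) ≤ N * L.pp S0 t1 u1
  inc : ∀ i0 : Fin L.n, i0.1 + m = L.n →
    incL L cB cF (Sn L.n m) (Kset (Sn L.n m) BL FL) (Kset (insert i0 (Sn L.n m)) BL FL) ≤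
      N * (L.n * L.ex' t1 u1 (L.Q S0 t1 u1)) / M
  pp : ∀ i0 : Fin L.n, i0.1 + m = L.n →
    ppL L cB cF (Sn L.n m) (Kset (Sn L.n m) BL FL) (Kset (insert i0 (Sn L.n m)) BL FL) ≤
      N * L.pp S0 t1 u1 / M

/-- the numbers of the numerators are nondecreasing in the revealed set and in both shares -/
lemma num_mono {L : Law} (h : Adm L) {t t' u u' : ℝ} (ht0 : 0 ≤ t) (ht : t ≤ t') (ht1 : t' ≤ 1)
    (hu0 : 0 ≤ u) (hu : u ≤ u') (hu1 : u' ≤ 1) {S S' : Finset (Fin L.n)} (hS : S ⊆ S') :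
    L.ff S t u ≤ L.ff S' t' u' ∧ L.pp S t u ≤ L.pp S' t' u' ∧
      L.n * L.ex' t u (L.Q S t u) ≤ L.n * L.ex' t' u' (L.Q S' t' u') := by
  have hv := sqv h
  have a1 := ht0.trans ht
  have a2 := ht.trans ht1
  have a3 := hu0.trans hu
  have a4 := hu.trans hu1
  refine ⟨?_, ?_, ?_⟩
  · rw [ff_QF h ht0 a2 hu0 a4, ff_QF h a1 ht1 a3 hu1,
      QF_eq h.lam0 h.η0 one_pos hv ht0 a2 hu0 a4, QF_eq h.lam0 h.η0 one_pos hv a1 ht1 a3 hu1]
    exact Nm_mono h.lam0 h.η0 one_pos hv ht0 ht ht1 hu0 hu hu1 hS hS fun a => bm_sp a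
  · rw [pp_QBd h ht0 a2 hu0 a4, pp_QBd h a1 ht1 a3 hu1,
      QBd_eq h.lam0 h.η0 h.n0 h.b0 one_pos hv ht0 a2 hu0 a4,
      QBd_eq h.lam0 h.η0 h.n0 h.b0 one_pos hv a1 ht1 a3 hu1]
    exact Nm_mono h.lam0 h.η0 one_pos hv ht0 ht ht1 hu0 hu hu1 hS
      (Finset.monotone_filter_right _ fun _ _ h' => ⟨hS h'.1, hS h'.2⟩) fun a => H9.bm_SkS a
  · rw [Q_Nm h ht0 a2 hu0 a4, Q_Nm h a1 ht1 a3 hu1]
    exact Nm_mono h.lam0 h.η0 one_pos hv ht0 ht ht1 hu0 hu hu1 hS hS fun j => bm_as h.η0 j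

/-- the numerators may be enlarged: a larger revealed set, larger shares, a larger `N` -/
lemma TypA.mono {L : Law} {LB LF : Type} [Fintype LB] [DecidableEq LB] [Fintype LF]
    [DecidableEq LF] {cB : LB → ℝ} {cF : LF → ℝ} {S0 S1 : Finset (Fin L.n)}
    {t1 u1 t2 u2 dt du N N' M : ℝ} {m : ℕ} {BL : Finset LB} {FL : Finset LF}
    (H : TypA L cB cF S0 t1 u1 dt du N M m BL FL) (h : Adm L) (ht0 : 0 ≤ t1) (ht : t1 ≤ t2)
    (ht1 : t2 ≤ 1) (hu0 : 0 ≤ u1) (hu : u1 ≤ u2) (hu1 : u2 ≤ 1) (hS : S0 ⊆ S1) (hN : 0 ≤ N)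
    (hNN : N ≤ N') (hM : 0 ≤ M) :
    TypA L cB cF S1 t2 u2 dt du N' M m BL FL := by
  obtain ⟨e1, e2, e3⟩ := num_mono h ht0 ht ht1 hu0 hu hu1 hS
  have hv := sqv h
  have n1 : 0 ≤ L.ff S1 t2 u2 := by
    rw [ff_QF h (ht0.trans ht) ht1 (hu0.trans hu) hu1]
    exact QF_nonneg _ _ _ _ _ _ _ _ _ _
  have n2 : 0 ≤ L.pp S1 t2 u2 := by
    rw [pp_QBd h (ht0.trans ht) ht1 (hu0.trans hu) hu1]
    exact QBd_nonneg _ _ _ _ _ _ _ _ _ _
  have n3 : 0 ≤ L.n * L.ex' t2 u2 (L.Q S1 t2 u2) := by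
    rw [Q_Nm h (ht0.trans ht) ht1 (hu0.trans hu) hu1]
    exact Nm_nonneg h.lam0 h.η0 fun j => bm_as h.η0 j
  have f : ∀ {a c : ℝ}, a ≤ c → 0 ≤ c → N * a ≤ N' * c := fun hac hc =>
    (mul_le_mul_of_nonneg_left hac hN).trans (mul_le_mul_of_nonneg_right hNN hc)
  exact ⟨fun S hS' => (H.rk S hS').trans (f e1 n1), fun S hS' => (H.rb S hS').trans (f e2 n2),
    fun i0 hi => (H.inc i0 hi).trans (div_le_div_of_nonneg_right (f e3 n3) hM),
    fun i0 hi => (H.pp i0 hi).trans (div_le_div_of_nonneg_right (f e2 n2) hM)⟩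

/-- with all sites in the numerators -/
lemma TypA.typ {L : Law} {LB LF : Type} [Fintype LB] [DecidableEq LB] [Fintype LF]
    [DecidableEq LF] {cB : LB → ℝ} {cF : LF → ℝ} {S0 : Finset (Fin L.n)}
    {t1 u1 dt du N M : ℝ} {m : ℕ} {BL : Finset LB} {FL : Finset LF}
    (H : TypA L cB cF S0 t1 u1 dt du N M m BL FL) (h : Adm L) (ht0 : 0 ≤ t1)
    (ht1 : t1 ≤ 1) (hu0 : 0 ≤ u1) (hu1 : u1 ≤ 1) (hN : 0 ≤ N) (hM : 0 ≤ M) :
    Typ L cB cF t1 u1 dt du N M m BL FL := by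
  have H' := H.mono h ht0 le_rfl ht1 hu0 le_rfl hu1 (Finset.subset_univ S0) hN le_rfl hM
  exact ⟨H'.rk, H'.rb, H'.inc, H'.pp⟩

/-- **THE JOINT CHOICE, several paths with common parameters.** Paths `j : J`:
`(t0 j + r (t1 j - t0 j), u0 j + r (u1 j - u0 j))` with the parameter `r = r (p j)`, `p j : W`; one
number `m` of hidden sites in `[m1, m2]`. Families `f d` (`d ∈ D`) read on the path `q d`. -/
theorem typTK (hl : 0 < lam) (hη : 0 ≤ η) (hn : 0 < n) (hb : 0 < b) (hB : 0 < CB) (hF : 0 < CF)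
    (hx : 0 ≤ x) (hx1 : x ≤ 1)
    {m1 m2 : ℕ} (h12 : m1 ≤ m2) {W : Type*} [Fintype W] {J : Type*} [Fintype J]
    (p : J → W) {t0 t1 u0 u1 : J → ℝ}
    (ht0 : ∀ j, 0 ≤ t0 j) (ht : ∀ j, t0 j ≤ t1 j) (ht1 : ∀ j, t1 j ≤ 1)
    (hu0 : ∀ j, 0 ≤ u0 j) (hu : ∀ j, u0 j ≤ u1 j) (hu1 : ∀ j, u1 j ≤ 1)
    {δ : Type*} (D : Finset δ) (q : δ → J) (A : δ → Type)
    [∀ d, Fintype (A d)] (f : ∀ d, A d → ℝ × Xs n → ℝ) (hf : ∀ d a, Bm (f d a))
    (R : ∀ d, Finset (Fin n) → Finset (A d)) (hR : ∀ d S S', S ⊆ S' → R d S ⊆ R d S')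
    {ε : Type*} (E : Finset ε) {g : ε → (W → ℝ) → ℕ → ℝ} {C : ε → ℝ}
    (hg : ∀ e ∈ E, ∀ r : W → ℝ, (∀ w, r w ∈ Set.Icc (0 : ℝ) 1) →
      ∀ m ∈ Finset.Icc m1 m2, 0 ≤ g e r m)
    (hC : ∀ e ∈ E, ∀ r : W → ℝ, (∀ w, r w ∈ Set.Icc (0 : ℝ) 1) →
      ∑ m ∈ Finset.Icc m1 m2, g e r m ≤ C e) :
    ∃ r : W → ℝ, (∀ w, r w ∈ Set.Icc (0 : ℝ) 1) ∧ ∃ m ∈ Finset.Icc m1 m2,
      (∀ j, ∀ m' ∈ ({m, m - 1} : Finset ℕ),
        x ^ 2 * CF ^ 2 * (u1 j - u0 j) * RKf (muA (Xs n) lam η c) b CB CF s η x (SN n m')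
            (t0 j + r (p j) * (t1 j - t0 j)) (u0 j + r (p j) * (u1 j - u0 j)) ≤
          (4 * Fintype.card J + D.card + E.card) *
            QF (muA (Xs n) lam η c) b CB CF s η x (SN n (m1 - 1)) (t1 j) (u1 j) ∧
        x ^ 2 * (b ^ 2 / n * CB ^ 2) * (t1 j - t0 j) *
            RKb (muA (Xs n) lam η c) b CB CF s η x (SN n m')
            (t0 j + r (p j) * (t1 j - t0 j)) (u0 j + r (p j) * (u1 j - u0 j)) ≤
          (4 * Fintype.card J + D.card + E.card) *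
            QBd (muA (Xs n) lam η c) b CB CF s η x (SN n (m1 - 1)) (t1 j) (u1 j)) ∧
      (∀ d ∈ D, Nm n lam b CB CF s η c x (t0 (q d) + r (p (q d)) * (t1 (q d) - t0 (q d)))
          (u0 (q d) + r (p (q d)) * (u1 (q d) - u0 (q d))) (f d) (SN n (m - 1))
          (R d (SN n (m - 1))) -
        Nm n lam b CB CF s η c x (t0 (q d) + r (p (q d)) * (t1 (q d) - t0 (q d)))
          (u0 (q d) + r (p (q d)) * (u1 (q d) - u0 (q d))) (f d) (SN n m) (R d (SN n m)) ≤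
        (4 * Fintype.card J + D.card + E.card) *
          Nm n lam b CB CF s η c x (t1 (q d)) (u1 (q d)) (f d) (SN n (m1 - 1)) (R d (SN n (m1 - 1))) /
            ((m2 : ℝ) - m1 + 1)) ∧
      ∀ e ∈ E, g e r m ≤ (4 * Fintype.card J + D.card + E.card) * C e /
        ((m2 : ℝ) - m1 + 1) := by
  classical
  have hGb := gmA (n := n) b (fun _ : Unit => CB) (fun _ : Unit => CF) s hl hη c
  have hn' : (0 : ℝ) < n := by exact_mod_cast hn
  set μ := muA (Xs n) lam η c with hμ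
  have a1 : ∀ j, 0 ≤ t1 j := fun j => (ht0 j).trans (ht j)
  have a2 : ∀ j, 0 ≤ u1 j := fun j => (hu0 j).trans (hu j)
  have hQ : ∀ j, ∀ S : Finset (Fin n), S ⊆ SN n (m1 - 1) →
      QF μ b CB CF s η x S (t1 j) (u1 j) ≤
        QF μ b CB CF s η x (SN n (m1 - 1)) (t1 j) (u1 j) := fun j S hS => by
    rw [QF_eq hl hη hB hF (a1 j) (ht1 j) (a2 j) (hu1 j),
      QF_eq hl hη hB hF (a1 j) (ht1 j) (a2 j) (hu1 j)]
    exact Nm_mono hl hη hB hF (a1 j) le_rfl (ht1 j) (a2 j) le_rfl (hu1 j)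
      hS hS fun a => bm_sp a
  have hQb : ∀ j, ∀ S : Finset (Fin n), S ⊆ SN n (m1 - 1) →
      QBd μ b CB CF s η x S (t1 j) (u1 j) ≤
        QBd μ b CB CF s η x (SN n (m1 - 1)) (t1 j) (u1 j) := fun j S hS => by
    rw [QBd_eq hl hη hn hb hB hF (a1 j) (ht1 j) (a2 j) (hu1 j),
      QBd_eq hl hη hn hb hB hF (a1 j) (ht1 j) (a2 j) (hu1 j)]
    exact Nm_mono hl hη hB hF (a1 j) le_rfl (ht1 j) (a2 j) le_rfl (hu1 j)
      hS (Finset.monotone_filter_right _ fun _ _ h' => ⟨hS h'.1, hS h'.2⟩)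
      fun a => H9.bm_SkS a
  obtain ⟨r, hrI, m, hm, h1, h2, h3⟩ := typR0 (n := n) h12 (W := W)
    (Finset.univ : Finset (J × Bool)) (fun a => p a.1)
    (K := fun a S r => if a.2 then
        x ^ 2 * (b ^ 2 / n * CB ^ 2) * (t1 a.1 - t0 a.1) * RKb μ b CB CF s η x S
          (t0 a.1 + r * (t1 a.1 - t0 a.1)) (u0 a.1 + r * (u1 a.1 - u0 a.1))
      else x ^ 2 * CF ^ 2 * (u1 a.1 - u0 a.1) * RKf μ b CB CF s η x S
          (t0 a.1 + r * (t1 a.1 - t0 a.1)) (u0 a.1 + r * (u1 a.1 - u0 a.1)))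
    (B := fun a => if a.2 then QBd μ b CB CF s η x (SN n (m1 - 1)) (t1 a.1) (u1 a.1)
      else QF μ b CB CF s η x (SN n (m1 - 1)) (t1 a.1) (u1 a.1))
    (fun a _ S r _ => by
      have e1 := sub_nonneg.2 (ht a.1)
      have e2 := sub_nonneg.2 (hu a.1)
      have e3 := RKb_nonneg μ b CB CF s η x S
        (t0 a.1 + r * (t1 a.1 - t0 a.1)) (u0 a.1 + r * (u1 a.1 - u0 a.1))
      have e4 := RKf_nonneg μ b CB CF s η x S
        (t0 a.1 + r * (t1 a.1 - t0 a.1)) (u0 a.1 + r * (u1 a.1 - u0 a.1))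
      split_ifs <;> positivity)
    (fun a _ S => by
      rcases a with ⟨w, k⟩
      rcases k with _ | _
      · simp only [Bool.false_eq_true, if_false]
        rcases (hu w).eq_or_lt with h | h
        · simp only [h, sub_self, mul_zero, zero_mul]
          exact continuousOn_const
        · exact continuousOn_const.mul
            (cont_f hGb hx S (ht0 w) (ht w) (ht1 w) (hu0 w) h (hu1 w))
      · simp only [if_true]
        rcases (ht w).eq_or_lt with h | h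
        · simp only [h, sub_self, mul_zero, zero_mul]
          exact continuousOn_const
        · exact continuousOn_const.mul
            (cont_b hGb hx S (ht0 w) h (ht1 w) (hu0 w) (hu w) (hu1 w)))
    (fun a _ S hS => by
      rcases a with ⟨w, k⟩
      rcases k with _ | _
      · simp only [Bool.false_eq_true, if_false]
        refine le_trans ?_ (hQ w S hS)
        rcases (hu w).eq_or_lt with h | h
        · simp only [h, sub_self, mul_zero, zero_mul]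
          simpa using QF_nonneg μ b CB CF s η x S (t1 w) (u1 w)
        · rw [intervalIntegral.integral_const_mul]
          have h4 := window_f hGb hx hx1 hF S (ht0 w) (ht w) (ht1 w) (hu0 w) h (hu1 w)
          have h5 := QF_nonneg μ b CB CF s η x S (t0 w) (u0 w)
          rw [mul_assoc]
          linarith
      · simp only [if_true]
        refine le_trans ?_ (hQb w S hS)
        rcases (ht w).eq_or_lt with h | h
        · simp only [h, sub_self, mul_zero, zero_mul]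
          simpa using QBd_nonneg μ b CB CF s η x S (t1 w) (u1 w)
        · rw [intervalIntegral.integral_const_mul]
          have h4 := window_b hGb hx hx1 hn hb hB S (ht0 w) h (ht1 w) (hu0 w) (hu w) (hu1 w)
          have h5 := QBd_nonneg μ b CB CF s η x S (t0 w) (u0 w)
          rw [mul_assoc]
          linarith)
    D (fun d => p (q d)) (P := fun d S r => Nm n lam b CB CF s η c x
      (t0 (q d) + r * (t1 (q d) - t0 (q d))) (u0 (q d) + r * (u1 (q d) - u0 (q d))) (f d) S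
      (R d S))
    (C := fun d => Nm n lam b CB CF s η c x (t1 (q d)) (u1 (q d)) (f d) (SN n (m1 - 1))
      (R d (SN n (m1 - 1))))
    (fun d _ S r _ => Nm_nonneg hl hη (hf d))
    (fun d _ S S' hS r hr => by
      have a1 := pth_mem (ht (q d)) hr
      have a2 := pth_mem (hu (q d)) hr
      exact Nm_mono hl hη hB hF ((ht0 _).trans a1.1) le_rfl (a1.2.trans (ht1 _))
        ((hu0 _).trans a2.1) le_rfl (a2.2.trans (hu1 _)) hS (hR d S S' hS) (hf d))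
    (fun d _ r hr => by
      have a1 := pth_mem (ht (q d)) hr
      have a2 := pth_mem (hu (q d)) hr
      exact Nm_mono hl hη hB hF ((ht0 _).trans a1.1) a1.2 (ht1 _) ((hu0 _).trans a2.1) a2.2
        (hu1 _) (le_refl _) (le_refl _) (hf d))
    E hg hC
  have hN : (2 * ((Finset.univ : Finset (J × Bool)).card : ℝ) + D.card + E.card) =
      4 * Fintype.card J + D.card + E.card := by
    rw [Finset.card_univ, Fintype.card_prod, Fintype.card_bool]
    push_cast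
    ring
  rw [hN] at h1 h2 h3
  refine ⟨r, hrI, m, hm, fun w m' hm' => ⟨?_, ?_⟩, h2, h3⟩
  · exact h1 (w, false) (Finset.mem_univ _) m' hm'
  · exact h1 (w, true) (Finset.mem_univ _) m' hm'

/-- **TYPICAL POINTS, several paths with common parameters.** `Typ` at every path `j : J`, with the
parameter `r (p j)`, one number `m` of hidden sites; `N = 6 #J + #E`. -/
theorem typT {L : Law} (h : Adm L) {m1 m2 : ℕ} (h1 : 1 ≤ m1) (h12 : m1 ≤ m2)
    {W : Type*} [Fintype W] {J : Type*} [Fintype J] (p : J → W) {t0 t1 u0 u1 : J → ℝ}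
    (ht0 : ∀ j, 0 ≤ t0 j) (ht : ∀ j, t0 j ≤ t1 j) (ht1 : ∀ j, t1 j ≤ 1)
    (hu0 : ∀ j, 0 ≤ u0 j) (hu : ∀ j, u0 j ≤ u1 j) (hu1 : ∀ j, u1 j ≤ 1)
    {ε : Type*} (E : Finset ε) {g : ε → (W → ℝ) → ℕ → ℝ} {C : ε → ℝ}
    (hg : ∀ e ∈ E, ∀ r : W → ℝ, (∀ w, r w ∈ Set.Icc (0 : ℝ) 1) →
      ∀ m ∈ Finset.Icc m1 m2, 0 ≤ g e r m)
    (hC : ∀ e ∈ E, ∀ r : W → ℝ, (∀ w, r w ∈ Set.Icc (0 : ℝ) 1) →
      ∑ m ∈ Finset.Icc m1 m2, g e r m ≤ C e) :
    ∃ r : W → ℝ, (∀ w, r w ∈ Set.Icc (0 : ℝ) 1) ∧ ∃ m ∈ Finset.Icc m1 m2,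
      (∀ (j : J) (LB LF : Type) [Fintype LB] [DecidableEq LB] [Fintype LF] [DecidableEq LF]
        (cB : LB → ℝ) (cF : LF → ℝ) (BL : Finset LB) (FL : Finset LF),
        Sh cB cF BL FL 1 (√L.vp) (t0 j + r (p j) * (t1 j - t0 j))
          (u0 j + r (p j) * (u1 j - u0 j)) →
        TypA L cB cF (Sn L.n (m1 - 1)) (t1 j) (u1 j) (t1 j - t0 j) (u1 j - u0 j)
          (6 * Fintype.card J + E.card) ((m2 : ℝ) - m1 + 1) m BL FL) ∧
      ∀ e ∈ E, g e r m ≤ (6 * Fintype.card J + E.card) * C e / ((m2 : ℝ) - m1 + 1) := by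
  classical
  have hv := sqv h
  have hvv : √L.vp ^ 2 = L.vp := Real.sq_sqrt h.vp0.le
  obtain ⟨r, hrI, m, hm, hA, hD, hE⟩ := typTK (s := L.s) (c := L.c)
    h.lam0 h.η0 h.n0 h.b0 one_pos hv h.x0 h.x1 h12 p ht0 ht ht1 hu0 hu hu1
    (Finset.univ : Finset (J × Bool)) Prod.fst (fun _ => Fin L.n ⊕ Pair L.n)
    (fun _ a w => Sum.elim (fun j => al L.η w.1 * sp w.2 j) (fun q => SkS q w.2) a)
    (fun d a => by
      rcases a with j | q
      · exact bm_as h.η0 j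
      · exact H9.bm_SkS q)
    (fun d S => if d.2 then (∅ : Finset (Fin L.n)).disjSum (ps S)
      else S.disjSum (∅ : Finset (Pair L.n)))
    (fun d S S' hS => by
      rcases d with ⟨w, _ | _⟩
      · simpa using Finset.disjSum_mono hS (le_refl (∅ : Finset (Pair L.n)))
      · simpa using Finset.disjSum_mono (le_refl (∅ : Finset (Fin L.n))) (ps_mono hS))
    E hg hC
  have hN : (4 * (Fintype.card J : ℝ) + ((Finset.univ : Finset (J × Bool)).card : ℝ) +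
      E.card) = 6 * Fintype.card J + E.card := by
    rw [Finset.card_univ, Fintype.card_prod, Fintype.card_bool]
    push_cast
    ring
  rw [hN] at hA hD hE
  refine ⟨r, hrI, m, hm, fun w LB LF _ _ _ _ cB cF BL FL hs => ?_, hE⟩
  have hm1 : 1 ≤ m := h1.trans (Finset.mem_Icc.1 hm).1
  have a1 := pth_mem (ht w) (hrI (p w))
  have a2 := pth_mem (hu w) (hrI (p w))
  have t0' := (ht0 w).trans a1.1
  have t1' := a1.2.trans (ht1 w)
  have u0' := (hu0 w).trans a2.1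
  have u1' := a2.2.trans (hu1 w)
  have T0 := (ht0 w).trans (ht w)
  have U0 := (hu0 w).trans (hu w)
  have hG := gmb h
  have hG1 := gmA (n := L.n) L.b cB cF L.s h.lam0 h.η0 L.c
  have hSm : ∀ S : Finset (Fin L.n), S = Sn L.n m ∨ S = Sn L.n (m - 1) →
      ∃ m' ∈ ({m, m - 1} : Finset ℕ), S = SN L.n m' := by
    rintro S (rfl | rfl)
    · exact ⟨m, by simp, rfl⟩
    · exact ⟨m - 1, by simp, rfl⟩
  refine ⟨fun S hS => ?_, fun S hS => ?_, fun i0 hi0 => ?_, fun i0 hi0 => ?_⟩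
  · obtain ⟨m', hm', rfl⟩ := hSm S hS
    have h4 := (hA w m' hm').1
    rw [← rkf_eq hG hG1 one_pos hv hs L.x (SN L.n m'), hvv,
      ← ff_QF h T0 (ht1 w) U0 (hu1 w)] at h4
    exact h4
  · obtain ⟨m', hm', rfl⟩ := hSm S hS
    have h4 := (hA w m' hm').2
    rw [← rkb_eq hG hG1 h.n0 h.b0 one_pos hv hs L.x (SN L.n m'), one_pow, mul_one,
      ← pp_QBd h T0 (ht1 w) U0 (hu1 w)] at h4
    exact h4
  · have h4 := hD (w, false) (Finset.mem_univ _)
    simp only [Bool.false_eq_true, if_false, Nm_inl] at h4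
    have hin : insert i0 (Sn L.n m) = SN L.n (m - 1) := SN_insert hm1 hi0
    have h5 := inc_le (S := SN L.n m) (S' := insert i0 (Sn L.n m)) (r := SN L.n m)
      (r' := SN L.n (m - 1)) (x := L.x) (b := L.b) (s := L.s) (c := L.c)
      h.lam0 h.η0 one_pos hv t0' t1' u0' u1' hs (fun j => bm_as h.η0 j)
      (SN_anti (Nat.sub_le m 1))
    refine le_trans h5 ?_
    rw [hin, Q_Nm h T0 (ht1 w) U0 (hu1 w)]
    exact h4
  · have h4 := hD (w, true) (Finset.mem_univ _)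
    simp only [if_true, Nm_inr] at h4
    have hin : insert i0 (Sn L.n m) = SN L.n (m - 1) := SN_insert hm1 hi0
    have h5 := inc_le (S := SN L.n m) (S' := insert i0 (Sn L.n m)) (r := ps (SN L.n m))
      (r' := ps (SN L.n (m - 1))) (x := L.x) (b := L.b) (s := L.s) (c := L.c)
      h.lam0 h.η0 one_pos hv t0' t1' u0' u1' hs (fun q => H9.bm_SkS q)
      (ps_mono (SN_anti (Nat.sub_le m 1)))
    refine le_trans h5 ?_
    rw [hin, pp_QBd h T0 (ht1 w) U0 (hu1 w),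
      QBd_eq h.lam0 h.η0 h.n0 h.b0 one_pos hv T0 (ht1 w) U0 (hu1 w)]
    exact h4

/-- **TYPICAL POINT, one window**, numerators at `Sn n (m1 - 1)`. -/
theorem typ1T {L : Law} (h : Adm L) {m1 m2 : ℕ} (h1 : 1 ≤ m1) (h12 : m1 ≤ m2) {t0 t1 u0 u1 : ℝ}
    (ht0 : 0 ≤ t0) (ht : t0 ≤ t1) (ht1 : t1 ≤ 1) (hu0 : 0 ≤ u0) (hu : u0 ≤ u1) (hu1 : u1 ≤ 1) :
    ∃ t ∈ Set.Icc t0 t1, ∃ u ∈ Set.Icc u0 u1, ∃ m ∈ Finset.Icc m1 m2,
      ∀ (LB LF : Type) [Fintype LB] [DecidableEq LB] [Fintype LF] [DecidableEq LF]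
        (cB : LB → ℝ) (cF : LF → ℝ) (BL : Finset LB) (FL : Finset LF),
        Sh cB cF BL FL 1 (√L.vp) t u →
        TypA L cB cF (Sn L.n (m1 - 1)) t1 u1 (t1 - t0) (u1 - u0) 6 ((m2 : ℝ) - m1 + 1) m
          BL FL := by
  obtain ⟨r, hr, m, hm, hA, _⟩ := typT h h1 h12 (W := Unit) (J := Unit) id (t0 := fun _ => t0)
    (t1 := fun _ => t1) (u0 := fun _ => u0) (u1 := fun _ => u1) (fun _ => ht0) (fun _ => ht)
    (fun _ => ht1) (fun _ => hu0) (fun _ => hu) (fun _ => hu1) (∅ : Finset Unit)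
    (g := fun _ _ _ => 0) (C := fun _ => 0) (fun e he => absurd he (Finset.notMem_empty e))
    (fun e he => absurd he (Finset.notMem_empty e))
  have hN : (6 * (Fintype.card Unit : ℝ) + ((∅ : Finset Unit).card : ℝ)) = 6 := by simp
  rw [hN] at hA
  refine ⟨_, pth_mem ht (hr ()), _, pth_mem hu (hr ()), m, hm, fun LB LF _ _ _ _ cB cF BL FL hs =>
    hA () LB LF cB cF BL FL hs⟩

end Vale.Agent.P146.H320
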