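import Vale.Agent.P146.H320.NmU
import Vale.Agent.P146.H320.PickT
import Vale.Agent.P146.H118.RkU

/-!
The joint choice in the ensemble `U`: several paths of shares with common parameters and one number
of hidden sites; rank one and the response for every class of fields, rank one for the pairs, the
increments of the second moments when the last hidden site is revealed. The numerators are read at
the largest revealed set `SN n (m1 - 1)` of the range of `m`.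
-/

open MeasureTheory ProbabilityTheory

namespace Vale.Agent.P146.H320

open Vale.Agent.P157.Lv Vale.Agent.P146.H425 Vale.Agent.P146.H332 Vale.Agent.P146.H646
open Vale.Agent.P146.H196 Vale.Agent.P146.H246 Vale.Agent.P146.H347 Vale.Agent.P146.H325
  Vale.Agent.P146.H816 Vale.Agent.P146.H9.U Vale.Agent.P146.H281.U Vale.Agent.P146.H347.U
  Vale.Agent.P146.H118

set_option linter.unusedSectionVars false

variable {Th : Type} [MeasurableSpace Th] {n : ℕ} {A : Type} [Fintype A] [DecidableEq A]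
  {b x η : ℝ} {VF : A → ℝ} {α : A → Th → ℝ} {ν : Measure Th}

/-- the pairs inside `S` -/
def psU (S : Finset (Fin n)) : Finset (Pair n) :=
  Finset.univ.filter fun q : Pair n => q.1.1 ∈ S ∧ q.1.2 ∈ S

lemma psU_mono {S S' : Finset (Fin n)} (h : S ⊆ S') : psU S ⊆ psU S' :=
  Finset.monotone_filter_right _ fun _ _ h' => ⟨h h'.1, h h'.2⟩

/-- the second moment of the means of the class `k` -/
noncomputable abbrev ffU (n : ℕ) (ν : Measure Th) (b : ℝ) (VF : A → ℝ) (α : A → Th → ℝ) (x : ℝ)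
    (k : A) (S : Finset (Fin n)) (t : ℝ) (u : A → ℝ) : ℝ :=
  NmU n ν b VF α x t u (fun (i : Fin n) w => α k w.1 * sp w.2 i) S S

/-- the second moment for the pairs -/
noncomputable abbrev ppU (n : ℕ) (ν : Measure Th) (b : ℝ) (VF : A → ℝ) (α : A → Th → ℝ) (x : ℝ)
    (S : Finset (Fin n)) (t : ℝ) (u : A → ℝ) : ℝ :=
  NmU n ν b VF α x t u (fun (q : Pair n) w => SkS q w.2) S (psU S)

lemma bm_ak (hA : AmU α η) (k : A) (i : Fin n) :
    Bm fun w : Th × Xs n => α k w.1 * sp w.2 i :=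
  bm_fun_sp (hA.meas k) (hA.abs k) i

section

variable {t : ℝ} {u : A → ℝ}

lemma QFU_eq (hν : IsFiniteMeasure ν) (h0 : ν ≠ 0) (hA : AmU α η) (hV : ∀ k, 0 < VF k)
    (ht0 : 0 ≤ t) (ht1 : t ≤ 1) (hu0 : ∀ k, 0 ≤ u k) (hu1 : ∀ k, u k ≤ 1) (k : A)
    (S : Finset (Fin n)) :
    QFU (muU ν n) b VF α x k S t u = ffU n ν b VF α x k S t u :=
  (qfU_eq (gmSb hν h0 hA b VF)
    (gmU (n := n) b (cbU t) (cfU VF u) η hν h0 (AmU_comp hA (Prod.fst : A × Bool → A))) hV
    (canU ht0 ht1 hu0 hu1 fun k => (hV k).le) x k S).symm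

lemma QBU_eq (hν : IsFiniteMeasure ν) (h0 : ν ≠ 0) (hA : AmU α η) (hn : 0 < n) (hb : 0 < b)
    (hV : ∀ k, 0 < VF k) (ht0 : 0 ≤ t) (ht1 : t ≤ 1) (hu0 : ∀ k, 0 ≤ u k) (hu1 : ∀ k, u k ≤ 1)
    (S : Finset (Fin n)) :
    QBU (muU ν n) b VF α x S t u = ppU n ν b VF α x S t u :=
  (qbU_eq (gmSb hν h0 hA b VF)
    (gmU (n := n) b (cbU t) (cfU VF u) η hν h0 (AmU_comp hA (Prod.fst : A × Bool → A))) hn hb hV
    (canU ht0 ht1 hu0 hu1 fun k => (hV k).le) x S).symm

end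

lemma ur_mem {u0 u1 : A → ℝ} {r : ℝ} (h : ∀ k, u0 k ≤ u1 k) (hr : r ∈ Set.Icc (0 : ℝ) 1)
    (k : A) : u0 k ≤ ur u0 u1 r k ∧ ur u0 u1 r k ≤ u1 k := by
  have h1 := h k
  unfold ur
  constructor <;> nlinarith [hr.1, hr.2, mul_nonneg hr.1 (sub_nonneg.2 h1),
    mul_nonneg (sub_nonneg.2 hr.2) (sub_nonneg.2 h1)]

lemma tr_mem {a c r : ℝ} (h : a ≤ c) (hr : r ∈ Set.Icc (0 : ℝ) 1) :
    a ≤ a + r * (c - a) ∧ a + r * (c - a) ≤ c := by
  constructor <;> nlinarith [hr.1, hr.2, mul_nonneg hr.1 (sub_nonneg.2 h),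
    mul_nonneg (sub_nonneg.2 hr.2) (sub_nonneg.2 h)]

/-- **THE JOINT CHOICE in the ensemble `U`.** -/
theorem typUK (hν : IsFiniteMeasure ν) (h0 : ν ≠ 0) (hA : AmU α η) (hn : 0 < n) (hb : 0 < b)
    (hV : ∀ k, 0 < VF k) (hx : 0 ≤ x) (hx1 : x ≤ 1)
    {m1 m2 : ℕ} (h12 : m1 ≤ m2) {W : Type*} [Fintype W] {J : Type*} [Fintype J]
    (p : J → W) {t0 t1 : J → ℝ} {u0 u1 : J → A → ℝ}
    (ht0 : ∀ j, 0 ≤ t0 j) (ht : ∀ j, t0 j ≤ t1 j) (ht1 : ∀ j, t1 j ≤ 1)
    (hu0 : ∀ j k, 0 ≤ u0 j k) (hu : ∀ j k, u0 j k ≤ u1 j k) (hu1 : ∀ j k, u1 j k ≤ 1)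
    {δ : Type*} (D : Finset δ) (q : δ → J) (B : δ → Type)
    [∀ d, Fintype (B d)] (f : ∀ d, B d → Th × Xs n → ℝ) (hf : ∀ d a, Bm (f d a))
    (R : ∀ d, Finset (Fin n) → Finset (B d)) (hR : ∀ d S S', S ⊆ S' → R d S ⊆ R d S')
    {ε : Type*} (E : Finset ε) {g : ε → (W → ℝ) → ℕ → ℝ} {C : ε → ℝ}
    (hg : ∀ e ∈ E, ∀ r : W → ℝ, (∀ w, r w ∈ Set.Icc (0 : ℝ) 1) →
      ∀ m ∈ Finset.Icc m1 m2, 0 ≤ g e r m)
    (hC : ∀ e ∈ E, ∀ r : W → ℝ, (∀ w, r w ∈ Set.Icc (0 : ℝ) 1) →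
      ∑ m ∈ Finset.Icc m1 m2, g e r m ≤ C e)
    {N : ℝ} (hN : N = 2 * (Fintype.card J * (2 * Fintype.card A + 1)) + D.card + E.card) :
    ∃ r : W → ℝ, (∀ w, r w ∈ Set.Icc (0 : ℝ) 1) ∧ ∃ m ∈ Finset.Icc m1 m2,
      (∀ j, ∀ m' ∈ ({m, m - 1} : Finset ℕ),
        (∀ k, x ^ 2 * VF k * (u1 j k - u0 j k) * RKfU (muU ν n) b VF α x k (SN n m')
            (t0 j + r (p j) * (t1 j - t0 j)) (ur (u0 j) (u1 j) (r (p j))) ≤
          N * ffU n ν b VF α x k (SN n (m1 - 1)) (t1 j) (u1 j)) ∧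
        (∀ k, VF k * (u1 j k - u0 j k) * RXU (muU ν n) b VF α x k (SN n m')
            (t0 j + r (p j) * (t1 j - t0 j)) (ur (u0 j) (u1 j) (r (p j))) ≤
          N * ffU n ν b VF α x k (SN n (m1 - 1)) (t1 j) (u1 j)) ∧
        x ^ 2 * (b ^ 2 / n) * (t1 j - t0 j) * RKbU (muU ν n) b VF α x (SN n m')
            (t0 j + r (p j) * (t1 j - t0 j)) (ur (u0 j) (u1 j) (r (p j))) ≤
          N * ppU n ν b VF α x (SN n (m1 - 1)) (t1 j) (u1 j)) ∧
      (∀ d ∈ D, NmU n ν b VF α x (t0 (q d) + r (p (q d)) * (t1 (q d) - t0 (q d)))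
          (ur (u0 (q d)) (u1 (q d)) (r (p (q d)))) (f d) (SN n (m - 1)) (R d (SN n (m - 1))) -
        NmU n ν b VF α x (t0 (q d) + r (p (q d)) * (t1 (q d) - t0 (q d)))
          (ur (u0 (q d)) (u1 (q d)) (r (p (q d)))) (f d) (SN n m) (R d (SN n m)) ≤
        N * NmU n ν b VF α x (t1 (q d)) (u1 (q d)) (f d) (SN n (m1 - 1)) (R d (SN n (m1 - 1))) /
            ((m2 : ℝ) - m1 + 1)) ∧
      ∀ e ∈ E, g e r m ≤ N * C e / ((m2 : ℝ) - m1 + 1) := by
  classical
  have hG := gmSb (n := n) hν h0 hA b VF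
  have hn' : (0 : ℝ) < n := by exact_mod_cast hn
  have hV' : ∀ k, 0 ≤ VF k := fun k => (hV k).le
  have a1 : ∀ j, 0 ≤ t1 j := fun j => (ht0 j).trans (ht j)
  have a2 : ∀ j k, 0 ≤ u1 j k := fun j k => (hu0 j k).trans (hu j k)
  have hQ : ∀ j k, ∀ S : Finset (Fin n), S ⊆ SN n (m1 - 1) →
      QFU (muU ν n) b VF α x k S (t1 j) (u1 j) ≤
        ffU n ν b VF α x k (SN n (m1 - 1)) (t1 j) (u1 j) := fun j k S hS => by
    rw [QFU_eq hν h0 hA hV (a1 j) (ht1 j) (a2 j) (hu1 j)]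
    exact NmU_mono hν h0 hA hV' (a1 j) le_rfl (ht1 j) (a2 j) (fun _ => le_rfl) (hu1 j)
      hS hS fun i => bm_ak hA k i
  have hQb : ∀ j, ∀ S : Finset (Fin n), S ⊆ SN n (m1 - 1) →
      QBU (muU ν n) b VF α x S (t1 j) (u1 j) ≤
        ppU n ν b VF α x (SN n (m1 - 1)) (t1 j) (u1 j) := fun j S hS => by
    rw [QBU_eq hν h0 hA hn hb hV (a1 j) (ht1 j) (a2 j) (hu1 j)]
    exact NmU_mono hν h0 hA hV' (a1 j) le_rfl (ht1 j) (a2 j) (fun _ => le_rfl) (hu1 j)
      hS (psU_mono hS) fun q => bm_SkSU q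
  obtain ⟨r, hrI, m, hm, h1, h2, h3⟩ := typR0 (n := n) h12 (W := W)
    (Finset.univ : Finset (J × (A ⊕ A ⊕ Unit))) (fun a => p a.1)
    (K := fun a S r => Sum.elim
      (fun k => x ^ 2 * VF k * (u1 a.1 k - u0 a.1 k) * RKfU (muU ν n) b VF α x k S
          (t0 a.1 + r * (t1 a.1 - t0 a.1)) (ur (u0 a.1) (u1 a.1) r))
      (Sum.elim
        (fun k => VF k * (u1 a.1 k - u0 a.1 k) * RXU (muU ν n) b VF α x k S
          (t0 a.1 + r * (t1 a.1 - t0 a.1)) (ur (u0 a.1) (u1 a.1) r))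
        (fun _ => x ^ 2 * (b ^ 2 / n) * (t1 a.1 - t0 a.1) * RKbU (muU ν n) b VF α x S
          (t0 a.1 + r * (t1 a.1 - t0 a.1)) (ur (u0 a.1) (u1 a.1) r))) a.2)
    (B := fun a => Sum.elim (fun k => ffU n ν b VF α x k (SN n (m1 - 1)) (t1 a.1) (u1 a.1))
      (Sum.elim (fun k => ffU n ν b VF α x k (SN n (m1 - 1)) (t1 a.1) (u1 a.1))
        (fun _ => ppU n ν b VF α x (SN n (m1 - 1)) (t1 a.1) (u1 a.1))) a.2)
    (fun a _ S r _ => by
      rcases a with ⟨w, k | k | k⟩ <;> simp only [Sum.elim_inl, Sum.elim_inr]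
      · have e1 := sub_nonneg.2 (hu w k)
        have e2 := RKfU_nonneg (muU ν n) b VF α x k S (t0 w + r * (t1 w - t0 w))
          (ur (u0 w) (u1 w) r)
        have e3 := hV' k
        positivity
      · have e1 := sub_nonneg.2 (hu w k)
        have e2 := RXU_nonneg (muU ν n) b VF α x k S (t0 w + r * (t1 w - t0 w))
          (ur (u0 w) (u1 w) r)
        have e3 := hV' k
        positivity
      · have e1 := sub_nonneg.2 (ht w)
        have e2 := RKbU_nonneg (muU ν n) b VF α x S (t0 w + r * (t1 w - t0 w))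
          (ur (u0 w) (u1 w) r)
        positivity)
    (fun a _ S => by
      rcases a with ⟨w, k | k | k⟩ <;> simp only [Sum.elim_inl, Sum.elim_inr]
      · rcases (hu w k).eq_or_lt with h | h
        · simp only [h, sub_self, mul_zero, zero_mul]
          exact continuousOn_const
        · exact continuousOn_const.mul
            (cont_fU hG hx hV k S (ht0 w) (ht w) (ht1 w) (hu0 w) (hu w) (hu1 w) h)
      · rcases (hu w k).eq_or_lt with h | h
        · simp only [h, sub_self, mul_zero, zero_mul]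
          exact continuousOn_const
        · exact continuousOn_const.mul
            (cont_xU hG hx hV k S (ht0 w) (ht w) (ht1 w) (hu0 w) (hu w) (hu1 w) h)
      · rcases (ht w).eq_or_lt with h | h
        · simp only [h, sub_self, mul_zero, zero_mul]
          exact continuousOn_const
        · exact continuousOn_const.mul
            (cont_bU hG hx S (ht0 w) h (ht1 w) (hu0 w) (hu w) (hu1 w)))
    (fun a _ S hS => by
      rcases a with ⟨w, k | k | k⟩ <;> simp only [Sum.elim_inl, Sum.elim_inr]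
      · refine le_trans ?_ (hQ w k S hS)
        rcases (hu w k).eq_or_lt with h | h
        · simp only [h, sub_self, mul_zero, zero_mul]
          simpa using QFU_nonneg (muU ν n) b hV α x k S (t1 w) (u1 w)
        · rw [intervalIntegral.integral_const_mul]
          have h4 := window_fU hG hx hx1 hV k S (ht0 w) (ht w) (ht1 w) (hu0 w) (hu w) (hu1 w) h
          have h5 := QFU_nonneg (muU ν n) b hV α x k S (t0 w) (u0 w)
          rw [mul_assoc]
          linarith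
      · refine le_trans ?_ (hQ w k S hS)
        rcases (hu w k).eq_or_lt with h | h
        · simp only [h, sub_self, mul_zero, zero_mul]
          simpa using QFU_nonneg (muU ν n) b hV α x k S (t1 w) (u1 w)
        · rw [intervalIntegral.integral_const_mul]
          have h4 := window_xU hG hx hV k S (ht0 w) (ht w) (ht1 w) (hu0 w) (hu w) (hu1 w) h
          have h5 := QFU_nonneg (muU ν n) b hV α x k S (t0 w) (u0 w)
          rw [mul_assoc]
          linarith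
      · refine le_trans ?_ (hQb w S hS)
        rcases (ht w).eq_or_lt with h | h
        · simp only [h, sub_self, mul_zero, zero_mul]
          simpa using QBU_nonneg (muU ν n) b VF α x S (t1 w) (u1 w)
        · rw [intervalIntegral.integral_const_mul]
          have h4 := window_bU hG hx hx1 hn hb S (ht0 w) h (ht1 w) (hu0 w) (hu w) (hu1 w)
          have h5 := QBU_nonneg (muU ν n) b VF α x S (t0 w) (u0 w)
          rw [mul_assoc]
          linarith)
    D (fun d => p (q d)) (P := fun d S r => NmU n ν b VF α x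
      (t0 (q d) + r * (t1 (q d) - t0 (q d))) (ur (u0 (q d)) (u1 (q d)) r) (f d) S (R d S))
    (C := fun d => NmU n ν b VF α x (t1 (q d)) (u1 (q d)) (f d) (SN n (m1 - 1))
      (R d (SN n (m1 - 1))))
    (fun d _ S r _ => NmU_nonneg hν h0 hA (hf d))
    (fun d _ S S' hS r hr => by
      have a1 := tr_mem (ht (q d)) hr
      have a2 := ur_mem (hu (q d)) hr
      exact NmU_mono hν h0 hA hV' ((ht0 _).trans a1.1) le_rfl (a1.2.trans (ht1 _))
        (fun k => (hu0 _ k).trans (a2 k).1) (fun _ => le_rfl)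
        (fun k => (a2 k).2.trans (hu1 _ k)) hS (hR d S S' hS) (hf d))
    (fun d _ r hr => by
      have a1 := tr_mem (ht (q d)) hr
      have a2 := ur_mem (hu (q d)) hr
      exact NmU_mono hν h0 hA hV' ((ht0 _).trans a1.1) a1.2 (ht1 _)
        (fun k => (hu0 _ k).trans (a2 k).1) (fun k => (a2 k).2) (hu1 _) (le_refl _)
        (le_refl _) (hf d))
    E hg hC
  have hN' : (2 * ((Finset.univ : Finset (J × (A ⊕ A ⊕ Unit))).card : ℝ) + D.card + E.card) =
      N := by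
    rw [hN, Finset.card_univ, Fintype.card_prod, Fintype.card_sum, Fintype.card_sum,
      Fintype.card_unit]
    push_cast
    ring
  rw [hN'] at h1 h2 h3
  refine ⟨r, hrI, m, hm, fun w m' hm' => ⟨fun k => ?_, fun k => ?_, ?_⟩, h2, h3⟩
  · exact h1 (w, Sum.inl k) (Finset.mem_univ _) m' hm'
  · exact h1 (w, Sum.inr (Sum.inl k)) (Finset.mem_univ _) m' hm'
  · exact h1 (w, Sum.inr (Sum.inr ())) (Finset.mem_univ _) m' hm'

section num

variable (n : ℕ) (ν : Measure Th) (b : ℝ) (α : A → Th → ℝ) (x : ℝ) {LB LF : Type} [Fintype LB]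
  [DecidableEq LB] [Fintype LF] [DecidableEq LF] (cB : LB → ℝ) (cF : LF → ℝ)
  (a : LF → Th → ℝ)

/-- the conditional mean of `⟨f⟩` in the system with the levels `cB`, `cF` -/
noncomputable abbrev cxT (K : Finset (Co n LB LF)) (f : Th × Xs n → ℝ) :
    (Co n LB LF → ℝ) → ℝ :=
  cx (g1 _) K (Zxm (muU ν n) 1 (SU b cB cF a) x) (avm (muU ν n) 1 (SU b cB cF a) f)

/-- the mean in the system with the levels `cB`, `cF` -/
noncomputable abbrev exT (Ψ : (Co n LB LF → ℝ) → ℝ) : ℝ :=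
  ex (g1 _) (Zxm (muU ν n) 1 (SU b cB cF a) x) Ψ

/-- rank one for the class `k` -/
noncomputable abbrev rkT (k : A) (S : Finset (Fin n)) (K : Finset (Co n LB LF)) : ℝ :=
  exT n ν b x cB cF a fun z => ∑ i ∈ S, ∑ j ∈ S,
    (cxT n ν b x cB cF a K (fun w => α k w.1 * sp w.2 i * (α k w.1 * sp w.2 j)) z -
      cxT n ν b x cB cF a K (fun w => α k w.1 * sp w.2 i) z *
        cxT n ν b x cB cF a K (fun w => α k w.1 * sp w.2 j) z) ^ 2

/-- the response of the class `k` -/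
noncomputable abbrev rxT (k : A) (S : Finset (Fin n)) (K : Finset (Co n LB LF)) : ℝ :=
  exT n ν b x cB cF a fun z => ∑ i ∈ S, ∑ j ∈ S,
    rg (muU ν n) (SU b cB cF a) x K (fun w => α k w.1 * sp w.2 i)
      (fun w => α k w.1 * sp w.2 j) z ^ 2

/-- rank one for the pairs -/
noncomputable abbrev rbT (S : Finset (Fin n)) (K : Finset (Co n LB LF)) : ℝ :=
  exT n ν b x cB cF a fun z => ∑ q ∈ psU S, ∑ r ∈ psU S,
    (cxT n ν b x cB cF a K (fun w => SkS q w.2 * SkS r w.2) z -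
      cxT n ν b x cB cF a K (fun w => SkS q w.2) z *
        cxT n ν b x cB cF a K (fun w => SkS r w.2) z) ^ 2

/-- the increments of the second moments of the means of the class `k` from `K` to `K'` -/
noncomputable abbrev incT (k : A) (S : Finset (Fin n)) (K K' : Finset (Co n LB LF)) : ℝ :=
  ∑ j ∈ S, (exT n ν b x cB cF a
      (fun z => cxT n ν b x cB cF a K' (fun w => α k w.1 * sp w.2 j) z ^ 2) -
    exT n ν b x cB cF a
      (fun z => cxT n ν b x cB cF a K (fun w => α k w.1 * sp w.2 j) z ^ 2))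

/-- the increments of the second moments of the pairs from `K` to `K'` -/
noncomputable abbrev ppT (S : Finset (Fin n)) (K K' : Finset (Co n LB LF)) : ℝ :=
  ∑ q ∈ psU S, (exT n ν b x cB cF a (fun z => cxT n ν b x cB cF a K' (fun w => SkS q w.2) z ^ 2) -
    exT n ν b x cB cF a (fun z => cxT n ν b x cB cF a K (fun w => SkS q w.2) z ^ 2))

/-- what the choice gives at the window with the end point `(t1, u1)` and the lengths `dt`, `du`,
in the system with the levels `(cB, BL)`, `(cF, FL)`, the last `m` sites being hidden -/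
structure TypU (VF : A → ℝ) (S0 : Finset (Fin n)) (t1 : ℝ) (u1 : A → ℝ) (dt : ℝ) (du : A → ℝ)
    (N M : ℝ) (m : ℕ) (BL : Finset LB) (FL : Finset LF) : Prop where
  rk : ∀ k, ∀ S : Finset (Fin n), S = SN n m ∨ S = SN n (m - 1) →
    x ^ 2 * VF k * du k * rkT n ν b α x cB cF a k S (Kset S BL FL) ≤
      N * ffU n ν b VF α x k S0 t1 u1
  rx : ∀ k, ∀ S : Finset (Fin n), S = SN n m ∨ S = SN n (m - 1) →
    VF k * du k * rxT n ν b α x cB cF a k S (Kset S BL FL) ≤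
      N * ffU n ν b VF α x k S0 t1 u1
  rb : ∀ S : Finset (Fin n), S = SN n m ∨ S = SN n (m - 1) →
    x ^ 2 * (b ^ 2 / n) * dt * rbT n ν b x cB cF a S (Kset S BL FL) ≤
      N * ppU n ν b VF α x S0 t1 u1
  inc : ∀ k, ∀ i0 : Fin n, i0.1 + m = n →
    incT n ν b α x cB cF a k (SN n m) (Kset (SN n m) BL FL) (Kset (insert i0 (SN n m)) BL FL) ≤
      N * ffU n ν b VF α x k S0 t1 u1 / M
  pp : ∀ i0 : Fin n, i0.1 + m = n →
    ppT n ν b x cB cF a (SN n m) (Kset (SN n m) BL FL) (Kset (insert i0 (SN n m)) BL FL) ≤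
      N * ppU n ν b VF α x S0 t1 u1 / M

end num

/-- **TYPICAL POINTS in the ensemble `U`.** Paths `j : J` with the parameter `r (p j)`; one number
`m` of hidden sites in `[m1, m2]`; `N = #J (5 #A + 3) + #E`. -/
theorem typU (hν : IsFiniteMeasure ν) (h0 : ν ≠ 0) (hA : AmU α η) (hn : 0 < n) (hb : 0 < b)
    (hV : ∀ k, 0 < VF k) (hx : 0 ≤ x) (hx1 : x ≤ 1)
    {m1 m2 : ℕ} (h1 : 1 ≤ m1) (h12 : m1 ≤ m2) {W : Type*} [Fintype W] {J : Type*} [Fintype J]
    (p : J → W) {t0 t1 : J → ℝ} {u0 u1 : J → A → ℝ}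
    (ht0 : ∀ j, 0 ≤ t0 j) (ht : ∀ j, t0 j ≤ t1 j) (ht1 : ∀ j, t1 j ≤ 1)
    (hu0 : ∀ j k, 0 ≤ u0 j k) (hu : ∀ j k, u0 j k ≤ u1 j k) (hu1 : ∀ j k, u1 j k ≤ 1)
    {ε : Type*} (E : Finset ε) {g : ε → (W → ℝ) → ℕ → ℝ} {C : ε → ℝ}
    (hg : ∀ e ∈ E, ∀ r : W → ℝ, (∀ w, r w ∈ Set.Icc (0 : ℝ) 1) →
      ∀ m ∈ Finset.Icc m1 m2, 0 ≤ g e r m)
    (hC : ∀ e ∈ E, ∀ r : W → ℝ, (∀ w, r w ∈ Set.Icc (0 : ℝ) 1) →
      ∑ m ∈ Finset.Icc m1 m2, g e r m ≤ C e)
    {N : ℝ} (hN : N = Fintype.card J * (5 * Fintype.card A + 3) + E.card) :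
    ∃ r : W → ℝ, (∀ w, r w ∈ Set.Icc (0 : ℝ) 1) ∧ ∃ m ∈ Finset.Icc m1 m2,
      (∀ (j : J) (LB LF : Type) [Fintype LB] [DecidableEq LB] [Fintype LF] [DecidableEq LF]
        (κ : LF → A) (cB : LB → ℝ) (cF : LF → ℝ) (BL : Finset LB) (FL : Finset LF),
        ShU κ cB cF BL FL VF (t0 j + r (p j) * (t1 j - t0 j)) (ur (u0 j) (u1 j) (r (p j))) →
        TypU n ν b α x cB cF (fun l => α (κ l)) VF (SN n (m1 - 1)) (t1 j) (u1 j)
          (t1 j - t0 j) (fun k => u1 j k - u0 j k) N ((m2 : ℝ) - m1 + 1) m BL FL) ∧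
      ∀ e ∈ E, g e r m ≤ N * C e / ((m2 : ℝ) - m1 + 1) := by
  classical
  have hV' : ∀ k, 0 ≤ VF k := fun k => (hV k).le
  obtain ⟨r, hrI, m, hm, hK, hD, hE⟩ := typUK (N := N) hν h0 hA hn hb hV hx hx1 h12 p ht0 ht ht1
    hu0 hu hu1 (Finset.univ : Finset (J × (A ⊕ Unit))) Prod.fst
    (fun _ => Fin n ⊕ Pair n)
    (fun d c w => Sum.elim (fun i => Sum.elim (fun k => α k w.1 * sp w.2 i) (fun _ => 0) d.2)
      (fun q => SkS q w.2) c)
    (fun d c => by
      rcases d with ⟨w, k | k⟩ <;> rcases c with i | q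
      · exact bm_ak hA k i
      · exact bm_SkSU q
      · exact Bm.const 0
      · exact bm_SkSU q)
    (fun d S => Sum.elim (fun _ => S.disjSum (∅ : Finset (Pair n)))
      (fun _ => (∅ : Finset (Fin n)).disjSum (psU S)) d.2)
    (fun d S S' hS => by
      rcases d with ⟨w, k | k⟩
      · exact Finset.disjSum_mono hS (le_refl (∅ : Finset (Pair n)))
      · exact Finset.disjSum_mono (le_refl (∅ : Finset (Fin n))) (psU_mono hS))
    E hg hC (by
      rw [hN, Finset.card_univ, Fintype.card_prod, Fintype.card_sum, Fintype.card_unit]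
      push_cast
      ring)
  refine ⟨r, hrI, m, hm, fun w LB LF _ _ _ _ κ cB cF BL FL hs => ?_, hE⟩
  have hm1 : 1 ≤ m := h1.trans (Finset.mem_Icc.1 hm).1
  have a1 := tr_mem (ht w) (hrI (p w))
  have a2 := ur_mem (hu w) (hrI (p w))
  have t0' := (ht0 w).trans a1.1
  have t1' := a1.2.trans (ht1 w)
  have u0' : ∀ k, 0 ≤ ur (u0 w) (u1 w) (r (p w)) k := fun k => (hu0 w k).trans (a2 k).1
  have u1' : ∀ k, ur (u0 w) (u1 w) (r (p w)) k ≤ 1 := fun k => (a2 k).2.trans (hu1 w k)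
  have hG := gmSb (n := n) hν h0 hA b VF
  have hG1 := gmU (n := n) b cB cF η hν h0 (AmU_comp hA κ)
  have hSm : ∀ S : Finset (Fin n), S = SN n m ∨ S = SN n (m - 1) →
      ∃ m' ∈ ({m, m - 1} : Finset ℕ), S = SN n m' := by
    rintro S (rfl | rfl)
    · exact ⟨m, by simp, rfl⟩
    · exact ⟨m - 1, by simp, rfl⟩
  have hinl : ∀ (k : A) (t : ℝ) (u : A → ℝ) (S S' : Finset (Fin n)),
      NmU n ν b VF α x t u (fun (c : Fin n ⊕ Pair n) (w : Th × Xs n) => Sum.elim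
        (fun i => α k w.1 * sp w.2 i) (fun q => SkS q w.2) c) S
        (S'.disjSum (∅ : Finset (Pair n))) =
      NmU n ν b VF α x t u (fun (i : Fin n) w => α k w.1 * sp w.2 i) S S' := by
    intro k t u S S'
    unfold NmU
    simp only [Finset.sum_disjSum, Finset.sum_empty, add_zero, Sum.elim_inl]
  have hinr : ∀ (t : ℝ) (u : A → ℝ) (S : Finset (Fin n)) (S' : Finset (Pair n)),
      NmU n ν b VF α x t u (fun (c : Fin n ⊕ Pair n) (w : Th × Xs n) => Sum.elim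
        (fun _ => (0 : ℝ)) (fun q => SkS q w.2) c) S
        ((∅ : Finset (Fin n)).disjSum S') =
      NmU n ν b VF α x t u (fun (q : Pair n) w => SkS q w.2) S S' := by
    intro t u S S'
    unfold NmU
    simp only [Finset.sum_disjSum, Finset.sum_empty, zero_add, Sum.elim_inr]
  refine ⟨fun k S hS => ?_, fun k S hS => ?_, fun S hS => ?_, fun k i0 hi0 => ?_,
    fun i0 hi0 => ?_⟩
  · obtain ⟨m', hm', rfl⟩ := hSm S hS
    have h4 := (hK w m' hm').1 k
    rw [← rkfU_eq hG hG1 hV hs x k (SN n m')] at h4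
    exact h4
  · obtain ⟨m', hm', rfl⟩ := hSm S hS
    have h4 := (hK w m' hm').2.1 k
    rw [← rxU_eq hG hG1 hV hs x k (SN n m')] at h4
    exact h4
  · obtain ⟨m', hm', rfl⟩ := hSm S hS
    have h4 := (hK w m' hm').2.2
    rw [← rkbU_eq hG hG1 hn hb hV hs x (SN n m')] at h4
    exact h4
  · have h4 := hD (w, Sum.inl k) (Finset.mem_univ _)
    simp only [Sum.elim_inl, hinl] at h4
    have hin : insert i0 (SN n m) = SN n (m - 1) := SN_insert hm1 hi0
    have h5 := incU_le (S := SN n m) (S' := insert i0 (SN n m)) (r := SN n m)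
      (r' := SN n (m - 1)) (x := x) (b := b) hν h0 hA hV' t0' t1' u0' u1' hs
      (fun j => bm_ak hA k j) (SN_anti (Nat.sub_le m 1))
    refine le_trans h5 ?_
    rw [hin]
    exact h4
  · have h4 := hD (w, Sum.inr ()) (Finset.mem_univ _)
    simp only [Sum.elim_inr, hinr] at h4
    have hin : insert i0 (SN n m) = SN n (m - 1) := SN_insert hm1 hi0
    have h5 := incU_le (S := SN n m) (S' := insert i0 (SN n m)) (r := psU (SN n m))
      (r' := psU (SN n (m - 1))) (x := x) (b := b) hν h0 hA hV' t0' t1' u0' u1' hs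
      (fun q => bm_SkSU q) (psU_mono (SN_anti (Nat.sub_le m 1)))
    refine le_trans h5 ?_
    rw [hin]
    exact h4

/-- **TYPICAL POINT in the ensemble `U`, one window.** -/
theorem typU1 (hν : IsFiniteMeasure ν) (h0 : ν ≠ 0) (hA : AmU α η) (hn : 0 < n) (hb : 0 < b)
    (hV : ∀ k, 0 < VF k) (hx : 0 ≤ x) (hx1 : x ≤ 1)
    {m1 m2 : ℕ} (h1 : 1 ≤ m1) (h12 : m1 ≤ m2) {t0 t1 : ℝ} {u0 u1 : A → ℝ}
    (ht0 : 0 ≤ t0) (ht : t0 ≤ t1) (ht1 : t1 ≤ 1)
    (hu0 : ∀ k, 0 ≤ u0 k) (hu : ∀ k, u0 k ≤ u1 k) (hu1 : ∀ k, u1 k ≤ 1) :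
    ∃ t ∈ Set.Icc t0 t1, ∃ u : A → ℝ, (∀ k, u0 k ≤ u k ∧ u k ≤ u1 k) ∧ ∃ m ∈ Finset.Icc m1 m2,
      ∀ (LB LF : Type) [Fintype LB] [DecidableEq LB] [Fintype LF] [DecidableEq LF]
        (κ : LF → A) (cB : LB → ℝ) (cF : LF → ℝ) (BL : Finset LB) (FL : Finset LF),
        ShU κ cB cF BL FL VF t u →
        TypU n ν b α x cB cF (fun l => α (κ l)) VF (SN n (m1 - 1)) t1 u1
          (t1 - t0) (fun k => u1 k - u0 k) (5 * Fintype.card A + 3) ((m2 : ℝ) - m1 + 1) m
          BL FL := by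
  obtain ⟨r, hr, m, hm, hT, _⟩ := typU (N := 5 * Fintype.card A + 3) hν h0 hA hn hb hV hx hx1 h1
    h12 (W := Unit) (J := Unit) id (t0 := fun _ => t0) (t1 := fun _ => t1) (u0 := fun _ => u0)
    (u1 := fun _ => u1) (fun _ => ht0) (fun _ => ht) (fun _ => ht1) (fun _ => hu0) (fun _ => hu)
    (fun _ => hu1) (∅ : Finset Unit) (g := fun _ _ _ => 0) (C := fun _ => 0)
    (fun e he => absurd he (Finset.notMem_empty e))
    (fun e he => absurd he (Finset.notMem_empty e)) (by simp)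
  exact ⟨_, tr_mem ht (hr ()), _, ur_mem hu (hr ()), m, hm,
    fun LB LF _ _ _ _ κ cB cF BL FL hs => hT () LB LF κ cB cF BL FL hs⟩

end Vale.Agent.P146.H320
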