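import Vale.Agent.P146.H320.TypU
import Vale.Agent.P146.H320.RkCmp
import Vale.Agent.P146.H420B.GgrC

/-!
The numbers of `TypU` in the letters of the near end: the response as the sum of the means of the
squares of `H420B.Xr`, the plain rank-one number `H615.RKg` by the window of the modulated class.
-/

open MeasureTheory ProbabilityTheory

namespace Vale.Agent.P146.H320

open Vale.Agent.P157.Lv Vale.Agent.P146.H425 Vale.Agent.P146.H332 Vale.Agent.P146.H646
open Vale.Agent.P146.H196 Vale.Agent.P146.H246 Vale.Agent.P146.H347 Vale.Agent.P146.H325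
  Vale.Agent.P146.H816 Vale.Agent.P146.H9.U Vale.Agent.P146.H281.U Vale.Agent.P146.H347.U
  Vale.Agent.P146.H118

set_option linter.unusedSectionVars false

section gm

variable {κ s J : Type} [Fintype κ] [DecidableEq κ] [Fintype s] [DecidableEq s]
variable {Ω : Type} [MeasurableSpace Ω] {μ : Measure Ω} {M0 : ℝ} {E : κ → Ω → ℝ}
variable {σ : s → Ω → ℝ} {τ : J → Ω → ℝ} {a : Ω → ℝ}

/-- the response of `H118` is the response of `H420B` -/
lemma rg_Xr (hG : GM μ E M0) (x : ℝ) (K : Finset κ) (ha : Bm a) (hσ : ∀ i, Bm (σ i))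
    (hτ : ∀ j, Bm (τ j)) (j : J) (i : s) (z : κ → ℝ) :
    rg μ E x K (fun w => a w * τ j w) (fun w => a w * σ i w) z =
      H420B.Xr μ E x K σ a τ j i z := by
  have hw := H347.wt hG 1 x
  have b1 := ha.mul (hτ j)
  have b2 := ha.mul (hσ i)
  have e1 := H646.cx_sub hw (K := K) (H347.bm hG 1 (b1.mul b2)) ((BM.const (1 - x)).mul
    ((H347.bm hG 1 b1).mul (H347.bm hG 1 b2))) z
  have e2 := H646.cx_const_mul hw (K := K) (1 - x) (Ψ := fun y =>
    avm μ 1 E (fun w => a w * τ j w) y * avm μ 1 E (fun w => a w * σ i w) y) z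
  unfold rg H420B.Xr
  show cx (g1 κ) K (Zxm μ 1 E x) (fun u => avm μ 1 E (fun w => a w * τ j w * (a w * σ i w)) u -
    (1 - x) * (avm μ 1 E (fun w => a w * τ j w) u * avm μ 1 E (fun w => a w * σ i w) u)) z -
    x * (cx (g1 κ) K (Zxm μ 1 E x) (avm μ 1 E (fun w => a w * τ j w)) z *
      cx (g1 κ) K (Zxm μ 1 E x) (avm μ 1 E (fun w => a w * σ i w)) z) = _
  rw [e1, e2]

end gm

variable {Th : Type} [MeasurableSpace Th] {n : ℕ} {A : Type} [Fintype A] [DecidableEq A]
  {b x η : ℝ} {VF : A → ℝ} {α : A → Th → ℝ} {ν : Measure Th}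
  {LB LF : Type} [Fintype LB] [DecidableEq LB] [Fintype LF] [DecidableEq LF]
  {cB : LB → ℝ} {cF : LF → ℝ} {a : LF → Th → ℝ}

/-- the response number as the sum of the means of the squares -/
theorem rxT_Xr (hν : IsFiniteMeasure ν) (h0 : ν ≠ 0) (hA : AmU α η) (ha : AmU a η) (k : A)
    (S : Finset (Fin n)) (K : Finset (Co n LB LF)) :
    rxT n ν b α x cB cF a k S K = ∑ j ∈ S, ∑ i ∈ S,
      ex (g1 _) (Zxm (muU ν n) 1 (SU b cB cF a) x) (fun z =>
        H420B.Xr (muU ν n) (SU b cB cF a) x K (fun (i : Fin n) w => sp w.2 i)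
          (fun w => α k w.1) (fun (j : Fin n) w => sp w.2 j) j i z ^ 2) := by
  have hG := gmU (n := n) b cB cF η hν h0 ha
  have hw := H347.wt hG 1 x
  have ba : Bm fun w : Th × Xs n => α k w.1 := bm_amp hA k
  have bs : ∀ i : Fin n, Bm fun w : Th × Xs n => sp w.2 i := fun i => bm_spU i
  have bX : ∀ j i, BM (fun z => H420B.Xr (muU ν n) (SU b cB cF a) x K
      (fun (i : Fin n) w => sp w.2 i) (fun w => α k w.1) (fun (j : Fin n) w => sp w.2 j) j i z ^ 2)
      := fun j i => by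
    have b1 := ba.mul (bs j)
    have b2 := ba.mul (bs i)
    have h := ((hw.bm_cx K (H347.bm hG 1 (b1.mul b2))).sub ((BM.const (1 - x)).mul (hw.bm_cx K
      ((H347.bm hG 1 b1).mul (H347.bm hG 1 b2))))).sub ((BM.const x).mul
      ((hw.bm_cx K (H347.bm hG 1 b1)).mul (hw.bm_cx K (H347.bm hG 1 b2))))
    exact H487.BM.sq' h
  have e : (fun z : Co n LB LF → ℝ => ∑ j ∈ S, ∑ i ∈ S,
      rg (muU ν n) (SU b cB cF a) x K (fun w => α k w.1 * sp w.2 j)
        (fun w => α k w.1 * sp w.2 i) z ^ 2) = fun z => ∑ j ∈ S, (fun z => ∑ i ∈ S,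
        (fun z => H420B.Xr (muU ν n) (SU b cB cF a) x K (fun (i : Fin n) w => sp w.2 i)
          (fun w => α k w.1) (fun (j : Fin n) w => sp w.2 j) j i z ^ 2) z) z := by
    funext z
    refine Finset.sum_congr rfl fun j _ => Finset.sum_congr rfl fun i _ => ?_
    rw [rg_Xr hG x K ba bs bs j i z]
  unfold rxT exT
  rw [e, H487.ex_sum hw S fun j _ => BM.sum S fun i _ => bX j i]
  refine Finset.sum_congr rfl fun j _ => ?_
  rw [H487.ex_sum hw S fun i _ => bX j i]

/-- the weighted rank-one number in the letters of the near end -/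
lemma rkT_RKa (k : A) (S : Finset (Fin n)) (K : Finset (Co n LB LF)) :
    rkT n ν b α x cB cF a k S K =
      ex (g1 _) (Zxm (muU ν n) 1 (SU b cB cF a) x) (RKa (muU ν n) (SU b cB cF a) x K
        (fun w => α k w.1) (fun (i : Fin n) w => sp w.2 i) S) := rfl

section typ

variable {S0 : Finset (Fin n)} {t1 dt N M : ℝ} {u1 du : A → ℝ} {m : ℕ} {BL : Finset LB}
  {FL : Finset LF}

/-- **The response at a typical point**, in the letters of `H420B`. -/
theorem TypU.Xr_le (T : TypU n ν b α x cB cF a VF S0 t1 u1 dt du N M m BL FL)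
    (hν : IsFiniteMeasure ν) (h0 : ν ≠ 0) (hA : AmU α η) (ha : AmU a η) (k : A)
    (hV : 0 < VF k) (hdu : 0 < du k) {S : Finset (Fin n)} (hS : S = SN n m ∨ S = SN n (m - 1)) :
    ∑ j ∈ S, ∑ i ∈ S, ex (g1 _) (Zxm (muU ν n) 1 (SU b cB cF a) x) (fun z =>
        H420B.Xr (muU ν n) (SU b cB cF a) x (Kset S BL FL) (fun (i : Fin n) w => sp w.2 i)
          (fun w => α k w.1) (fun (j : Fin n) w => sp w.2 j) j i z ^ 2) ≤
      N * ffU n ν b VF α x k S0 t1 u1 / (VF k * du k) := by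
  rw [← rxT_Xr hν h0 hA ha k S (Kset S BL FL), le_div_iff₀ (mul_pos hV hdu), mul_comm]
  exact T.rx k S hS

/-- **The plain rank-one number at a typical point, by the window of the class `k`.** -/
theorem TypU.RKg_le (T : TypU n ν b α x cB cF a VF S0 t1 u1 dt du N M m BL FL)
    (hν : IsFiniteMeasure ν) (h0 : ν ≠ 0) (hA : AmU α η) (ha : AmU a η) (hη1 : η ≤ 1 / 2) (k : A)
    (hx : 0 < x) (hV : 0 < VF k) (hdu : 0 < du k) {S : Finset (Fin n)}
    (hS : S = SN n m ∨ S = SN n (m - 1)) :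
    ex (g1 _) (Zxm (muU ν n) 1 (SU b cB cF a) x) (H615.RKg (muU ν n) (SU b cB cF a) x
        (Kset S BL FL) (fun (i : Fin n) w => sp w.2 i) S) ≤
      2 * (N * ffU n ν b VF α x k S0 t1 u1 / (x ^ 2 * VF k * du k)) +
        57 * η ^ 2 * √(ex (g1 _) (Zxm (muU ν n) 1 (SU b cB cF a) x)
          (H463.Q4g (muU ν n) (SU b cB cF a) x (Kset S BL FL)
            (fun (i : Fin n) w => sp w.2 i) S)) := by
  have hG := gmU (n := n) b cB cF η hν h0 ha
  have ba : Bm fun w : Th × Xs n => α k w.1 := bm_amp hA k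
  have bs : ∀ i : Fin n, Bm fun w : Th × Xs n => sp w.2 i := fun i => bm_spU i
  have h1 := ex_RKg_le hG hA.nn hη1 x (Kset S BL FL) ba bs (fun w => hA.bd k w.1) S
  refine h1.trans (add_le_add (mul_le_mul_of_nonneg_left ?_ (by norm_num)) le_rfl)
  rw [← rkT_RKa, le_div_iff₀ (by positivity), mul_comm]
  exact T.rk k S hS

end typ

end Vale.Agent.P146.H320
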